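import Vale.Agent.P161.Tree

/-! Automorphisms of regular trees and level sets of branches. -/

namespace Vale.Agent.P161

open Vale.Agent.P151
open scoped Classical

variable {V : Type*} {G : SimpleGraph V} {u v w c c' x y : V}

/-- connected local isomorphisms based at `p0` -/
def PI (G : SimpleGraph V) (p0 : V × V) (R : Set (V × V)) : Prop :=
  p0 ∈ R ∧ (∀ p ∈ R, ∀ q ∈ R, (p.1 = q.1 ↔ p.2 = q.2) ∧ (G.Adj p.1 q.1 ↔ G.Adj p.2 q.2)) ∧
    ∀ p ∈ R, Relation.ReflTransGen (fun a b => a ∈ R ∧ b ∈ R ∧ G.Adj a.1 b.1) p0 p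

lemma rtg_map {α β : Type*} {r : α → α → Prop} {s : β → β → Prop} (f : α → β)
    (h : ∀ a b, r a b → s (f a) (f b)) {a b : α} (hab : Relation.ReflTransGen r a b) :
    Relation.ReflTransGen s (f a) (f b) := by
  induction hab with
  | refl => rfl
  | tail _ h2 ih => exact ih.tail (h _ _ h2)

lemma PI.swap {p0 : V × V} {R : Set (V × V)} (h : PI G p0 R) :
    PI G p0.swap (Prod.swap ⁻¹' R) := by
  refine ⟨h.1, fun p hp q hq => ⟨(h.2.1 _ hp _ hq).1.symm, (h.2.1 _ hp _ hq).2.symm⟩,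
    fun p hp => ?_⟩
  exact rtg_map Prod.swap
    (fun a b hab => ⟨hab.1, hab.2.1, (h.2.1 _ hab.1 _ hab.2.1).2.1 hab.2.2⟩) (h.2.2 _ hp)

lemma PI.adj_unique (hG : G.IsTree) {p0 : V × V} {R : Set (V × V)} (h : PI G p0 R)
    {p q : V × V} (hp : p ∈ R) (hq : q ∈ R) {a : V} (ha : ∀ r ∈ R, r.1 ≠ a) (h1 : G.Adj p.1 a)
    (h2 : G.Adj q.1 a) : q.1 = p.1 := by
  have key : ∀ r ∈ R, (r.1 ∈ Br G p.1 a ↔ p0.1 ∈ Br G p.1 a) := by
    intro r hr
    have := h.2.2 r hr
    clear hr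
    induction this with
    | refl => rfl
    | @tail b c _ hbc ih =>
      refine Iff.trans ?_ ih
      have hne : s(b.1, c.1) ≠ s(p.1, a) := fun e => by
        rcases Sym2.eq_iff.1 e with ⟨_, e⟩ | ⟨e, _⟩
        · exact ha c hbc.2.1 e
        · exact ha b hbc.1 e
      exact ⟨fun h' => Br_step h' hbc.2.2.symm (by rwa [Sym2.eq_swap]),
        fun h' => Br_step h' hbc.2.2 hne⟩
  have hq' : q.1 ∈ Br G p.1 a := (key q hq).2 ((key p hp).1 (self_mem_Br _ _))
  by_contra hne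
  refine not_mem_Br hG h1 (Br_step hq' h2 fun e => ?_)
  rcases Sym2.eq_iff.1 e with ⟨e, _⟩ | ⟨e, _⟩
  · exact hne e
  · exact ha q hq e

lemma PI.insert (hG : G.IsTree) {p0 : V × V} {R : Set (V × V)} (h : PI G p0 R) {p : V × V}
    (hp : p ∈ R) {a b : V} (ha : ∀ r ∈ R, r.1 ≠ a) (hb : ∀ r ∈ R, r.2 ≠ b) (h1 : G.Adj p.1 a)
    (h2 : G.Adj p.2 b) : PI G p0 (insert (a, b) R) := by
  have key : ∀ q ∈ R, (q.1 = a ↔ q.2 = b) ∧ (G.Adj q.1 a ↔ G.Adj q.2 b) := by
    intro q hq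
    refine ⟨iff_of_false (ha q hq) (hb q hq), fun h3 => ?_, fun h3 => ?_⟩
    · rw [(h.2.1 q hq p hp).1.1 (h.adj_unique hG hp hq ha h1 h3)]; exact h2
    · have := h.swap.adj_unique hG (p := p.swap) (q := q.swap) hp hq
        (fun r hr => hb r.swap hr) h2 h3
      rw [(h.2.1 q hq p hp).1.2 this]; exact h1
  have mono : ∀ q ∈ R, Relation.ReflTransGen (fun s t => s ∈ Insert.insert (a, b) R ∧
      t ∈ Insert.insert (a, b) R ∧ G.Adj s.1 t.1) p0 q := fun q hq =>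
    rtg_map id (fun s t hst => ⟨Or.inr hst.1, Or.inr hst.2.1, hst.2.2⟩) (h.2.2 q hq)
  refine ⟨Or.inr h.1, ?_, ?_⟩
  · rintro q (rfl | hq) r (rfl | hr)
    · simp
    · exact ⟨by simpa only [eq_comm] using (key r hr).1,
        by simpa only [G.adj_comm] using (key r hr).2⟩
    · exact key q hq
    · exact h.2.1 q hq r hr
  · rintro q (rfl | hq)
    · exact (mono p hp).tail ⟨Or.inr hp, Or.inl rfl, h1⟩
    · exact mono q hq

variable [G.LocallyFinite] {d : ℕ}

lemma PI.total (hG : G.IsTree) (hreg : ∀ v, G.degree v = d) {p0 : V × V} {R : Set (V × V)}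
    (h : PI G p0 R) (hmax : ∀ a b, PI G p0 (Insert.insert (a, b) R) → (a, b) ∈ R) (x : V) :
    ∃ y, (x, y) ∈ R := by
  refine conn_ind hG (u := p0.1) (P := fun x => ∃ y, (x, y) ∈ R) ⟨p0.2, h.1⟩ ?_ x
  rintro x a ⟨y, hy⟩ hxa
  by_contra hn
  have ha : ∀ r ∈ R, r.1 ≠ a := fun r hr e => hn ⟨r.2, e ▸ hr⟩
  have hall : ∀ b, G.Adj y b → ∃ z, (z, b) ∈ R := by
    intro b hb
    by_contra hn'
    exact hn ⟨b, hmax a b (h.insert hG hy ha (fun r hr e => hn' ⟨r.1, e ▸ hr⟩) hxa hb)⟩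
  choose! f hf using hall
  have := Finset.card_le_card_of_injOn (s := G.neighborFinset y) (t := (G.neighborFinset x).erase a)
    f (fun b hb => by
      have hb' : G.Adj y b := by simpa using hb
      simp only [Finset.coe_erase, Set.mem_sdiff, Finset.mem_coe, SimpleGraph.mem_neighborFinset,
        Set.mem_singleton_iff]
      exact ⟨(h.2.1 _ hy _ (hf b hb')).2.2 hb', ha _ (hf b hb')⟩)
    (fun b hb b' hb' e => (h.2.1 _ (hf b (by simpa using hb)) _ (hf b' (by simpa using hb'))).1.1 e)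
  rw [Finset.card_erase_of_mem (by simpa using hxa), G.card_neighborFinset_eq_degree,
    G.card_neighborFinset_eq_degree, hreg, hreg] at this
  have : 0 < G.degree x := (G.degree_pos_iff_exists_adj x).2 ⟨a, hxa⟩
  rw [hreg] at this
  omega

lemma PI.extend (hG : G.IsTree) (hreg : ∀ v, G.degree v = d) {p0 : V × V} {R : Set (V × V)}
    (h : PI G p0 R) : ∃ g : G ≃g G, ∀ p ∈ R, g p.1 = p.2 := by
  obtain ⟨S, hRS, hS⟩ := zorn_subset_nonempty {S | PI G p0 S} (fun C hC hc ⟨S0, h0⟩ => by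
    refine ⟨⋃₀ C, ⟨⟨S0, h0, (hC h0).1⟩, ?_, ?_⟩, fun s hs => Set.subset_sUnion_of_mem hs⟩
    · rintro p ⟨A, hA, hp⟩ q ⟨B, hB, hq⟩
      rcases hc.total hA hB with e | e
      · exact (hC hB).2.1 p (e hp) q hq
      · exact (hC hA).2.1 p hp q (e hq)
    · rintro p ⟨A, hA, hp⟩
      exact rtg_map id (fun s t hst => ⟨⟨A, hA, hst.1⟩, ⟨A, hA, hst.2.1⟩, hst.2.2⟩)
        ((hC hA).2.2 p hp)) R h
  have h1 := hS.prop.total hG hreg fun a b hab =>
    hS.le_of_ge hab (Set.subset_insert _ _) (Set.mem_insert _ _)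
  have h2 := hS.prop.swap.total hG hreg fun a b hab => by
    have := hab.swap
    have e : Prod.swap ⁻¹' Insert.insert (a, b) (Prod.swap ⁻¹' S) = Insert.insert (b, a) S := by
      ext ⟨s, t⟩; simp [and_comm]
    rw [e] at this
    exact hS.le_of_ge this (Set.subset_insert _ _) (Set.mem_insert _ _)
  choose f hf using h1
  choose f' hf' using h2
  refine ⟨⟨⟨f, f', fun x => (hS.prop.2.1 _ (hf' (f x)) _ (hf x)).1.2 rfl,
    fun y => (hS.prop.2.1 _ (hf (f' y)) _ (hf' y)).1.1 rfl⟩,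
    fun {a b} => (hS.prop.2.1 _ (hf a) _ (hf b)).2.symm⟩, fun p hp => ?_⟩
  exact (hS.prop.2.1 _ (hf p.1) _ (hRS hp)).1.1 rfl

variable (G) in
/-- descendants at depth `r` -/
noncomputable def desc : ℕ → V → V → Finset V
  | 0, u, _ => {u}
  | r + 1, u, v => (ch G u v).biUnion (fun c => desc r c u)

lemma mem_desc_succ {r : ℕ} :
    w ∈ desc G (r + 1) u v ↔ ∃ c, G.Adj u c ∧ c ≠ v ∧ w ∈ desc G r c u := by
  simp [desc, mem_ch, and_assoc]

lemma mem_desc_zero : w ∈ desc G 0 u v ↔ w = u := by simp [desc]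

lemma desc_subset_Br (hG : G.IsTree) {r : ℕ} (h : w ∈ desc G r u v) : w ∈ Br G u v := by
  induction r generalizing u v with
  | zero => rw [mem_desc_zero.1 h]; exact self_mem_Br _ _
  | succ r ih =>
    obtain ⟨c, h1, h2, h3⟩ := mem_desc_succ.1 h
    exact Br_child_subset hG h1 h2 (ih h3)

omit [G.LocallyFinite] in
lemma Br_child_unique (hG : G.IsTree) (hc : G.Adj u c) (hc' : G.Adj u c') (h : w ∈ Br G c u)
    (h' : w ∈ Br G c' u) : c = c' := by
  by_contra hne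
  exact (Br_compl hG hc).2 h (Br_child_subset hG hc' (Ne.symm hne) h')

lemma sum_desc_succ (hG : G.IsTree) (r : ℕ) (u v : V) (f : V → ℝ) :
    ∑ w ∈ desc G (r + 1) u v, f w = ∑ c ∈ ch G u v, ∑ w ∈ desc G r c u, f w := by
  rw [desc, Finset.sum_biUnion]
  intro c hc c' hc' hne
  exact Finset.disjoint_left.2 fun w h h' => hne (Br_child_unique hG (mem_ch.1 hc).1
    (mem_ch.1 hc').1 (desc_subset_Br hG h) (desc_subset_Br hG h'))

lemma card_ch_eq (hreg : ∀ v, G.degree v = d) (h : G.Adj u v) :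
    ((ch G u v).card : ℝ) = (d : ℝ) - 1 := by
  have : 0 < G.degree u := (G.degree_pos_iff_exists_adj u).2 ⟨v, h⟩
  rw [ch, Finset.card_erase_of_mem (by simpa using h), G.card_neighborFinset_eq_degree,
    Nat.cast_sub this, hreg]
  simp

lemma sum_desc_one (hG : G.IsTree) (hreg : ∀ v, G.degree v = d) (r : ℕ) (h : G.Adj u v) :
    ∑ _w ∈ desc G r u v, (1 : ℝ) = ((d : ℝ) - 1) ^ r := by
  induction r generalizing u v with
  | zero => simp [desc]
  | succ r ih =>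
    rw [sum_desc_succ hG, Finset.sum_congr rfl fun c hc => ih (mem_ch.1 hc).1.symm,
      Finset.sum_const, nsmul_eq_mul, card_ch_eq hreg h, pow_succ']

lemma desc_unique (hG : G.IsTree) {r r' : ℕ} (h : w ∈ desc G r u v) (h' : w ∈ desc G r' u v) :
    r = r' := by
  induction r generalizing u v r' with
  | zero =>
    cases r' with
    | zero => rfl
    | succ r' =>
      obtain ⟨c, h1, _, h3⟩ := mem_desc_succ.1 h'
      rw [mem_desc_zero.1 h] at h3
      exact absurd (desc_subset_Br hG h3) (not_mem_Br hG h1.symm)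
  | succ r ih =>
    obtain ⟨c, h1, _, h3⟩ := mem_desc_succ.1 h
    cases r' with
    | zero =>
      rw [mem_desc_zero.1 h'] at h3
      exact absurd (desc_subset_Br hG h3) (not_mem_Br hG h1.symm)
    | succ r' =>
      obtain ⟨c', h1', _, h3'⟩ := mem_desc_succ.1 h'
      obtain rfl := Br_child_unique hG h1 h1' (desc_subset_Br hG h3) (desc_subset_Br hG h3')
      rw [ih h3 h3']

lemma desc_adj {r : ℕ} (h : x ∈ desc G r u v) (hxy : G.Adj x y) :
    y ∈ desc G (r + 1) u v ∨ (∃ r' < r, y ∈ desc G r' u v) ∨ (x = u ∧ y = v) := by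
  induction r generalizing u v with
  | zero =>
    obtain rfl := mem_desc_zero.1 h
    by_cases e : y = v
    · exact Or.inr (Or.inr ⟨rfl, e⟩)
    · exact Or.inl (mem_desc_succ.2 ⟨y, hxy, e, mem_desc_zero.2 rfl⟩)
  | succ r ih =>
    obtain ⟨c, h1, h2, h3⟩ := mem_desc_succ.1 h
    rcases ih h3 with h4 | ⟨r', h4, h5⟩ | ⟨_, h4⟩
    · exact Or.inl (mem_desc_succ.2 ⟨c, h1, h2, h4⟩)
    · exact Or.inr (Or.inl ⟨r' + 1, by omega, mem_desc_succ.2 ⟨c, h1, h2, h5⟩⟩)
    · exact Or.inr (Or.inl ⟨0, by omega, mem_desc_zero.2 h4⟩)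

lemma exists_desc_of_ball {n : ℕ} (h : w ∈ ball G n u) : ∃ r ≤ n, w ∈ desc G r u u := by
  induction n generalizing w with
  | zero => exact ⟨0, le_rfl, mem_desc_zero.2 (mem_ball_zero.1 h)⟩
  | succ n ih =>
    rcases mem_ball_succ.1 h with h | ⟨x, hx, hxw⟩
    · obtain ⟨r, h1, h2⟩ := ih h
      exact ⟨r, by omega, h2⟩
    · obtain ⟨r, h1, h2⟩ := ih hx
      rcases desc_adj h2 hxw with h3 | ⟨r', h3, h4⟩ | ⟨h3, h4⟩
      · exact ⟨r + 1, by omega, h3⟩
      · exact ⟨r', by omega, h4⟩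
      · exact absurd (h3.trans h4.symm) hxw.ne

lemma desc_subset_ball {r : ℕ} (h : w ∈ desc G r u v) : w ∈ ball G r u := by
  induction r generalizing u v with
  | zero => exact mem_ball_zero.2 (mem_desc_zero.1 h)
  | succ r ih =>
    obtain ⟨c, h1, _, h3⟩ := mem_desc_succ.1 h
    exact ball_trans' (ball_adj (self_mem_ball 0 u) h1) (ih h3) (by omega)

lemma desc_map (g : G ≃g G) {r : ℕ} (h : w ∈ desc G r u v) : g w ∈ desc G r (g u) (g v) := by
  induction r generalizing u v with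
  | zero => rw [mem_desc_zero.1 h]; exact mem_desc_zero.2 rfl
  | succ r ih =>
    obtain ⟨c, h1, h2, h3⟩ := mem_desc_succ.1 h
    exact mem_desc_succ.2 ⟨g c, g.map_adj_iff.2 h1, g.injective.ne h2, ih h3⟩

lemma exists_PI (hG : G.IsTree) (x x' : V) (k : ℕ) : ∀ y y', y ∈ ball G k x → y' ∈ ball G k x' →
    (∀ j < k, y ∉ ball G j x) → (∀ j < k, y' ∉ ball G j x') →
    ∃ R, PI G (x, x') R ∧ (y, y') ∈ R ∧ ∀ p ∈ R, p.1 ∈ ball G k x ∧ p.2 ∈ ball G k x' := by
  induction k with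
  | zero =>
    intro y y' h h' _ _
    rw [mem_ball_zero.1 h, mem_ball_zero.1 h']
    refine ⟨{(x, x')}, ⟨rfl, ?_, ?_⟩, rfl, ?_⟩
    · rintro p rfl q rfl; simp
    · rintro p rfl; rfl
    · rintro p rfl; exact ⟨self_mem_ball _ _, self_mem_ball _ _⟩
  | succ k ih =>
    intro y y' h h' n n'
    obtain ⟨z, hz, hzy⟩ := (mem_ball_succ.1 h).resolve_left (n k (by omega))
    obtain ⟨z', hz', hzy'⟩ := (mem_ball_succ.1 h').resolve_left (n' k (by omega))
    obtain ⟨R, h1, h2, h3⟩ := ih z z' hz hz' (fun j hj e => n (j + 1) (by omega) (ball_adj e hzy))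
      (fun j hj e => n' (j + 1) (by omega) (ball_adj e hzy'))
    refine ⟨_, h1.insert hG h2 (a := y) (b := y') (fun r hr e => n k (by omega) (e ▸ (h3 r hr).1))
      (fun r hr e => n' k (by omega) (e ▸ (h3 r hr).2)) hzy hzy', Or.inl rfl, ?_⟩
    rintro p (rfl | hp)
    · exact ⟨h, h'⟩
    · exact ⟨ball_mono (by omega) (h3 p hp).1, ball_mono (by omega) (h3 p hp).2⟩

lemma exists_swap (hG : G.IsTree) (hreg : ∀ v, G.degree v = d) (x y : V) :
    ∃ g : G ≃g G, g x = y ∧ g y = x := by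
  have ex := exists_ball_of_reachable (hG.connected x y)
  obtain ⟨R, h1, h2, -⟩ := exists_PI hG x y (Nat.find ex) y x (Nat.find_spec ex)
    (ball_symm (Nat.find_spec ex)) (fun j hj => Nat.find_min ex hj)
    (fun j hj e => Nat.find_min ex hj (ball_symm e))
  obtain ⟨g, hg⟩ := h1.extend hG hreg
  exact ⟨g, hg _ h1.1, hg _ h2⟩

lemma desc_symm (hG : G.IsTree) (hreg : ∀ v, G.degree v = d) {r : ℕ} (h : y ∈ desc G r x x) :
    x ∈ desc G r y y := by
  obtain ⟨g, h1, h2⟩ := exists_swap hG hreg x y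
  simpa only [h1, h2] using desc_map g h

lemma ch_map (g : G ≃g G) (u v : V) : ch G (g u) (g v) = (ch G u v).image g := by
  ext c
  obtain ⟨c, rfl⟩ := g.surjective c
  simp [mem_ch, g.map_adj_iff]

lemma sum_ch_map (g : G ≃g G) (u v : V) (f : V → ℝ) :
    ∑ c ∈ ch G (g u) (g v), f c = ∑ c ∈ ch G u v, f (g c) := by
  rw [ch_map, Finset.sum_image fun a _ b _ h => g.injective h]

end Vale.Agent.P161
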