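import Vale.Agent.P161.Lim

/-! Bounded measurable functions. -/

namespace Vale.Agent.P161

open MeasureTheory Filter Topology
open scoped Classical

/-- bounded and measurable -/
@[fun_prop] structure BM {α : Type*} [MeasurableSpace α] (f : α → ℝ) : Prop where
  meas : Measurable f
  bdd : ∃ C, ∀ x, |f x| ≤ C

namespace BM

variable {α β : Type*} [MeasurableSpace α] [MeasurableSpace β] {f g : α → ℝ}

lemma of_le (hf : Measurable f) (C : ℝ) (h : ∀ x, |f x| ≤ C) : BM f := ⟨hf, C, h⟩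

@[fun_prop] lemma const (c : ℝ) : BM fun _ : α => c := ⟨measurable_const, |c|, fun _ => le_rfl⟩

@[fun_prop] lemma comp {f : β → ℝ} {g : α → β} (hf : BM f) (hg : Measurable g) :
    BM fun x => f (g x) := by
  obtain ⟨C, h⟩ := hf.bdd
  exact ⟨hf.meas.comp hg, C, fun x => h _⟩

lemma cont {φ : ℝ → ℝ} (hφ : Continuous φ) (hf : BM f) : BM fun x => φ (f x) := by
  obtain ⟨C, h⟩ := hf.bdd
  obtain ⟨D, hD⟩ := (isCompact_Icc (a := -C) (b := C)).exists_bound_of_continuousOn
    hφ.continuousOn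
  exact ⟨hφ.measurable.comp hf.meas, D, fun x => hD _ (abs_le.1 (h x))⟩

@[fun_prop] lemma add (hf : BM f) (hg : BM g) : BM fun x => f x + g x := by
  obtain ⟨C, h⟩ := hf.bdd
  obtain ⟨D, h'⟩ := hg.bdd
  exact ⟨hf.meas.add hg.meas, C + D, fun x => (abs_add_le _ _).trans (add_le_add (h x) (h' x))⟩

@[fun_prop] lemma mul (hf : BM f) (hg : BM g) : BM fun x => f x * g x := by
  obtain ⟨C, h⟩ := hf.bdd
  obtain ⟨D, h'⟩ := hg.bdd
  exact ⟨hf.meas.mul hg.meas, C * D, fun x => by
    rw [abs_mul]; exact mul_le_mul (h x) (h' x) (abs_nonneg _) ((abs_nonneg _).trans (h x))⟩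

@[fun_prop] lemma neg (hf : BM f) : BM fun x => -f x := cont continuous_neg hf

@[fun_prop] lemma sub (hf : BM f) (hg : BM g) : BM fun x => f x - g x := by
  simpa only [sub_eq_add_neg] using hf.add hg.neg

@[fun_prop] lemma div_const (hf : BM f) (c : ℝ) : BM fun x => f x / c :=
  cont (φ := fun y => y / c) (by fun_prop) hf

@[fun_prop] lemma pow (hf : BM f) (n : ℕ) : BM fun x => f x ^ n := cont (continuous_pow n) hf

@[fun_prop] lemma exp (hf : BM f) : BM fun x => Real.exp (f x) := cont Real.continuous_exp hf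

@[fun_prop] lemma cosh (hf : BM f) : BM fun x => Real.cosh (f x) := cont Real.continuous_cosh hf

@[fun_prop] lemma sinh (hf : BM f) : BM fun x => Real.sinh (f x) := cont Real.continuous_sinh hf

@[fun_prop] lemma sqrt (hf : BM f) : BM fun x => √(f x) := cont Real.continuous_sqrt hf

@[fun_prop] lemma abs (hf : BM f) : BM fun x => |f x| := cont continuous_abs hf

@[fun_prop] lemma sum {ι : Type*} (s : Finset ι) {f : ι → α → ℝ} (hf : ∀ i ∈ s, BM (f i)) :
    BM fun x => ∑ i ∈ s, f i x := by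
  induction s using Finset.induction_on with
  | empty => simpa using const 0
  | insert a s ha ih =>
    simp only [Finset.sum_insert ha]
    exact (hf a (Finset.mem_insert_self _ _)).add (ih fun i hi => hf i (Finset.mem_insert_of_mem hi))

@[fun_prop] lemma prod {ι : Type*} (s : Finset ι) {f : ι → α → ℝ} (hf : ∀ i ∈ s, BM (f i)) :
    BM fun x => ∏ i ∈ s, f i x := by
  induction s using Finset.induction_on with
  | empty => simpa using const 1
  | insert a s ha ih =>
    simp only [Finset.prod_insert ha]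
    exact (hf a (Finset.mem_insert_self _ _)).mul (ih fun i hi => hf i (Finset.mem_insert_of_mem hi))

lemma ite {p : α → Prop} [DecidablePred p] (hp : MeasurableSet {x | p x}) (hf : BM f) (hg : BM g) :
    BM fun x => if p x then f x else g x := by
  obtain ⟨C, h⟩ := hf.bdd
  obtain ⟨D, h'⟩ := hg.bdd
  refine ⟨Measurable.ite hp hf.meas hg.meas, max C D, fun x => ?_⟩
  split_ifs
  · exact (h x).trans (le_max_left _ _)
  · exact (h' x).trans (le_max_right _ _)

@[fun_prop] lemma measurable (hf : BM f) : Measurable f := hf.meas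

lemma int {ν : Measure α} [IsFiniteMeasure ν] (hf : BM f) : Integrable f ν := by
  obtain ⟨C, h⟩ := hf.bdd
  exact Integrable.of_bound hf.meas.aestronglyMeasurable C (ae_of_all _ h)

@[fun_prop] lemma integral {ν : Measure β} [IsFiniteMeasure ν] {f : α → β → ℝ}
    (hf : BM fun p : α × β => f p.1 p.2) : BM fun x => ∫ y, f x y ∂ν := by
  obtain ⟨C, h⟩ := hf.bdd
  exact ⟨(hf.meas.stronglyMeasurable.integral_prod_right (ν := ν)).measurable, C * ν.real Set.univ,
    fun x => (Real.norm_eq_abs _).symm.trans_le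
      (norm_integral_le_of_norm_le_const (ae_of_all _ fun y => h (x, y)))⟩

lemma fub {μ : Measure α} {ν : Measure β} [IsFiniteMeasure μ] [IsFiniteMeasure ν] {f : α × β → ℝ}
    (hf : BM f) : ∫ p, f p ∂(μ.prod ν) = ∫ x, ∫ y, f (x, y) ∂ν ∂μ := integral_prod f hf.int

lemma swap {μ : Measure α} {ν : Measure β} [IsFiniteMeasure μ] [IsFiniteMeasure ν] {f : α → β → ℝ}
    (hf : BM fun p : α × β => f p.1 p.2) : ∫ x, ∫ y, f x y ∂ν ∂μ = ∫ y, ∫ x, f x y ∂μ ∂ν :=
  integral_integral_swap hf.int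

lemma mp {μ : Measure α} {ν : Measure β} {g : α → β} (hg : MeasurePreserving g μ ν) {f : β → ℝ}
    (hf : BM f) : ∫ y, f y ∂ν = ∫ x, f (g x) ∂μ := by
  rw [← hg.map_eq, integral_map hg.measurable.aemeasurable hf.meas.aestronglyMeasurable]

lemma upd {ι : Type*} [DecidableEq ι] {μ : Measure α} [IsProbabilityMeasure μ] (j : ι) {f : (ι → α) → ℝ}
    (hf : BM f) : ∫ x, f x ∂(Measure.infinitePi fun _ : ι => μ) =
      ∫ x, ∫ y, f (Function.update x j y) ∂μ ∂(Measure.infinitePi fun _ : ι => μ) := by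
  rw [mp ⟨measurable_update', map_update μ j⟩ hf, fub (by fun_prop)]

variable {ν : Measure α} [IsFiniteMeasure ν]

lemma iadd (hf : BM f) (hg : BM g) : ∫ x, (f x + g x) ∂ν = ∫ x, f x ∂ν + ∫ x, g x ∂ν :=
  integral_add hf.int hg.int

lemma isub (hf : BM f) (hg : BM g) : ∫ x, (f x - g x) ∂ν = ∫ x, f x ∂ν - ∫ x, g x ∂ν :=
  integral_sub hf.int hg.int

lemma isum {ι : Type*} (s : Finset ι) {f : ι → α → ℝ} (hf : ∀ i ∈ s, BM (f i)) :
    ∫ x, ∑ i ∈ s, f i x ∂ν = ∑ i ∈ s, ∫ x, f i x ∂ν :=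
  integral_finsetSum s fun i hi => (hf i hi).int

lemma imono (hf : BM f) (hg : BM g) (h : ∀ x, f x ≤ g x) : ∫ x, f x ∂ν ≤ ∫ x, g x ∂ν :=
  integral_mono hf.int hg.int h

lemma imono' (hf : BM f) (hg : BM g) (h : ∀ᵐ x ∂ν, f x ≤ g x) : ∫ x, f x ∂ν ≤ ∫ x, g x ∂ν :=
  integral_mono_ae hf.int hg.int h

end BM

@[fun_prop] lemma BM.spin {α : Type*} [MeasurableSpace α] {f : α → Bool} (hf : Measurable f) :
    BM fun x => spin (f x) :=
  ⟨(measurable_from_top (f := P161.spin)).comp hf, 1, fun x => by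
    unfold P161.spin; split_ifs <;> simp⟩

end Vale.Agent.P161
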