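import Vale.Agent.P161.Est

/-! Rounds of the coupled dynamics. -/

namespace Vale.Agent.P161

open Vale.Agent.P151 MeasureTheory
open scoped Classical unitInterval ENNReal

variable {V : Type*} {G : SimpleGraph V} {θ : ℝ} {T T' L : Finset V} {u v w : V} {δ : I}

/-- joint update in two volumes -/
noncomputable def step2 (G : SimpleGraph V) (θ : ℝ) (T T' : Finset V) (w : V) (y : I)
    (p : (V → ℝ) × (V → ℝ)) : (V → ℝ) × (V → ℝ) := (stp G θ T w y p.1, stp G θ T' w y p.2)

/-- the fields after `n` rounds in the volume `T` -/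
noncomputable def mst (G : SimpleGraph V) (θ : ℝ) (δ : I) (T : Finset V) (n : ℕ)
    (ω : ℕ → V → I) : V → ℝ := st (stp G θ T) T δ 0 n ω

lemma measurable_step2 (T T' : Finset V) (w : V) :
    Measurable fun p : I × ((V → ℝ) × (V → ℝ)) => step2 G θ T T' w p.1 p.2 :=
  ((measurable_stp T w).comp (measurable_fst.prodMk measurable_snd.fst)).prodMk
    ((measurable_stp T' w).comp (measurable_fst.prodMk measurable_snd.snd))

lemma lint_I {f : I → ℝ} (hf : Continuous f) (h0 : ∀ y, 0 ≤ f y) :
    ∫⁻ y, ENNReal.ofReal (f y) = ENNReal.ofReal (∫ y, f y) :=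
  (ofReal_integral_eq_lintegral_ofReal (integrable_I hf) (ae_of_all _ h0)).symm

lemma run_step2 (l : List V) (U : V → I) (p : (V → ℝ) × (V → ℝ)) :
    run (step2 G θ T T') l U p = (run (stp G θ T) l U p.1, run (stp G θ T') l U p.2) := by
  induction l with
  | nil => rfl
  | cons a l ih => simp only [run, ih, step2]

lemma run_filter (l : List V) (U : V → I) (h : V → ℝ) :
    run (stp G θ T) (l.filter (· ∈ T)) U h = run (stp G θ T) l U h := by
  induction l with
  | nil => rfl
  | cons a l ih =>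
    by_cases e : a ∈ T
    · simp only [List.filter_cons, e, decide_true, if_true, run, ih]
    · simp [e, run, ih, stp]

lemma lint_M_stp (hθ : |θ| < 1) {F : Set V → ℝ} (hF : ∀ s, 0 ≤ F s) (w : V) (h : V → ℝ) :
    ∫⁻ y, ENNReal.ofReal (M G θ T (stp G θ T w y h) F) ≤ ENNReal.ofReal (M G θ T h F) := by
  rw [lint_I (continuous_M_stp hθ F) fun y => M_nonneg hθ fun s _ => hF s, integral_M_stp hθ]

lemma measurable_unc (T : Finset V) (v : V) : Measurable (unc G θ T v) :=
  (measurable_const.sub ((measurable_mm T v).pow_const 2)).sqrt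

lemma unc_facts (hθ : |θ| < 1) (h : V → ℝ) :
    1 - mm G θ T v h ^ 2 ≤ unc G θ T v h ∧ 1 - |mm G θ T v h| ≤ unc G θ T v h := by
  have hp := one_sub_mm_pos (G := G) (T := T) (v := v) (h := h) hθ
  have h1 := abs_mm_lt (G := G) hθ T v h
  have h2 := sq_abs (mm G θ T v h)
  have h3 := abs_nonneg (mm G θ T v h)
  constructor
  · exact Real.le_sqrt_of_sq_le (by nlinarith [sq_nonneg (mm G θ T v h)])
  · exact Real.le_sqrt_of_sq_le (by nlinarith)

variable [Countable V]

lemma measurable_mst (T : Finset V) (n : ℕ) : Measurable (mst G θ δ T n) :=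
  measurable_st (measurable_stp T) 0 n

lemma st2_eq (hT : T ⊆ L) (hT' : T' ⊆ L) : ∀ᵐ ω ∂(noise V), ∀ n,
    st (step2 G θ T T') L δ 0 n ω = (mst G θ δ T n ω, mst G θ δ T' n ω) := by
  have : ∀ᵐ ω ∂(noise V), ∀ j, Function.Injective (ω j) := ae_all_iff.2 fun j =>
    (measurePreserving_eval_infinitePi (fun _ : ℕ => iid V) j).quasiMeasurePreserving.ae
      ae_injective
  filter_upwards [this] with ω hω n
  induction n with
  | zero => rfl
  | succ n ih =>
    simp only [st, mst] at ih ⊢
    rw [run_step2, ih, lst_filter hT (hω _).injOn, lst_filter hT' (hω _).injOn, run_filter,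
      run_filter]

lemma lint_M_mst (hθ : |θ| < 1) {F : Set V → ℝ} (hF : ∀ s, 0 ≤ F s) (n : ℕ) :
    ∫⁻ ω, ENNReal.ofReal (M G θ T (mst G θ δ T n ω) F) ∂(noise V) ≤
      ENNReal.ofReal (M G θ T 0 F) := by
  induction n with
  | zero => simp [mst, st]
  | succ n ih =>
    have m := (measurable_M (G := G) (θ := θ) T F).ennreal_ofReal
    refine (lintegral_st_succ (measurable_stp T) (F := fun _ h => ENNReal.ofReal (M G θ T h F))
      (m.comp measurable_snd) 0 n).trans_le (le_trans (lintegral_mono fun ω => ?_) ih)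
    exact Rt_super (measurable_stp T) m (lint_M_stp hθ hF) _

lemma lint_unc_mst (hθ : |θ| < 1) (hv : v ∈ T) (n : ℕ) :
    ∫⁻ ω, ENNReal.ofReal (unc G θ T v (mst G θ δ T n ω)) ∂(noise V) ≤
      ENNReal.ofReal ((1 - δ / 24) ^ n) := by
  induction n with
  | zero => simp [mst, st, unc, mm_zero]
  | succ n ih =>
    have m := (measurable_unc (G := G) (θ := θ) T v).ennreal_ofReal
    have h0 : 0 ≤ 1 - (δ : ℝ) / 24 := by linarith [δ.2.2]
    refine (lintegral_st_succ (measurable_stp T) (F := fun _ h => ENNReal.ofReal (unc G θ T v h))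
      (m.comp measurable_snd) 0 n).trans_le ?_
    refine (lintegral_mono fun ω => Rt_contr (measurable_stp T) m (fun w h => ?_) (c := 23 / 24)
      (by norm_num) (fun h => ?_) hv _).trans ?_
    · rw [lint_I (continuous_unc_stp hθ) fun y => Real.sqrt_nonneg _]
      exact ENNReal.ofReal_le_ofReal (integral_unc_stp hθ)
    · rw [lint_I (continuous_unc_stp hθ) fun y => Real.sqrt_nonneg _,
        ← ENNReal.ofReal_mul (by norm_num)]
      exact ENNReal.ofReal_le_ofReal (integral_unc_stp_self hθ hv)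
    · rw [lintegral_const_mul' _ _ ENNReal.ofReal_ne_top, pow_succ', ENNReal.ofReal_mul h0,
        show 23 / 24 * (δ : ℝ) + (1 - δ) = 1 - δ / 24 by ring]
      exact mul_le_mul_right ih _

lemma sign_change (hθ : |θ| < 1) (hv : v ∈ T) (n : ℕ) :
    noise V {ω | ¬ (0 < mm G θ T v (mst G θ δ T n ω) ↔ 0 < mm G θ T v (mst G θ δ T (n + 1) ω))} ≤
      ENNReal.ofReal ((1 - δ / 24) ^ n) := by
  have m := measurable_mm (G := G) (θ := θ) T v
  let c : (V → ℝ) → ℝ := fun h => if 0 < mm G θ T v h then -1 else 1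
  have mc : Measurable c := Measurable.ite (measurableSet_lt measurable_const m)
    measurable_const measurable_const
  have e : ∀ h h', 1 + c h * mm G θ T v h' = M G θ T h' (fun s => 1 + c h * spT T v s) :=
    fun h h' => (M_aff hθ _ _ _).symm
  have h1 := lintegral_st_succ (T := T) (t := δ) (measurable_stp (G := G) (θ := θ) T)
    (F := fun h h' => ENNReal.ofReal (1 + c h * mm G θ T v h')) (by
      unfold Function.uncurry; fun_prop) 0 n
  refine le_trans ?_ (h1.trans_le (le_trans (lintegral_mono fun ω => ?_)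
    (lint_unc_mst (G := G) hθ hv n)))
  · rw [← lintegral_indicator_one]
    · refine lintegral_mono fun ω => ?_
      by_cases h : ¬ (0 < mm G θ T v (mst G θ δ T n ω) ↔ 0 < mm G θ T v (mst G θ δ T (n + 1) ω))
      · rw [Set.indicator_of_mem (by exact h), Pi.one_apply, ENNReal.one_le_ofReal]
        change 1 ≤ 1 + c (mst G θ δ T n ω) * mm G θ T v (mst G θ δ T (n + 1) ω)
        simp only [c]
        split_ifs with h2
        · have : ¬ 0 < mm G θ T v (mst G θ δ T (n + 1) ω) := by tauto
          linarith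
        · have : 0 < mm G θ T v (mst G θ δ T (n + 1) ω) := by tauto
          linarith
      · rw [Set.indicator_of_notMem (by exact h)]; exact zero_le
    · exact measurableSet_setOfPred.2 ((measurableSet_setOfPred.1 (measurableSet_lt
        measurable_const (m.comp (measurable_mst T n)))).iff (measurableSet_setOfPred.1
        (measurableSet_lt measurable_const (m.comp (measurable_mst T (n + 1)))))).not
  · refine (Rt_super (measurable_stp T) (by fun_prop) (fun w h => ?_) _).trans
      (ENNReal.ofReal_le_ofReal (le_trans ?_ (unc_facts hθ _).2))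
    · simp only [e]
      refine lint_M_stp hθ (fun s => ?_) w h
      have := abs_le.1 (abs_spT_le T v s)
      simp only [c]; split_ifs <;> linarith
    · change 1 + c (mst G θ δ T n ω) * mm G θ T v (mst G θ δ T n ω) ≤ _
      simp only [c]
      split_ifs with h2
      · rw [abs_of_pos h2]; linarith
      · rw [abs_of_nonpos (not_lt.1 h2)]; linarith

variable [G.LocallyFinite] {d : ℕ} {η r : ℝ} (H : Par2 G θ d η r)
include H

lemma round_Bd (hδ : (δ : ℝ) ≤ 1 / 2) (hK : 4 * Kc d η r * δ ≤ 1) {wt : V → ℝ} (hw : Wt G η wt)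
    {ν : Measure ((V → ℝ) × (V → ℝ))} [IsProbabilityMeasure ν] {D : ℝ} (hD : 0 ≤ D)
    (hB : Bd G θ T T' wt ν D) (hT : ∀ u, u ∉ T ∨ u ∉ T' → 1 ≤ D * wt u) :
    Bd G θ T T' wt (rnd (step2 G θ T T') L δ ν) (3 * D) := by
  have hs := measurable_step2 (G := G) (θ := θ) T T'
  have hP : ∀ s, IsProbabilityMeasure (rnd (step2 G θ T T') L s ν) := fun s => isProb_rnd hs ν
  have hw0 : ∀ u, 0 < wt u := fun u => zero_lt_one.trans_le (hw.1 u)
  have hK0 : 0 ≤ Kc d η r := by
    have := H.pos
    have : 0 < 3 / (1 - r) := div_pos (by norm_num) (by linarith [H.lt])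
    unfold Kc; positivity
  let S : Set ℝ := insert 0 {z | ∃ s ≤ δ, ∃ u v, Ok G u v ∧
    z = (∫ p, dx G θ T T' u v p ∂(rnd (step2 G θ T T') L s ν)) / wt u}
  have hS : BddAbove S := by
    refine ⟨4, ?_⟩
    rintro z (rfl | ⟨s, _, u, v, _, rfl⟩)
    · norm_num
    · rw [div_le_iff₀ (hw0 u)]
      have := integral_mono (μ := rnd (step2 G θ T T') L s ν) (int_dx H u v) (integrable_const 4)
        (dx_le (T := T) (T' := T') H.lt_one)
      simp only [integral_const, probReal_univ, smul_eq_mul, one_mul] at this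
      linarith [hw.1 u]
  set E := sSup S with hE
  have hE0 : 0 ≤ E := le_csSup hS (Set.mem_insert _ _)
  have h1 : ∀ s ≤ δ, Bd G θ T T' wt (rnd (step2 G θ T T') L s ν) E := fun s hs u v huv =>
    (div_le_iff₀ (hw0 u)).1 (le_csSup hS (Set.mem_insert_of_mem _ ⟨s, hs, u, v, huv, rfl⟩))
  have h2 : ∀ t ≤ δ, Bd G θ T T' wt (rnd (step2 G θ T T') L t ν) (D + (E + D) / 2) := by
    intro t ht u v huv
    have ht' : (t : ℝ) ≤ δ := ht
    have a := rnd_bound hs (T := L) (t := t) (f := fun p => ENNReal.ofReal (dx G θ T T' u v p))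
      (measurable_dx _ _ _ _).ennreal_ofReal (g := fun w p => ENNReal.ofReal (gr G θ T T' u v w p))
      (fun w => (measurable_gr _ _ _ _ _).ennreal_ofReal) (fun w p => by
        rw [lint_I (f := fun y => dx G θ T T' u v (step2 G θ T T' w y p))
          (((continuous_xm_stp H.lt_one).sub (continuous_xm_stp H.lt_one)).pow 2)
          fun y => dx_nonneg _ _ _ _ _,
          ← ENNReal.ofReal_add (dx_nonneg _ _ _ _ _) (gr_nonneg _ _ _ _ _ _)]
        exact ENNReal.ofReal_le_ofReal (dx_step H.tree H.half huv T T' w p))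
      (ht'.trans hδ) ν (B := ENNReal.ofReal (Kc d η r * (E + D) * wt u)) (fun s hs' => by
        have b := key_est (L := L) H hw (add_nonneg hE0 hD)
          (ν := rnd (step2 G θ T T') L s ν) (fun u v huv => (h1 s (hs'.le.trans ht) u v huv).trans
            (by nlinarith [hw0 u])) (fun u hu => (hT u hu).trans (by nlinarith [hw0 u])) huv
        refine le_trans (le_of_eq ?_) (ENNReal.ofReal_le_ofReal b)
        rw [ENNReal.ofReal_sum_of_nonneg fun w _ => integral_nonneg (gr_nonneg _ _ _ _ _)]
        exact Finset.sum_congr rfl fun w _ => (ofReal_integral_eq_lintegral_ofReal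
          (int_gr H u v w) (ae_of_all _ (gr_nonneg _ _ _ _ _))).symm)
    have hwu := hw0 u
    rw [← ofReal_integral_eq_lintegral_ofReal (int_dx H u v) (ae_of_all _ (dx_nonneg _ _ _ _)),
      ← ofReal_integral_eq_lintegral_ofReal (int_dx H u v) (ae_of_all _ (dx_nonneg _ _ _ _)),
      ← ENNReal.ofReal_ofNat, ← ENNReal.ofReal_mul (by norm_num),
      ← ENNReal.ofReal_mul (by positivity),
      ← ENNReal.ofReal_add (integral_nonneg (dx_nonneg _ _ _ _)) (mul_nonneg (by positivity) t.2.1),
      ENNReal.ofReal_le_ofReal_iff (add_nonneg (integral_nonneg (dx_nonneg _ _ _ _))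
        (mul_nonneg (by positivity) t.2.1))] at a
    have b := hB u v huv
    have c : 4 * Kc d η r * t ≤ 1 := le_trans (by gcongr) hK
    have c' := mul_le_mul_of_nonneg_right c (show 0 ≤ (E + D) * wt u by positivity)
    nlinarith
  have h3 : E ≤ D + (E + D) / 2 := by
    refine csSup_le ⟨0, Set.mem_insert _ _⟩ ?_
    rintro z (rfl | ⟨s, hs, u, v, huv, rfl⟩)
    · positivity
    · exact (div_le_iff₀ (hw0 u)).2 (h2 s hs u v huv)
  intro u v huv
  exact (h1 δ le_rfl u v huv).trans (mul_le_mul_of_nonneg_right (by linarith) (hw0 u).le)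

lemma compare (hδ : (δ : ℝ) ≤ 1 / 2) (hK : 4 * Kc d η r * δ ≤ 1) {R : ℕ} {o : V}
    (hT : ball G R o ⊆ T) (hT' : ball G R o ⊆ T') (n : ℕ) :
    ∫⁻ ω, ENNReal.ofReal ((mm G θ T o (mst G θ δ T n ω) - mm G θ T' o (mst G θ δ T' n ω)) ^ 2)
      ∂(noise V) ≤ ENNReal.ofReal (3 ^ n / (1 + η) ^ R) := by
  have hs := measurable_step2 (G := G) (θ := θ) T T'
  have hp := H.pos
  have ex : ∀ u, ∃ k, u ∈ ball G k o := fun u => exists_ball_of_reachable (H.tree.connected o u)
  let wt : V → ℝ := fun u => (1 + η) ^ Nat.find (ex u)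
  have hw : Wt G η wt := ⟨fun u => one_le_pow₀ (by linarith), fun u c h => by
    simp only [wt]
    rw [← pow_succ']
    exact pow_le_pow_right₀ (by linarith) (Nat.find_min' _ (ball_adj (Nat.find_spec (ex u)) h))⟩
  have hP : ∀ n, IsProbabilityMeasure ((noise V).map (st (step2 G θ T T') (T ∪ T') δ 0 n)) :=
    fun n => Measure.isProbabilityMeasure_map (measurable_st hs 0 n).aemeasurable
  have h1 : ∀ n : ℕ, ∀ u, u ∉ T ∨ u ∉ T' → 1 ≤ 3 ^ n / (1 + η) ^ R * wt u := by
    intro n u hu
    have : R ≤ Nat.find (ex u) := by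
      by_contra h
      have := ball_mono (not_le.1 h).le (Nat.find_spec (ex u))
      exact hu.elim (fun h => h (hT this)) fun h => h (hT' this)
    rw [div_mul_eq_mul_div, one_le_div (by positivity)]
    exact (pow_le_pow_right₀ (by linarith) this).trans
      (le_mul_of_one_le_left (by positivity) (one_le_pow₀ (by norm_num)))
  have key : ∀ n, Bd G θ T T' wt ((noise V).map (st (step2 G θ T T') (T ∪ T') δ 0 n))
      (3 ^ n / (1 + η) ^ R) := by
    intro n
    induction n with
    | zero =>
      intro u v _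
      rw [integral_map (measurable_st hs 0 0).aemeasurable
        (measurable_dx _ _ _ _).aestronglyMeasurable]
      have := hw.1 u
      simp [st, dx, xm, mm_zero]; positivity
    | succ n ih =>
      rw [map_st_succ hs, pow_succ', mul_div_assoc]
      exact round_Bd H hδ hK hw (by positivity) ih (h1 n)
  have h2 := key n o o (Or.inl rfl)
  have h3 : wt o = 1 := by
    simp only [wt]
    rw [(Nat.find_eq_zero _).2 (self_mem_ball 0 o), pow_zero]
  rw [h3, mul_one] at h2
  refine le_trans (le_of_eq ?_) (ENNReal.ofReal_le_ofReal h2)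
  rw [ofReal_integral_eq_lintegral_ofReal (int_dx H o o) (ae_of_all _ (dx_nonneg _ _ _ _)),
    lintegral_map (measurable_dx _ _ _ _).ennreal_ofReal (measurable_st hs 0 n)]
  refine lintegral_congr_ae ?_
  filter_upwards [st2_eq (G := G) (θ := θ) (δ := δ) (Finset.subset_union_left (s₂ := T'))
    (Finset.subset_union_right (s₁ := T))] with ω hω
  rw [hω n, dx, xm_self H.tree, xm_self H.tree]

end Vale.Agent.P161
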