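import Vale.Agent.P161.Post

/-! The planted model with local observation rules. -/

namespace Vale.Agent.P161

open Vale.Agent.P151 MeasureTheory Measure Filter Topology Function
open scoped Classical ENNReal

attribute [fun_prop] Measurable.lt Measurable.le' measurable_lr measurable_th measurable_ell
  measurable_gg

/-- weighted gluing identity -/
def Ct {A : Type*} [MeasurableSpace A] (α : Measure A) (w : A × A → ℝ) (g : A × A → A) : Prop :=
  ∀ F : A → ℝ, BM F → ∫ a, F a ∂α = ∫ a2, ∫ a1, w (a1, a2) * F (g (a1, a2)) ∂α ∂α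

lemma Ct.prod {A B : Type*} [MeasurableSpace A] [MeasurableSpace B] {α : Measure A} {β : Measure B}
    [IsFiniteMeasure α] [IsFiniteMeasure β] {w : A × A → ℝ} {w' : B × B → ℝ} {g : A × A → A}
    {g' : B × B → B} (hw : BM w) (hw' : BM w') (hg : Measurable g) (hg' : Measurable g')
    (h : Ct α w g) (h' : Ct β w' g') : Ct (α.prod β) (fun q => w (q.1.1, q.2.1) * w' (q.1.2, q.2.2))
      fun q => (g (q.1.1, q.2.1), g' (q.1.2, q.2.2)) := by
  intro F hF
  rw [BM.fub hF, h _ (by fun_prop), BM.fub (by fun_prop)]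
  congr 1; funext a2
  have : ∀ b2, ∫ q : A × B, w (q.1, a2) * w' (q.2, b2) * F (g (q.1, a2), g' (q.2, b2)) ∂α.prod β =
      ∫ a1, ∫ b1, w (a1, a2) * w' (b1, b2) * F (g (a1, a2), g' (b1, b2)) ∂β ∂α :=
    fun b2 => BM.fub (by fun_prop)
  simp only [this]
  rw [BM.swap (by fun_prop)]
  congr 1; funext a1
  rw [h' (fun b => F (g (a1, a2), b)) (by fun_prop)]
  simp only [← integral_const_mul, mul_assoc]

@[fun_prop] lemma measurable_piecewise' {ι X α : Type*} [MeasurableSpace X] [MeasurableSpace α]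
    (S : Set ι) {f g : α → ι → X} (hf : Measurable f) (hg : Measurable g) :
    Measurable fun x => S.piecewise (f x) (g x) :=
  measurable_pi_lambda _ fun v => by unfold Set.piecewise; split_ifs <;> fun_prop

lemma mp_piecewise {ι : Type*} (S : Set ι) :
    MeasurePreserving (fun p : (ι → II) × (ι → II) => S.piecewise p.1 p.2)
      ((iid ι).prod (iid ι)) (iid ι) := by
  refine ⟨by fun_prop, eq_infinitePi _ fun s t ht => ?_⟩
  rw [map_apply (by fun_prop) (MeasurableSet.pi s.countable_toSet fun i _ => ht i)]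
  have : (fun p : (ι → II) × (ι → II) => S.piecewise p.1 p.2) ⁻¹' ((s : Set ι).pi t) =
      (((s.filter (· ∈ S) : Finset ι) : Set ι).pi t) ×ˢ
        (((s.filter (· ∉ S) : Finset ι) : Set ι).pi t) := by
    ext p
    simp only [Set.mem_preimage, Set.mem_pi, Finset.mem_coe, Set.mem_prod, Finset.mem_filter]
    refine ⟨fun h => ⟨fun i hi => by simpa [hi.2] using h i hi.1,
      fun i hi => by simpa [hi.2] using h i hi.1⟩, fun h i hi => ?_⟩
    by_cases e : i ∈ S
    · simpa [e] using h.1 i ⟨hi, e⟩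
    · simpa [e] using h.2 i ⟨hi, e⟩
  rw [this, prod_prod, iid, infinitePi_pi _ fun i _ => ht i, infinitePi_pi _ fun i _ => ht i,
    Finset.prod_filter_mul_prod_filter_not]

lemma ct_iid {ι : Type*} (S : Set ι) : Ct (iid ι) (fun _ => 1) fun p => S.piecewise p.1 p.2 := by
  intro F hF
  rw [BM.mp (mp_piecewise S) hF, BM.fub (by fun_prop), BM.swap (by fun_prop)]
  simp

variable {V : Type*} {G : SimpleGraph V} [G.LocallyFinite] {θ : ℝ} {d : ℕ}
  {μ : Measure (V → Bool)} {K : ℤ}

/-- planted model: spins and fields -/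
structure Pt (G : SimpleGraph V) [G.LocallyFinite] (θ : ℝ) (d : ℕ) {Ω : Type*}
    [MeasurableSpace Ω] (P : Measure Ω) (σ : Ω → V → Bool) (h : Ω → V → ℝ) (H p : ℝ) : Prop
    extends Cr G θ d where
  prob : IsProbabilityMeasure P
  mσ : Measurable σ
  mh : Measurable h
  bd : ∀ ω v, |h ω v| ≤ H
  conv : ∀ᵐ ω ∂P, Conv G θ (h ω)
  cut : ∀ a b, G.Adj a b → ∃ g : Ω × Ω → Ω, Measurable g ∧
    (∀ q, σ (g q) = (Br G a b).piecewise (σ q.1) (σ q.2)) ∧
    (∀ q, h (g q) = (Br G a b).piecewise (h q.1) (h q.2)) ∧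
    Ct P (fun q => 1 + θ * (spin (σ q.1 a) * spin (σ q.2 b))) g
  flip : ∃ f, MeasurePreserving f P P ∧ (∀ ω v, σ (f ω) v = !σ ω v) ∧ ∀ ω, h (f ω) = -h ω
  post : ∀ u v, Ok G u v → ∀ f : (V → ℝ) → ℝ, Measurable f → DependsOn f (Br G u v) →
    BM (fun ω => f (h ω)) → ∫ ω, f (h ω) * spin (σ ω u) ∂P = ∫ ω, f (h ω) * XX G θ (h ω) u v ∂P
  sig : ∀ u, ∫ ω, th (h ω u) * spin (σ ω u) ∂P = ∫ ω, th (h ω u) ^ 2 ∂P ∧
    p ≤ ∫ ω, th (h ω u) ^ 2 ∂P

/-- times, spins and noise -/
abbrev Om (V : Type*) := (JJ V → II) × OO V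

/-- law of times, spins and noise -/
noncomputable abbrev PP (μ : Measure (V → Bool)) : Measure (Om V) := (iid (JJ V)).prod (PO μ)

/-- observations selected by a local rule -/
def Bm (b : JJ V → Set II) (τ : JJ V → II) : Set (JJ V) := {j | τ j ∈ b j}

/-- data selected by a local rule -/
noncomputable def zb (b : JJ V → Set II) (ω : Om V) : JJ V → ℝ := zB (Bm b ω.1) ω.2

/-- one half -/
noncomputable def hf : II := ⟨1 / 2, by norm_num, by norm_num⟩

lemma measurable_zb {b : JJ V → Set II} (hb : ∀ j, MeasurableSet (b j)) : Measurable (zb b) :=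
  measurable_zB' (fun j => (measurable_mem.2 (hb j)).comp (g := fun t => t ∈ b j)
    (f := fun ω : Om V => ω.1 j) (by fun_prop)) measurable_snd

lemma spin_not (s : Bool) : spin (!s) = -spin s := by cases s <;> simp [spin]

lemma spin_sq (s : Bool) : spin s * spin s = 1 := by cases s <;> simp [spin]

@[fun_prop] lemma BM.th {α : Type*} [MeasurableSpace α] {f : α → ℝ} (hf : Measurable f) :
    BM fun x => th (f x) :=
  ⟨measurable_th.comp hf, 1, fun x => by rw [abs_th]; exact (th_lt_one _).le⟩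

lemma int_eval {ι : Type*} (j : ι) {f : II → ℝ} (hf : Measurable f) :
    ∫ ξ, f (ξ j) ∂iid ι = ∫ t, f t := by
  rw [← (measurePreserving_eval_infinitePi (fun _ : ι => (volume : Measure II)) j).map_eq,
    integral_map (measurable_pi_apply j).aemeasurable hf.aestronglyMeasurable]
  rfl

lemma int_yy [IsProbabilityMeasure μ] (j : JJ V) :
    ∫ O, yy O j * spin (O.1 j.1) ∂PO μ = aa j.2 / 6 ∧ ∫ O, yy O j ^ 2 ∂PO μ = 1 / 3 := by
  have key : ∀ f : ℝ → ℝ, Continuous f → ∫ O : OO V, f (qf (aa j.2) (O.2 j)) ∂PO μ =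
      ∫ y in (-1 : ℝ)..1, f y * ((2 + aa j.2 * y) / 4) := by
    intro f hf
    rw [← integral_qf (abs_aa _) hf.continuousOn, ← int_eval j (by fun_prop),
      ← (measurePreserving_snd (μ := μ) (ν := iid (JJ V))).map_eq,
      integral_map (by fun_prop) (Measurable.aestronglyMeasurable (by fun_prop))]
  constructor
  · have := key id continuous_id
    simp only [id] at this
    simp only [yy, mul_right_comm (spin _), spin_sq, one_mul, this]
    have : ∀ y : ℝ, y * ((2 + aa j.2 * y) / 4) = 1 / 2 * y + aa j.2 / 4 * y ^ 2 := fun y => by ring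
    simp only [this]
    rw [intervalIntegral.integral_add (Continuous.intervalIntegrable (by fun_prop) _ _)
      (Continuous.intervalIntegrable (by fun_prop) _ _), intervalIntegral.integral_const_mul]
    simp; ring
  · have := key (· ^ 2) (by fun_prop)
    simp only [yy, mul_pow, sq (spin _), spin_sq, one_mul, this]
    have : ∀ y : ℝ, y ^ 2 * ((2 + aa j.2 * y) / 4) = 1 / 2 * y ^ 2 + aa j.2 / 4 * y ^ 3 :=
      fun y => by ring
    simp only [this]
    rw [intervalIntegral.integral_add (Continuous.intervalIntegrable (by fun_prop) _ _)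
      (Continuous.intervalIntegrable (by fun_prop) _ _)]
    simp; ring

lemma int_lt {ι : Type*} (j : ι) (s : II) : ∫ τ, ind (τ j < s) ∂iid ι = s := by
  rw [int_eval j (f := fun t => ind (t < s))
    (BM.ind (measurableSet_setOfPred.1 measurableSet_Iio)).meas]
  have : (fun t : II => ind (t < s)) = (Set.Iio s).indicator 1 := by
    funext t; simp [ind, Set.indicator]
  rw [this, integral_indicator_one measurableSet_Iio, measureReal_def, unitInterval.volume_Iio,
    ENNReal.toReal_ofReal s.2.1]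

lemma Cr.sig_q (C : Cr G θ d) (hμ : IsFreeIsing G θ μ) {B : Set (JJ V)} (hB : Sc K B) (j : JJ V) :
    ∫ O, th (hh (zB B O) j.1) * spin (O.1 j.1) ∂PO μ = ∫ O, th (hh (zB B O) j.1) ^ 2 ∂PO μ ∧
      ind (j ∈ B) * (aa j.2 ^ 2 / 12) ≤ ∫ O, th (hh (zB B O) j.1) ^ 2 ∂PO μ := by
  have := hμ.1
  constructor
  · have := C.post_mk hμ hB {j.1} (f := fun h => th (h j.1)) (by fun_prop)
      (fun x y h => by simp only [h j.1 rfl]) (by fun_prop) j.1
    simpa only [C.XX_single, sq] using this
  by_cases hj : j ∈ B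
  swap
  · rw [ind_neg hj, zero_mul]; exact integral_nonneg fun _ => sq_nonneg _
  have e : ∀ O, zB (B ∩ Prod.fst ⁻¹' {j.1}) O j = aa j.2 * yy O j := fun O => by simp [zB, hj]
  have h1 := C.post hμ (hB.mono (Set.inter_subset_left (t := Prod.fst ⁻¹' {j.1})))
    (f := fun z => z j) (by fun_prop) (by simp only [e]; fun_prop) j.1
  simp only [e, ms, hh_inter, C.XX_single, mul_assoc, integral_const_mul, (int_yy j).1] at h1
  have h2 : ∫ O, (aa j.2 * (yy O j * th (hh (zB B O) j.1)) - aa j.2 ^ 2 / 4 * yy O j ^ 2) ∂PO μ ≤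
      ∫ O, th (hh (zB B O) j.1) ^ 2 ∂PO μ := BM.imono (by fun_prop) (by fun_prop) fun O => by
    nlinarith [sq_nonneg (th (hh (zB B O) j.1) - aa j.2 / 2 * yy O j)]
  rw [BM.isub (by fun_prop) (by fun_prop), integral_const_mul, integral_const_mul, (int_yy j).2,
    ← h1] at h2
  rw [ind_pos hj]; linarith

lemma Cr.pl (C : Cr G θ d) (hμ : IsFreeIsing G θ μ) {b : JJ V → Set II}
    (hb : ∀ j, MeasurableSet (b j)) (hK : ∀ j : JJ V, K < j.2 → b j = ∅) {k : ℤ}
    (hk : ∀ v, Set.Iio hf ⊆ b (v, k)) :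
    Pt G θ d (PP μ) (fun ω => ω.2.1) (fun ω => hh (zb b ω)) (4 * 16 ^ K) (aa k ^ 2 / 24) := by
  have := hμ.1
  have := countable_of_tree C.tree
  have : Fact (|θ| < 1) := ⟨C.abs_lt⟩
  have hS : ∀ τ, Sc K (Bm b τ) := fun τ j hj => by
    by_contra e; simp [Bm, hK j (not_le.1 e)] at hj
  have mz := measurable_zb hb
  refine ⟨C, inferInstance, by fun_prop, by fun_prop, fun ω => abs_hh_le (hS _) _, ?_, ?_, ?_,
    ?_, fun u => ⟨?_, ?_⟩⟩
  · have m : MeasurableSet {ω : Om V | Conv G θ (hh (zb b ω))} :=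
      measurableSet_Conv.preimage (f := fun ω => hh (zb b ω)) (by fun_prop)
    rw [ae_prod_iff_ae_ae m]
    simp only [zb]
    exact ae_of_all _ fun τ => C.ae_conv hμ (hS τ)
  · intro a c hac
    have c1 : Ct μ (fun q => 1 + θ * (spin (q.1 a) * spin (q.2 c)))
        fun q => (Br G a c).piecewise q.1 q.2 := fun F hF => by
      rw [ising_cut C.tree C.abs_lt hμ hac hF, BM.fub (by fun_prop), BM.swap (by fun_prop)]
    have c2 := (ct_iid (Prod.fst ⁻¹' Br G a c : Set (JJ V))).prod (by fun_prop) (by fun_prop)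
      (by fun_prop) (by fun_prop) (c1.prod (by fun_prop) (by fun_prop) (by fun_prop) (by fun_prop)
        (ct_iid (Prod.fst ⁻¹' Br G a c : Set (JJ V))))
    simp only [one_mul, mul_one] at c2
    refine ⟨_, by fun_prop, fun q => rfl, fun q => ?_, c2⟩
    funext v
    by_cases e : v ∈ Br G a c <;> simp [hh, zb, zB, Bm, yy, e]
  · refine ⟨_, (MeasurePreserving.id _).prod ((mp_not C.tree C.abs_lt hμ).prod
      (MeasurePreserving.id _)), fun _ _ => rfl, fun ω => ?_⟩
    funext v
    simp only [hh, Pi.neg_apply, ← tsum_neg, ← ell_neg]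
    congr 1; funext k; congr 1
    simp only [zb, zB, yy, Prod.map, id, spin_not]
    split_ifs <;> simp
  · intro u v huv f hf hd hb'
    rw [BM.fub (hb'.mul (by fun_prop)), BM.fub (hb'.mul (by fun_prop))]
    congr 1; funext τ
    simpa only [C.XX_mk huv, zb] using C.post_mk hμ (hS τ) _ hf hd
      (hb'.comp (g := fun O => (τ, O)) (by fun_prop)) u
  · rw [BM.fub (by fun_prop), BM.fub (by fun_prop)]
    congr 1; funext τ
    exact (C.sig_q hμ (hS τ) (u, k)).1
  · rw [BM.fub (by fun_prop)]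
    refine le_trans (le_of_eq ?_) (BM.imono (f := fun τ => ind (τ (u, k) < hf) * (aa k ^ 2 / 12))
      (by fun_prop) (by fun_prop) fun τ => le_trans ?_ (C.sig_q hμ (hS τ) (u, k)).2)
    · rw [integral_mul_const, int_lt]; simp only [hf]; ring
    · exact mul_le_mul_of_nonneg_right (ind_mono fun h => hk u h) (by positivity)

end Vale.Agent.P161
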