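import Vale.Agent.P161.Pair

/-! Decorrelation estimate at small signal strength. -/

namespace Vale.Agent.P161

open Vale.Agent.P151 MeasureTheory Measure Filter Topology Function
open scoped Classical ENNReal

variable {V : Type*} {G : SimpleGraph V} [G.LocallyFinite] {θ : ℝ} {d : ℕ} {a b c o u v w : V}
  {r N M : ℕ}

lemma BM.Ak {α : Type*} [MeasurableSpace α] {F : α → V → V → ℝ} (hF : ∀ u v, BM fun ω => F ω u v)
    (k : ℕ) (u v : V) : BM fun ω => Ak G θ (F ω) k u v := by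
  induction k generalizing u v with
  | zero => exact hF u v
  | succ k ih => exact (BM.const _).mul (BM.sum _ fun c _ => ih c u)

lemma measurable_Ak {α : Type*} [MeasurableSpace α] {F : α → V → V → ℝ}
    (hF : ∀ u v, Measurable fun ω => F ω u v) (k : ℕ) (u v : V) :
    Measurable fun ω => Ak G θ (F ω) k u v := by
  induction k generalizing u v with
  | zero => exact hF u v
  | succ k ih => exact (Finset.measurable_sum _ fun c _ => ih c u).const_mul _

lemma Cr.abs_log_gg (C : Cr G θ d) {ρ y : ℝ} (ρ1 : ρ < 1) (hy : |y| ≤ ρ) :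
    |Real.log (gg θ y)| ≤ 1 / (θ * (1 - ρ ^ 2)) := by
  have ρ0 : 0 ≤ ρ := (abs_nonneg _).trans hy
  have γ : 0 < θ * (1 - ρ ^ 2) := mul_pos C.pos (by nlinarith)
  have a := gg_ge C.pos.le C.half ρ1 hy
  have b := (le_abs_self _).trans (abs_gg_le C.abs_lt (hy.trans ρ1.le))
  have e := Real.one_sub_inv_le_log_of_pos (γ.trans_le a)
  have f := inv_anti₀ γ a
  rw [abs_of_nonpos (Real.log_nonpos (γ.le.trans a) b), one_div]
  linarith

namespace St

variable {Ω Ω' : Type*} [MeasurableSpace Ω] [MeasurableSpace Ω'] {P : Measure Ω} {σ : Ω → V → Bool}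
  {k : Ω → V → ℝ} {H p : ℝ} {π : Measure Ω'} {h h' : Ω' → V → ℝ} (S : St G θ d P σ k H p π h h')
include S

lemma ap_lev (r : ℕ) (o : V) :
    ∑ w ∈ desc G r o o, ∫ ω, ap G θ (XX G θ (h ω)) r o w ^ 2 ∂π ≤ 2 * (1 - eta θ p) ^ r := by
  have := S.probπ; have := S.fact; have := S.m1
  refine le_trans ?_ (S.level_ap S.p0 S.p1 r o o)
  rw [Finset.mul_sum]
  refine Finset.sum_le_sum fun w hw => ?_
  rw [← S.tr (f := fun x => ap G θ (XX G θ x) r o w) (by fun_prop), ← integral_const_mul]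
  exact BM.imono (by fun_prop) (by fun_prop) fun ω => by
    nlinarith [(S.ap_bound (S.X1 ω) hw).1, (S.ap_bound (S.X1 ω) hw).2]

variable {ρ : ℝ} (hρ : rho θ d H ≤ ρ) (ρ1 : ρ < 1)
include hρ ρ1

lemma var1 (j : ℕ) (huv : G.Adj u v) : ∫ ω, (Ak G θ (fun a b => Real.log (gg θ (XX G θ (h ω) a b)))
    j u v - ∫ ω, Ak G θ (fun a b => Real.log (gg θ (XX G θ (k ω) a b))) j u v ∂P) ^ 2 ∂π ≤
      (2 * (1 / (θ * (1 - ρ ^ 2)))) ^ 2 * (θ ^ 2) ^ j := by
  rw [S.tr (f := fun x => (Ak G θ (fun a b => Real.log (gg θ (XX G θ x a b))) j u v - _) ^ 2)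
    (((measurable_Ak (fun _ _ => by fun_prop) j u v).sub_const _).pow_const 2)]
  exact S.var_decay (φ := fun y => Real.log (gg θ y)) (by fun_prop) (fun y => by rw [gg_neg])
    (fun ω u v => S.abs_log_gg ρ1 ((S.abs_XX_le (S.bd ω) u v).trans hρ)) j huv

lemma bm_log (u v : V) : BM fun ω => Real.log (gg θ (XX G θ (h ω) u v)) :=
  ⟨by have := S.m1; fun_prop, _, fun ω => S.abs_log_gg ρ1 ((S.abs_XX_le (S.b1 ω) u v).trans hρ)⟩

lemma DA1 {ε ϑ : ℝ} (e0 : 0 < ε) (e1 : ε ≤ 1) (hH : H ≤ ε ^ 4) (hϑ : 0 ≤ ϑ) (R k0 N : ℕ) (o : V) :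
    ∫ ω, DA G θ (XX G θ (h ω)) (XX G θ (h' ω)) N o o ∂π ≤ 2 * R ^ 2 * ((1 + 2 * k0) *
      ((64 * ϑ ^ 2 * (64 / (1 - ρ ^ 2) ^ 2 * ∫ ω, (XX G θ (h ω) o o - XX G θ (h' ω) o o) ^ 2 ∂π) +
        512 * (Dt θ d * Real.exp (-(θ * ϑ / ε)))) / (1 - ρ ^ 2) ^ 2) +
      20 * (1 / (θ * (1 - ρ ^ 2))) ^ 2 * (θ ^ k0 / (1 - θ))) + 4 * ((1 - eta θ p) ^ R / eta θ p) := by
  have := S.probπ; have := S.fact; have := S.m1; have := S.m2
  have θ0 := S.pos
  have θ1 := sub_pos.2 S.lt_one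
  set f2 := (64 * ϑ ^ 2 * (64 / (1 - ρ ^ 2) ^ 2 * ∫ ω, (XX G θ (h ω) o o - XX G θ (h' ω) o o) ^ 2 ∂π)
    + 512 * (Dt θ d * Real.exp (-(θ * ϑ / ε)))) / (1 - ρ ^ 2) ^ 2 with hf2
  set B := 1 / (θ * (1 - ρ ^ 2)) with hB
  set T := (1 + 2 * k0) * f2 + 20 * B ^ 2 * (θ ^ k0 / (1 - θ)) with hT
  have f0 : 0 ≤ f2 := by
    have : 0 ≤ ∫ ω, (XX G θ (h ω) o o - XX G θ (h' ω) o o) ^ 2 ∂π :=
      integral_nonneg fun _ => sq_nonneg _
    rw [hf2]; unfold Dt; positivity
  have T0 : 0 ≤ T := by positivity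
  set F : Ω' → V → V → ℝ := fun ω => FF θ (XX G θ (h ω)) (XX G θ (h' ω)) with hF
  have bF : ∀ u v, BM fun ω => F ω u v := fun u v =>
    (S.bm_log hρ ρ1 u v).sub (S.symm.bm_log hρ ρ1 u v)
  have bA := BM.Ak (G := G) (θ := θ) bF
  have bl : ∀ r u v w, w ∈ desc G r u v →
      BM fun ω => lg G θ (XX G θ (h ω)) (XX G θ (h' ω)) r u w := by
    intro r
    induction r with
    | zero => intro u v w _; simpa [lg, ap] using BM.const 0
    | succ r ih =>
      intro u v w hw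
      obtain ⟨c, h1, -, h3⟩ := mem_desc_succ.1 hw
      simp only [fun ω => S.lg_succ (S.X1 ω) (S.symm.X1 ω) h1 h3]
      exact (bF c u).add (ih c u w h3)
  have bN : ∀ r u v, BM fun ω => (θ ^ 2) ^ r *
      ∑ w ∈ desc G r u v, lg G θ (XX G θ (h ω)) (XX G θ (h' ω)) r u w ^ 2 :=
    fun r u v => (BM.const _).mul (BM.sum _ fun w hw => (bl r u v w hw).pow 2)
  have f1 : ∀ u v, G.Adj u v → ∫ ω, F ω u v ^ 2 ∂π ≤ f2 := by
    intro u v huv
    refine (BM.imono ((bF u v).pow 2) (by fun_prop) fun ω => S.FF_le ρ1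
      ((S.abs_XX_le (S.b1 ω) u v).trans hρ) ((S.abs_XX_le (S.b2 ω) u v).trans hρ) ϑ).trans ?_
    rw [integral_div, BM.iadd (by fun_prop) (by fun_prop), integral_const_mul, integral_const_mul,
      BM.iadd (by fun_prop) (by fun_prop), S.tr (f := fun x => ind (ϑ < |XX G θ x u v|))
      (BM.meas (by fun_prop)), S.symm.tr (f := fun x => ind (ϑ < |XX G θ x u v|))
      (BM.meas (by fun_prop))]
    have t1 := S.tail e0 e1 hH ϑ hϑ huv
    have t2 := mul_le_mul_of_nonneg_left (S.dx_exp hρ ρ1 o huv) (show 0 ≤ 64 * ϑ ^ 2 by positivity)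
    exact div_le_div_of_nonneg_right (by linarith) (sq_nonneg _)
  have f3 : ∀ j u v, G.Adj u v → ∫ ω, Ak G θ (F ω) j u v ^ 2 ∂π ≤ f2 := by
    intro j
    induction j with
    | zero => exact f1
    | succ j ih =>
      intro u v huv
      refine le_trans ?_ (S.sum_ch_le huv fun c hc => ih c u hc)
      rw [← BM.isum _ fun c _ => (bA j c u).pow 2, ← integral_const_mul]
      refine BM.imono ((bA _ _ _).pow 2) ((BM.const _).mul (BM.sum _ fun c _ => (bA j c u).pow 2))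
        fun ω => ?_
      have := mul_le_mul_of_nonneg_left (sq_sum_le_card_mul_sum_sq (s := ch G u v)
        (f := fun c => Ak G θ (F ω) j c u)) (sq_nonneg (θ ^ 2))
      rw [card_ch_eq S.reg huv] at this
      rw [Ak, mul_pow]
      refine this.trans_eq ?_
      linear_combination θ ^ 2 * (∑ c ∈ ch G u v, Ak G θ (F ω) j c u ^ 2) * S.crit
  have f4 : ∀ j u v, G.Adj u v → ∫ ω, Ak G θ (F ω) j u v ^ 2 ∂π ≤ 16 * B ^ 2 * (θ ^ j) ^ 2 := by
    intro j u v huv
    have a1 := S.var1 hρ ρ1 j huv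
    have a2 := S.symm.var1 hρ ρ1 j huv
    have b1 := ((BM.Ak (G := G) (θ := θ) (S.bm_log hρ ρ1) j u v).sub (BM.const
      (∫ ω, Ak G θ (fun a b => Real.log (gg θ (XX G θ (k ω) a b))) j u v ∂P))).pow 2
    have b2 := ((BM.Ak (G := G) (θ := θ) (S.symm.bm_log hρ ρ1) j u v).sub (BM.const
      (∫ ω, Ak G θ (fun a b => Real.log (gg θ (XX G θ (k ω) a b))) j u v ∂P))).pow 2
    refine (BM.imono ((bA _ _ _).pow 2) ((BM.const 2).mul (b1.add b2)) fun ω => ?_).trans ?_
    · have := Ak_sub (G := G) (θ := θ) (fun a b => Real.log (gg θ (XX G θ (h ω) a b)))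
        (fun a b => Real.log (gg θ (XX G θ (h' ω) a b))) j u v
      change Ak G θ (F ω) j u v = _ at this
      rw [this]
      generalize ∫ ω, Ak G θ (fun a b => Real.log (gg θ (XX G θ (k ω) a b))) j u v ∂P = m
      generalize Ak G θ (fun a b => Real.log (gg θ (XX G θ (h ω) a b))) j u v = y
      generalize Ak G θ (fun a b => Real.log (gg θ (XX G θ (h' ω) a b))) j u v = y'
      nlinarith [sq_nonneg (y + y' - 2 * m)]
    · rw [integral_const_mul, BM.iadd b1 b2, ← pow_mul, mul_comm j, pow_mul]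
      linarith
  have f5 : ∀ r u v, G.Adj u v → ∫ ω, (F ω u v ^ 2 + ∑ j ∈ Finset.range r, 2 * F ω u v *
      Ak G θ (F ω) (j + 1) u v) ∂π ≤ T := by
    intro r u v huv
    have b0 : ∀ j, BM fun ω => 2 * F ω u v * Ak G θ (F ω) (j + 1) u v := fun j =>
      ((BM.const 2).mul (bF u v)).mul (bA _ _ _)
    have a1 : ∀ j, ∫ ω, 2 * F ω u v * Ak G θ (F ω) (j + 1) u v ∂π ≤ 2 * f2 := fun j => by
      refine (BM.imono (b0 j) (((bF u v).pow 2).add ((bA (j + 1) u v).pow 2)) fun ω => by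
        nlinarith [sq_nonneg (F ω u v - Ak G θ (F ω) (j + 1) u v)]).trans ?_
      rw [BM.iadd ((bF u v).pow 2) ((bA (j + 1) u v).pow 2)]
      linarith [f1 u v huv, f3 (j + 1) u v huv]
    have a2 : ∀ j, ∫ ω, 2 * F ω u v * Ak G θ (F ω) (j + 1) u v ∂π ≤ 20 * B ^ 2 * θ ^ j := fun j => by
      have t := pow_pos θ0 (j + 1)
      refine (BM.imono (b0 j) ((BM.const (θ ^ (j + 1) * (4 * B ^ 2))).add ((BM.const
        (θ ^ (j + 1))⁻¹).mul ((bA (j + 1) u v).pow 2))) fun ω => ?_).trans ?_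
      · have c1 := abs_le.1 (S.abs_log_gg ρ1 ((S.abs_XX_le (S.b1 ω) u v).trans hρ))
        have c2 := abs_le.1 (S.abs_log_gg ρ1 ((S.abs_XX_le (S.b2 ω) u v).trans hρ))
        have c3 : F ω u v ^ 2 ≤ (2 * B) ^ 2 := sq_le_sq' (by simp only [hF, FF]; linarith)
          (by simp only [hF, FF]; linarith)
        have c4 := mul_nonneg (inv_pos.2 t).le
          (sq_nonneg (θ ^ (j + 1) * F ω u v - Ak G θ (F ω) (j + 1) u v))
        have c5 : (θ ^ (j + 1))⁻¹ * (θ ^ (j + 1) * F ω u v - Ak G θ (F ω) (j + 1) u v) ^ 2 =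
            θ ^ (j + 1) * F ω u v ^ 2 - 2 * F ω u v * Ak G θ (F ω) (j + 1) u v +
            (θ ^ (j + 1))⁻¹ * Ak G θ (F ω) (j + 1) u v ^ 2 := by field_simp; ring
        linarith [mul_le_mul_of_nonneg_left c3 t.le]
      · rw [BM.iadd (BM.const _) ((BM.const _).mul ((bA (j + 1) u v).pow 2)),
          integral_const_mul (θ ^ (j + 1))⁻¹]
        have c1 := mul_le_mul_of_nonneg_left (f4 (j + 1) u v huv) (inv_pos.2 t).le
        have c2 : (θ ^ (j + 1))⁻¹ * (16 * B ^ 2 * (θ ^ (j + 1)) ^ 2) = 16 * B ^ 2 * θ ^ (j + 1) := by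
          field_simp
        have c3 := mul_le_mul_of_nonneg_left (pow_le_pow_of_le_one θ0.le S.lt_one.le
          (show j ≤ j + 1 by omega)) (sq_nonneg B)
        simp only [integral_const, probReal_univ, smul_eq_mul, one_mul]
        linarith
    rw [BM.iadd ((bF u v).pow 2) (BM.sum _ fun j _ => b0 j), BM.isum _ fun j _ => b0 j,
      ← Finset.sum_filter_add_sum_filter_not _ (· < k0)]
    have a3 := (Finset.sum_le_card_nsmul ((Finset.range r).filter (· < k0)) _ _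
      fun j _ => a1 j).trans (nsmul_le_nsmul_left (by linarith) (show _ ≤ k0 by
        simpa using Finset.card_le_card (t := Finset.range k0) fun j hj => by
          simpa using (Finset.mem_filter.1 hj).2))
    have a4 := (Finset.sum_le_sum (s := (Finset.range r).filter (¬ · < k0)) fun j _ => a2 j).trans
      (b := _) (c := 20 * B ^ 2 * (θ ^ k0 / (1 - θ))) (by
        rw [← Finset.mul_sum, show (Finset.range r).filter (¬ · < k0) = Finset.Ico k0 r by
          ext j; simp [and_comm]]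
        exact mul_le_mul_of_nonneg_left (geom_sum_Ico_le_of_lt_one θ0.le S.lt_one) (by positivity))
    rw [nsmul_eq_mul] at a3
    linarith [f1 u v huv]
  have f6 : ∀ r u v, (∀ c, G.Adj c u → ∫ ω, (θ ^ 2) ^ r * ∑ w ∈ desc G r c u,
      lg G θ (XX G θ (h ω)) (XX G θ (h' ω)) r c w ^ 2 ∂π ≤ r * T) → ∫ ω, (θ ^ 2) ^ (r + 1) *
      ∑ w ∈ desc G (r + 1) u v, lg G θ (XX G θ (h ω)) (XX G θ (h' ω)) (r + 1) u w ^ 2 ∂π ≤
      θ ^ 2 * (ch G u v).card * ((r + 1) * T) := by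
    intro r u v ih
    have b0 : ∀ c, BM fun ω => F ω c u ^ 2 + ∑ j ∈ Finset.range r, 2 * F ω c u *
      Ak G θ (F ω) (j + 1) c u := fun c => ((bF c u).pow 2).add (BM.sum _ fun j _ =>
        ((BM.const 2).mul (bF c u)).mul (bA _ _ _))
    simp only [fun ω => S.lg_sq (S.X1 ω) (S.symm.X1 ω) r u v]
    rw [integral_const_mul, BM.isum _ fun c _ => (b0 c).add (bN r c u), mul_assoc, ← nsmul_eq_mul]
    refine mul_le_mul_of_nonneg_left (Finset.sum_le_card_nsmul _ _ _ fun c hc => ?_) (sq_nonneg _)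
    rw [BM.iadd (b0 c) (bN r c u)]
    linarith [f5 r c u (mem_ch.1 hc).1.symm, ih c (mem_ch.1 hc).1.symm]
  have f7 : ∀ r u v, G.Adj u v → ∫ ω, (θ ^ 2) ^ r * ∑ w ∈ desc G r u v,
      lg G θ (XX G θ (h ω)) (XX G θ (h' ω)) r u w ^ 2 ∂π ≤ r * T := by
    intro r
    induction r with
    | zero => intro u v _; simp [lg, ap]
    | succ r ih =>
      intro u v huv
      refine (f6 r u v fun c hc => ih c u hc).trans_eq ?_
      rw [card_ch_eq S.reg huv, mul_comm (θ ^ 2), S.crit]; push_cast; ring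
  have g1 : ∀ r < R, ∑ w ∈ desc G r o o, ∫ ω, (ap G θ (XX G θ (h ω)) r o w -
      ap G θ (XX G θ (h' ω)) r o w) ^ 2 ∂π ≤ 2 * R * T := by
    intro r hr
    rw [← BM.isum _ fun _ _ => by fun_prop]
    refine (BM.imono (by fun_prop) (bN r o o) fun ω => ?_).trans ?_
    · rw [Finset.mul_sum, ← pow_mul, mul_comm 2, pow_mul]
      exact Finset.sum_le_sum fun w hw => abs_sub_le_log (S.ap_bound (S.X1 ω) hw).1
        (S.ap_bound (S.symm.X1 ω) hw).1 (S.ap_bound (S.X1 ω) hw).2 (S.ap_bound (S.symm.X1 ω) hw).2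
    · cases r with
      | zero => simp [lg, ap]; positivity
      | succ r =>
        have : (r + 1 : ℝ) ≤ R := by exact_mod_cast hr.le
        refine (f6 r o o fun c hc => f7 r c o hc).trans ?_
        rw [mul_assoc 2]
        exact mul_le_mul ((S.card_le o o).trans (by norm_num))
          (mul_le_mul_of_nonneg_right this T0) (by positivity) (by norm_num)
  have g2 : ∀ r, ∑ w ∈ desc G r o o, ∫ ω, (ap G θ (XX G θ (h ω)) r o w -
      ap G θ (XX G θ (h' ω)) r o w) ^ 2 ∂π ≤ 4 * (1 - eta θ p) ^ r := by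
    intro r
    refine le_trans (Finset.sum_le_sum fun w hw => ?_) ((Finset.sum_add_distrib.trans_le
      (add_le_add (S.ap_lev r o) (S.symm.ap_lev r o))).trans_eq (by ring))
    rw [← BM.iadd (by fun_prop) (by fun_prop)]
    exact BM.imono (by fun_prop) (by fun_prop) fun ω => by
      nlinarith [mul_pos (S.ap_bound (S.X1 ω) hw).1 (S.ap_bound (S.symm.X1 ω) hw).1]
  unfold DA
  rw [BM.isum _ fun _ _ => by fun_prop, Finset.sum_congr rfl fun r _ => BM.isum _ fun _ _ => by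
    fun_prop, ← Finset.sum_filter_add_sum_filter_not _ (· < R)]
  refine add_le_add ?_ ?_
  · refine ((Finset.sum_le_card_nsmul _ _ _ fun r hr => g1 r (Finset.mem_filter.1 hr).2).trans
      (nsmul_le_nsmul_left (by positivity) (show _ ≤ R by
        simpa using Finset.card_le_card (t := Finset.range R) fun j hj => by
          simpa using (Finset.mem_filter.1 hj).2))).trans_eq ?_
    rw [nsmul_eq_mul]; ring
  · refine (Finset.sum_le_sum fun r _ => g2 r).trans ?_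
    rw [← Finset.mul_sum, show (Finset.range N).filter (¬ · < R) = Finset.Ico R N by
      ext j; simp [and_comm]]
    exact mul_le_mul_of_nonneg_left (geom_le (S.eta_pos S.p0) (S.eta_le S.p1) R N) (by norm_num)

end St

end Vale.Agent.P161
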