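import Vale.Agent.P161.Quant

/-! The critical case. -/

namespace Vale.Agent.P161

open Vale.Agent.P151 MeasureTheory Measure Filter Topology Function ProbabilityTheory
open scoped Classical ENNReal

lemma int_qf1 : ∫ t : II, qf 1 t = 1 / 6 := by
  have := integral_qf (m := 1) (by simp) (g := id) continuousOn_id
  simp only [id] at this
  have e : ∀ y : ℝ, y * ((2 + 1 * y) / 4) = 1 / 2 * y + 1 / 4 * y ^ 2 := fun y => by ring
  simp only [this, e]
  rw [intervalIntegral.integral_add (Continuous.intervalIntegrable (by fun_prop) _ _)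
    (Continuous.intervalIntegrable (by fun_prop) _ _), intervalIntegral.integral_const_mul]
  simp; ring

@[fun_prop] lemma BM.qf1 {α : Type*} [MeasurableSpace α] {g : α → II} (hg : Measurable g) :
    BM fun x => qf 1 (g x) := ⟨by fun_prop, 1, fun x => abs_qf_le (by simp) _⟩

variable {V : Type*} {G : SimpleGraph V} {θ : ℝ} {d : ℕ} {μ : Measure (V → Bool)} {o : V}

lemma lln [IsProbabilityMeasure μ] (o : V) (K : ℕ) : ∫ ω, (∑ k ∈ Finset.range K,
    (1 - 12 * (ind (ω.1 (o, k) < hf) * qf 1 (ω.2.2 (o, k))))) ^ 2 ∂PP μ ≤ K * 169 := by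
  have := sq_orth (ν := PP μ) (Finset.range K) (BM.const 0)
    (J := fun k ω => 1 - 12 * (ind (ω.1 (o, k) < hf) * qf 1 (ω.2.2 (o, k)))) (fun _ => by fun_prop)
    fun k _ l _ hne => by
      have hne' : ((o, k) : JJ V) ≠ (o, (l : ℤ)) := by simpa using hne
      have a : ∀ τ : JJ V → II, ∫ O, (1 - 12 * (ind (τ (o, k) < hf) * qf 1 (O.2 (o, k)))) *
          (1 - 12 * (ind (τ (o, l) < hf) * qf 1 (O.2 (o, l)))) ∂PO μ =
          ∏ j ∈ {(o, (k : ℤ)), (o, (l : ℤ))}, (1 - 2 * ind (τ j < hf)) := fun τ => by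
        have := int_prod {(o, (k : ℤ)), (o, (l : ℤ))}
          (g := fun j t => 1 - 12 * (ind (τ j < hf) * qf 1 t)) fun _ => by fun_prop
        rw [BM.mp (measurePreserving_snd (μ := μ)) (by fun_prop)] at this
        simp only [Finset.prod_pair hne'] at this ⊢
        rw [this, BM.isub (by fun_prop) (by fun_prop), BM.isub (by fun_prop) (by fun_prop)]
        simp only [integral_const_mul, int_qf1, integral_const, probReal_univ, smul_eq_mul]
        ring
      rw [BM.fub (by fun_prop)]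
      simp only [a]
      rw [int_prod _ (g := fun _ t => 1 - 2 * ind (t < hf)) fun _ => by fun_prop,
        Finset.prod_pair hne', BM.isub (by fun_prop) (by fun_prop), integral_const_mul,
        ← int_eval o (BM.meas (by fun_prop)), ← int_eval o (BM.meas (by fun_prop)), int_lt]
      simp [hf]
  simp only [zero_add, zero_mul, integral_zero, mul_zero, ne_eq, OfNat.ofNat_ne_zero,
    not_false_eq_true, zero_pow] at this
  rw [this]
  refine (Finset.sum_le_card_nsmul _ _ 169 fun k _ => (BM.imono (by fun_prop) (BM.const 169)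
    fun ω => ?_).trans_eq (by simp)).trans_eq (by simp)
  have a := abs_le.1 (abs_qf_le (m := 1) (by simp) (ω.2.2 (o, k)))
  unfold ind; split_ifs <;> nlinarith

variable [G.LocallyFinite]

lemma Cr.mse (C : Cr G θ d) (hμ : IsFreeIsing G θ μ) (o : V) (K : ℕ) (hK : 0 < K) :
    ∫ ω, (spin (ω.2.1 o) - ms G θ (zB (Bt K 0 ω.1) ω.2) o) ^ 2 ∂PP μ ≤ 169 / K := by
  have := hμ.1
  have : Fact (|θ| < 1) := ⟨C.abs_lt⟩
  have K0 : (0 : ℝ) < K := by exact_mod_cast hK
  have e : ∀ (τ : JJ V → II) (O : OO V), ∀ k ∈ Finset.range K, zB (Bt K 0 τ) O (o, k) =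
      spin (O.1 o) * (ind (τ (o, k) < hf) * qf 1 (O.2 (o, k))) := fun τ O k hk => by
    have a : aa k = 1 := min_eq_left (one_le_zpow₀ (by norm_num) (by simp))
    have b := Finset.mem_range.1 hk
    by_cases h : τ (o, k) < hf <;> simp [zB, mem_Bt, yy, a, b, h, ind]
  refine le_trans ?_ ((mul_le_mul_of_nonneg_left (lln (μ := μ) o K)
    (show 0 ≤ 1 / (K : ℝ) ^ 2 by positivity)).trans_eq (by field_simp))
  rw [← integral_const_mul, BM.fub (by fun_prop), BM.fub (by fun_prop)]
  refine BM.imono (by fun_prop) (by fun_prop) fun τ => ?_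
  have a := C.post hμ (sc_Bt (k := K) (s := 0) (τ := τ)) (f := fun z => 2 * (12 / K *
    ∑ k ∈ Finset.range K, z (o, k) - ms G θ z o)) (by fun_prop)
    (by simp only [fun O => Finset.sum_congr rfl (e τ O)]; fun_prop) o
  simp only [fun O => Finset.sum_congr rfl (e τ O)] at a
  rw [← sub_eq_zero, ← BM.isub (by fun_prop) (by fun_prop)] at a
  rw [← sub_nonpos, ← BM.isub (by fun_prop) (by fun_prop), ← a]
  refine BM.imono (by fun_prop) (by fun_prop) fun O => ?_
  have b := spin_sq (O.1 o)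
  simp only [Finset.sum_sub_distrib, ← Finset.mul_sum, Finset.sum_const, Finset.card_range,
    nsmul_eq_mul, mul_one]
  generalize ∑ k ∈ Finset.range K, ind (τ (o, k) < hf) * qf 1 (O.2 (o, k)) = S, spin (O.1 o) = s,
    ms G θ (zB (Bt K 0 τ) O) o = m at *
  rw [show 1 / (K : ℝ) ^ 2 * (K - 12 * S) ^ 2 = (1 - 12 / K * S) ^ 2 by field_simp,
    show 12 / K * (s * S) = s * (12 / K * S) by ring]
  generalize 12 / K * S = y
  have : (1 - y) ^ 2 = (s - s * y) ^ 2 := by linear_combination (1 - y) ^ 2 * (-b)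
  nlinarith [sq_nonneg (s * y - m)]

/-- the spins read off from times and innovations -/
noncomputable def Fz (κ : Kernel (Zb V) (OO V)) (z : Zb V) (v : V) : Bool :=
  decide (0 < ∫ O, spin (O.1 v) ∂κ z)

namespace Jn

variable {κ : Kernel (Zb V) (OO V)} (J : Jn G θ d μ κ)
include J

lemma same (v : V) : ∀ᵐ ω ∂JP κ, spin (ω.2.2.1 v) = spin (ω.2.1.1 v) := by
  have := J.prob
  have := J.free.1
  have : Fact (|θ| < 1) := ⟨J.abs_lt⟩
  have key : ∫ ω, (spin (ω.2.2.1 v) - spin (ω.2.1.1 v)) ^ 2 ∂JP κ ≤ 0 := by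
    refine ge_of_tendsto (tendsto_const_div_atTop_nhds_zero_nat (1014 : ℝ))
      ((eventually_gt_atTop 0).mono fun K hK => ?_)
    have a := J.mse J.free v K hK
    have b := a
    have c := J.cc_zero (o := v) K
    rw [BM.mp J.mp2 (by fun_prop)] at a
    rw [BM.mp (J.mp2.comp J.mp_sw) (by fun_prop)] at b
    refine (BM.imono (g := fun ω => 3 * ((spin (ω.2.1.1 v) - ms G θ (zB (Bt K 0 ω.1.1) ω.2.1) v) ^ 2
      + (spin (ω.2.2.1 v) - ms G θ (zB (Bt K 0 ω.1.1) ω.2.2) v) ^ 2 + (ms G θ (zB (Bt K 0 ω.1.1)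
      ω.2.1) v - ms G θ (zB (Bt K 0 ω.1.1) ω.2.2) v) ^ 2)) (by fun_prop) (by fun_prop)
      fun ω => ?_).trans ?_
    · generalize spin (ω.2.1.1 v) = s, spin (ω.2.2.1 v) = s', ms G θ (zB _ ω.2.1) v = m,
        ms G θ (zB _ ω.2.2) v = m'
      nlinarith [sq_nonneg (s - m + (s' - m')), sq_nonneg (s - m - (m - m')),
        sq_nonneg (s' - m' + (m - m'))]
    · rw [integral_const_mul, BM.iadd (by fun_prop) (by fun_prop),
        BM.iadd (by fun_prop) (by fun_prop), show (1014 : ℝ) / K = 6 * (169 / K) by ring]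
      simp only [Function.comp, cc] at a b c
      linarith
  have b : BM fun ω : Zb V × OO V × OO V => (spin (ω.2.2.1 v) - spin (ω.2.1.1 v)) ^ 2 := by
    fun_prop
  filter_upwards [(integral_eq_zero_iff_of_nonneg (fun _ => sq_nonneg _) b.int).1 (key.antisymm (integral_nonneg fun _ => sq_nonneg _))] with ω h
  simpa [sub_eq_zero] using h

lemma measurable_Fz : Measurable (Fz κ) := by
  have := J.markov
  refine measurable_pi_lambda _ fun v => measurable_to_bool ?_
  have : BM fun z => ∫ O, spin (O.1 v) ∂κ z := by fun_prop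
  simpa [Fz, Set.preimage] using measurableSet_lt measurable_const this.meas

lemma ae_Fz : ∀ᵐ p ∂QQ V ⊗ₘ κ, Fz κ p.1 = p.2.1 := by
  have := J.markov
  have := countable_of_tree J.tree
  have := J.measurable_Fz
  refine ae_compProd_of_ae_ae (measurableSet_eq_fun (by fun_prop) (by fun_prop)) ?_
  filter_upwards [ae_all_iff.2 fun v => ae_ae_of_ae_compProd (J.same v)] with z hz
  simp only [Kernel.prod_apply] at hz
  filter_upwards [ae_all_iff.2 fun v => ae_ae_of_ae_prod (hz v)] with O hO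
  funext v
  rw [Fz, integral_congr_ae (hO v)]
  cases O.1 v <;> simp [spin]

lemma factor : IsFactorOfIID G μ := by
  have := J.markov
  have := countable_of_tree J.tree
  have : Fact (|θ| < 1) := ⟨J.abs_lt⟩
  have mF := J.measurable_Fz
  obtain ⟨k, hk, e⟩ := Measure.exists_measurable_map_eq (iid (Fin 2 × ℤ))
  have h1 : MeasurePreserving (fun (U : V → II) v => k (U v)) (iid V) _ :=
    ⟨by fun_prop, by rw [iid, infinitePi_map_pi _ (f := fun _ => k) fun _ => hk, e]⟩
  have h2 : MeasurePreserving _ _ (iid (V × Fin 2 × ℤ)) := ⟨by fun_prop,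
    infinitePi_map_curry_symm fun (_ : V) (_ : Fin 2 × ℤ) => (volume : Measure II)⟩
  have h3 := mp_equiv (ι := Fin 2 × JJ V) (ι' := V × Fin 2 × ℤ)
    ⟨fun p => (p.2.1, p.1, p.2.2), fun p => (p.2.1, p.1, p.2.2), fun _ => rfl, fun _ => rfl⟩
  have h4 : MeasurePreserving _ (iid (Fin 2 × JJ V)) _ := ⟨by fun_prop,
    (infinitePi_map_curry fun (_ : Fin 2) (_ : JJ V) => (volume : Measure II)).trans
      (infinitePi_eq_pi _)⟩
  have h5 : MeasurePreserving (fun U : V → II => ((fun j => k (U j.1) (0, j.2),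
      fun j => k (U j.1) (1, j.2)) : Zb V)) (iid V) (QQ V) :=
    (measurePreserving_finTwoArrow (iid (JJ V))).comp (h4.comp (h3.comp (h2.comp h1)))
  refine ⟨_, mF.comp h5.measurable, fun g => h5.quasiMeasurePreserving.ae (p := fun z =>
    Fz κ (gz g.symm z.1, gz g.symm z.2) = fun v => Fz κ z (g.symm v)) ?_, ?_⟩
  · have a := (J.mp_K g.symm).quasiMeasurePreserving.ae J.ae_Fz
    filter_upwards [ae_ae_of_ae_compProd (a.and J.ae_Fz)] with z hz
    obtain ⟨O, b, c⟩ := hz.exists
    rw [b, c]; rfl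
  · rw [← map_map mF h5.measurable, h5.map_eq, ← Measure.fst_compProd (QQ V) κ, Measure.fst,
      map_map mF measurable_fst, Measure.map_congr (f := Fz κ ∘ Prod.fst)
      (g := fun p : Zb V × OO V => p.2.1) J.ae_Fz, J.dis,
      map_map (by fun_prop) (by fun_prop)]
    have := J.free.1
    exact (measurePreserving_fst.comp measurePreserving_snd).map_eq

end Jn

omit [G.LocallyFinite] in
theorem main_le (hd : 3 ≤ d) (hG : G.IsTree) (hreg : ∀ v, (G.neighborSet v).ncard = d) (h0 : 0 ≤ θ)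
    (hθ : ((d : ℝ) - 1) * θ ^ 2 ≤ 1) :
    (∃ μ, IsFreeIsing G θ μ) ∧ ∀ μ, IsFreeIsing G θ μ → IsFactorOfIID G μ := by
  rcases hθ.lt_or_eq with h | h
  · exact main hd hG hreg h
  have lf : G.LocallyFinite := fun v =>
    (Set.finite_of_ncard_ne_zero (by rw [hreg v]; omega)).fintype
  have := countable_of_tree hG
  have C : Cr G θ d := ⟨hG, fun v => by
    rw [← SimpleGraph.card_neighborFinset_eq_degree, SimpleGraph.neighborFinset_def,
      ← Set.ncard_eq_toFinset_card', hreg], hd, h0.lt_of_ne (by rintro rfl; simp at h), h⟩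
  refine ⟨?_, fun μ hμ => (C.exists_jn hμ).elim fun κ J => J.factor⟩
  have key : ∀ n : ℕ, ∃ ν : ProbabilityMeasure (V → Bool), IsFreeIsing G (θ * (n / (n + 1))) ν := by
    intro n
    obtain ⟨ν, hν⟩ := (main (θ := θ * (n / (n + 1))) hd hG hreg (by
      rw [mul_pow, ← mul_assoc, h, one_mul]
      exact pow_lt_one₀ (by positivity) (by rw [div_lt_one (by positivity)]; linarith)
        (by norm_num))).1
    exact ⟨⟨ν, hν.1⟩, hν⟩
  choose ν hν using key
  obtain ⟨μ, hμ⟩ := isCompact_univ.ultrafilter_le_nhds' ((Ultrafilter.of atTop).map ν) univ_mem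
  refine ⟨μ, inferInstance, fun D hD η => ?_⟩
  have t : Tendsto (fun n : ℕ => θ * (n / (n + 1))) (Ultrafilter.of atTop : Ultrafilter ℕ)
      (𝓝 θ) := by
    simpa using ((tendsto_natCast_div_add_atTop (1 : ℝ)).const_mul θ).mono_left
      (Ultrafilter.of_le atTop)
  have cl : IsClopen {x : V → Bool | ∀ v ∈ D, x v = η v} := by
    simp only [Set.ofPred_forall]
    exact isClopen_biInter_finset fun v _ =>
      (isClopen_discrete {η v}).preimage (continuous_apply v)
  have t0 : Tendsto ν (Ultrafilter.of atTop : Ultrafilter ℕ) (𝓝 μ) := hμ.2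
  have t1 := NNReal.tendsto_coe.2 (ProbabilityMeasure.tendsto_measure_of_isClopen_of_tendsto t0 cl)
  refine tendsto_nhds_unique t1 (Tendsto.congr (fun n => ((hν n).2 D hD η).symm)
    ((tendsto_finsetProd _ fun e _ => ?_).const_mul _))
  induction e using Sym2.ind with
  | h u v => exact ((t.mul_const _).const_add _).div_const _

end Vale.Agent.P161
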