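import Vale.Agent.P161.Zero
import Vale.Agent.P161.Proc

/-! The comparison estimate between two finite volumes. -/

namespace Vale.Agent.P161

open Vale.Agent.P151 MeasureTheory
open scoped Classical unitInterval ENNReal

variable {V : Type*} {G : SimpleGraph V} {θ : ℝ} {T T' L : Finset V} {u v w : V}

lemma measurable_mm (T : Finset V) (w : V) : Measurable (mm G θ T w) := measurable_M _ _

lemma measurable_xm (T : Finset V) (u v : V) : Measurable (xm G θ T u v) := measurable_M _ _

lemma measurable_av (T : Finset V) (u v w : V) : Measurable (av G θ T u v w) :=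
  ((measurable_M _ _).sub ((measurable_xm T u v).mul (measurable_mm _ w))).div
    (measurable_const.sub ((measurable_xm T u v).pow_const 2))

lemma measurable_dx (T T' : Finset V) (u v : V) : Measurable (dx G θ T T' u v) :=
  (((measurable_xm T u v).comp measurable_fst).sub
    ((measurable_xm T' u v).comp measurable_snd)).pow_const 2

lemma measurable_gr (T T' : Finset V) (u v w : V) : Measurable (gr G θ T T' u v w) := by
  have := measurable_av (G := G) (θ := θ) T u v w
  have := measurable_av (G := G) (θ := θ) T' u v w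
  have := measurable_dx (G := G) (θ := θ) T T' u v
  have := measurable_dx (G := G) (θ := θ) T T' v u
  have := measurable_dx (G := G) (θ := θ) T T' w w
  unfold gr; fun_prop

lemma measurable_stp (T : Finset V) (w : V) :
    Measurable fun p : I × (V → ℝ) => stp G θ T w p.1 p.2 := by
  unfold stp
  split_ifs
  · have h1 : Measurable fun p : I × (V → ℝ) => qf (mm G θ T w p.2) p.1 :=
      continuous_qf.measurable.comp (((measurable_mm T w).comp measurable_snd).prodMk (by fun_prop))
    exact measurable_update'.comp (measurable_snd.prodMk (by fun_prop))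
  · exact measurable_snd

lemma dx_le (hθ : |θ| < 1) (p : (V → ℝ) × (V → ℝ)) : dx G θ T T' u v p ≤ 4 := by
  have a := abs_lt.1 (abs_xm_lt (G := G) hθ T u v p.1)
  have b := abs_lt.1 (abs_xm_lt (G := G) hθ T' u v p.2)
  unfold dx; nlinarith

lemma av_sq_le (hθ : |θ| < 1) (h : V → ℝ) : av G θ T u v w h ^ 2 ≤ 1 :=
  (sq_le_one_iff_abs_le_one _).2 (abs_av_le hθ)

lemma intg {α : Type*} [MeasurableSpace α] {ν : Measure α} [IsFiniteMeasure ν] {f : α → ℝ}
    (hf : Measurable f) (C : ℝ) (h0 : ∀ x, 0 ≤ f x) (h : ∀ x, f x ≤ C) : Integrable f ν :=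
  Integrable.of_bound hf.aestronglyMeasurable C
    (ae_of_all _ fun x => by rw [Real.norm_eq_abs, abs_of_nonneg (h0 x)]; exact h x)

lemma sq_split {η : ℝ} (hη : 0 < η) (a b : ℝ) :
    (a + b) ^ 2 ≤ (1 + η) * a ^ 2 + (1 + 1 / η) * b ^ 2 := by
  have : 2 * a * b ≤ η * a ^ 2 + 1 / η * b ^ 2 := by
    have h := div_nonneg (sq_nonneg (η * a - b)) hη.le
    have e : (η * a - b) ^ 2 / η = η * a ^ 2 + 1 / η * b ^ 2 - 2 * a * b := by field_simp; ring
    linarith
  nlinarith

variable [G.LocallyFinite]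

/-- parameters of the subcritical regime -/
structure Par2 (G : SimpleGraph V) [G.LocallyFinite] (θ : ℝ) (d : ℕ) (η r : ℝ) : Prop where
  tree : G.IsTree
  deg : ∀ v, G.degree v ≤ d
  two : 2 ≤ d
  half : θ ^ 2 ≤ 1 / 2
  pos : 0 < η
  le : θ ^ 2 * (1 + η) * (1 + η) * ((d : ℝ) - 1) ≤ r
  lt : r < 1

/-- weights growing slowly along edges -/
def Wt (G : SimpleGraph V) (η : ℝ) (wt : V → ℝ) : Prop :=
  (∀ u, 1 ≤ wt u) ∧ ∀ u c, G.Adj u c → wt c ≤ (1 + η) * wt u

variable {d : ℕ} {η r : ℝ} (H : Par2 G θ d η r)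
include H

lemma Par2.lt_one : |θ| < 1 := abs_lt_of_sq H.half

lemma Par2.maxp {wt : V → ℝ} (hw : Wt G η wt) (f : V → V → ℝ) {B c : ℝ} (hB : ∀ u v, f u v ≤ B)
    (hc : 0 ≤ c)
    (hf : ∀ u v, Ok G u v → f u v ≤ c * wt u + θ ^ 2 * (1 + η) * ∑ x ∈ ch G u v, f x u) :
    ∀ u v, Ok G u v → f u v ≤ 3 / (1 - r) * c * wt u :=
  max_principle H.deg H.two (by have := H.pos; positivity) (by linarith [H.pos]) H.le H.lt wt
    hw.1 hw.2 f hB hc hf

lemma sum_rec (h : V → ℝ) {F : V → ℝ} (hF : ∀ w, 0 ≤ F w) (u v : V) :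
    ∑ w ∈ L, av G θ T u v w h ^ 2 * F w ≤
      F u + θ ^ 2 * (1 + η) * ∑ c ∈ ch G u v, ∑ w ∈ L, av G θ T c u w h ^ 2 * F w := by
  have hp := H.pos
  have key : ∀ w, av G θ T u v w h ^ 2 * F w ≤ (if w = u then F u else 0) +
      θ ^ 2 * (1 + η) * ∑ c ∈ ch G u v, av G θ T c u w h ^ 2 * F w := by
    intro w
    have hn : ∀ c ∈ ch G u v, 0 ≤ av G θ T c u w h ^ 2 * F w :=
      fun c _ => mul_nonneg (sq_nonneg _) (hF w)
    have h0 : 0 ≤ θ ^ 2 * (1 + η) * ∑ c ∈ ch G u v, av G θ T c u w h ^ 2 * F w :=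
      mul_nonneg (by positivity) (Finset.sum_nonneg hn)
    split_ifs with e
    · subst e
      nlinarith [av_sq_le (G := G) (T := T) (u := w) (v := v) (w := w) H.lt_one h, hF w]
    by_cases hu : u ∈ T
    swap
    · rw [av, Cv_of_not_mem_root hu]; simpa using h0
    by_cases hw : w ∈ Br G u v
    swap
    · rw [av, Cv_of_not_mem fun h => hw (Finset.mem_filter.1 h).2]; simpa using h0
    obtain ⟨c, h1, h2, h3⟩ := exists_child hw e
    have h4 := Finset.single_le_sum hn (mem_ch.2 ⟨h1, h2⟩)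
    rw [av_rec H.tree H.lt_one hu h1 h2 h3, mul_pow, mul_assoc, zero_add]
    exact mul_le_mul ((gg_sq_le H.lt_one (abs_xm_lt H.lt_one _ _ _ _)).trans
      (by nlinarith [sq_nonneg θ])) h4 (hn c (mem_ch.2 ⟨h1, h2⟩)) (by positivity)
  refine (Finset.sum_le_sum fun w _ => key w).trans ?_
  rw [Finset.sum_add_distrib, ← Finset.mul_sum, Finset.sum_comm, Finset.sum_ite_eq']
  refine add_le_add ?_ le_rfl
  split_ifs
  · exact le_rfl
  · exact hF u

lemma sum_av_sq_le (h : V → ℝ) (huv : Ok G u v) :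
    ∑ w ∈ L, av G θ T u v w h ^ 2 ≤ 3 / (1 - r) := by
  have := H.maxp (wt := fun _ => 1) ⟨fun _ => le_rfl, fun _ _ _ => by linarith [H.pos]⟩
    (fun u v => ∑ w ∈ L, av G θ T u v w h ^ 2) (B := L.card) (c := 1) (fun u v => by
      simpa using Finset.sum_le_card_nsmul L _ 1 fun w _ => av_sq_le H.lt_one h) zero_le_one
    (fun u v _ => by simpa using sum_rec H h (F := fun _ => 1) (fun _ => zero_le_one) u v) u v huv
  simpa using this

lemma diff_rec (p : (V → ℝ) × (V → ℝ)) (huv : Ok G u v) :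
    ∑ w ∈ L, (av G θ T u v w p.1 - av G θ T' u v w p.2) ^ 2 ≤
      (4 * (3 / (1 - r)) * ind (u ∉ T ∨ u ∉ T') +
        (1 + 1 / η) * 64 * (3 / (1 - r)) * ∑ c ∈ ch G u v, dx G θ T T' c u p) +
      θ ^ 2 * (1 + η) *
        ∑ c ∈ ch G u v, ∑ w ∈ L, (av G θ T c u w p.1 - av G θ T' c u w p.2) ^ 2 := by
  have hp := H.pos
  have hK : 0 < 3 / (1 - r) := div_pos (by norm_num) (by linarith [H.lt])
  by_cases hu : u ∉ T ∨ u ∉ T'
  · have h1 := sum_av_sq_le (L := L) (T := T) H p.1 huv
    have h2 := sum_av_sq_le (L := L) (T := T') H p.2 huv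
    have h3 : ∑ w ∈ L, (av G θ T u v w p.1 - av G θ T' u v w p.2) ^ 2 ≤
        ∑ w ∈ L, (2 * av G θ T u v w p.1 ^ 2 + 2 * av G θ T' u v w p.2 ^ 2) :=
      Finset.sum_le_sum fun w _ => by
        nlinarith [sq_nonneg (av G θ T u v w p.1 + av G θ T' u v w p.2)]
    rw [Finset.sum_add_distrib, ← Finset.mul_sum, ← Finset.mul_sum] at h3
    have h4 : 0 ≤ (1 + 1 / η) * 64 * (3 / (1 - r)) * ∑ c ∈ ch G u v, dx G θ T T' c u p :=
      mul_nonneg (by positivity) (Finset.sum_nonneg fun c _ => dx_nonneg _ _ _ _ _)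
    have h5 : 0 ≤ θ ^ 2 * (1 + η) *
        ∑ c ∈ ch G u v, ∑ w ∈ L, (av G θ T c u w p.1 - av G θ T' c u w p.2) ^ 2 := by positivity
    rw [ind_pos hu]; linarith
  rw [ind_neg hu]
  push Not at hu
  have key : ∀ w, (av G θ T u v w p.1 - av G θ T' u v w p.2) ^ 2 ≤ ∑ c ∈ ch G u v,
      ((1 + 1 / η) * 64 * dx G θ T T' c u p * av G θ T' c u w p.2 ^ 2 +
        θ ^ 2 * (1 + η) * (av G θ T c u w p.1 - av G θ T' c u w p.2) ^ 2) := by
    intro w
    have hn : ∀ c ∈ ch G u v, 0 ≤ (1 + 1 / η) * 64 * dx G θ T T' c u p * av G θ T' c u w p.2 ^ 2 +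
        θ ^ 2 * (1 + η) * (av G θ T c u w p.1 - av G θ T' c u w p.2) ^ 2 := fun c _ => by
      have := dx_nonneg (G := G) (θ := θ) T T' c u p
      positivity
    by_cases e : w = u
    · subst e
      rw [av_root H.lt_one hu.1, av_root H.lt_one hu.2]
      simpa using Finset.sum_nonneg hn
    by_cases hw : w ∈ Br G u v
    swap
    · rw [av, av, Cv_of_not_mem fun h => hw (Finset.mem_filter.1 h).2,
        Cv_of_not_mem fun h => hw (Finset.mem_filter.1 h).2]
      simpa using Finset.sum_nonneg hn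
    obtain ⟨c, h1, h2, h3⟩ := exists_child hw e
    refine le_trans ?_ (Finset.single_le_sum hn (mem_ch.2 ⟨h1, h2⟩))
    rw [av_rec H.tree H.lt_one hu.1 h1 h2 h3, av_rec H.tree H.lt_one hu.2 h1 h2 h3]
    have a1 := gg_sq_le H.lt_one (abs_xm_lt (G := G) H.lt_one T c u p.1)
    have a2 := gg_lip H.half (abs_xm_lt (G := G) H.lt_one T c u p.1)
      (abs_xm_lt (G := G) H.lt_one T' c u p.2)
    have a3 := sq_split hp (gg θ (xm G θ T c u p.1) * (av G θ T c u w p.1 - av G θ T' c u w p.2))
      ((gg θ (xm G θ T c u p.1) - gg θ (xm G θ T' c u p.2)) * av G θ T' c u w p.2)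
    rw [mul_pow, mul_pow] at a3
    have a4 := mul_le_mul_of_nonneg_left (mul_le_mul_of_nonneg_right a1
      (sq_nonneg (av G θ T c u w p.1 - av G θ T' c u w p.2))) (show 0 ≤ 1 + η by linarith)
    have a5 := mul_le_mul_of_nonneg_left (mul_le_mul_of_nonneg_right a2
      (sq_nonneg (av G θ T' c u w p.2))) (show 0 ≤ 1 + 1 / η by positivity)
    unfold dx
    linarith
  refine (Finset.sum_le_sum fun w _ => key w).trans ?_
  rw [Finset.sum_comm, mul_zero, zero_add, Finset.mul_sum, Finset.mul_sum, ← Finset.sum_add_distrib]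
  refine Finset.sum_le_sum fun c hc => ?_
  rw [Finset.sum_add_distrib, ← Finset.mul_sum, ← Finset.mul_sum]
  have h1 := sum_av_sq_le (L := L) (T := T') H p.2 (Or.inr (mem_ch.1 hc).1.symm)
  have := dx_nonneg (G := G) (θ := θ) T T' c u p
  have h2 := mul_le_mul_of_nonneg_left h1
    (show 0 ≤ (1 + 1 / η) * 64 * dx G θ T T' c u p by positivity)
  linarith

/-- weighted bound on the differences -/
def Bd (G : SimpleGraph V) (θ : ℝ) (T T' : Finset V) (wt : V → ℝ)
    (ν : Measure ((V → ℝ) × (V → ℝ))) (D : ℝ) : Prop :=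
  ∀ u v, Ok G u v → ∫ p, dx G θ T T' u v p ∂ν ≤ D * wt u

/-- the constant in the growth bound -/
noncomputable def Kc (d : ℕ) (η r : ℝ) : ℝ :=
  60000 * (3 / (1 - r)) * (4 * (3 / (1 - r)) + (1 + 1 / η) * 64 * (3 / (1 - r)) * d * (1 + η) +
    2 * (2 + η) + 2)

lemma int_dx {ν : Measure ((V → ℝ) × (V → ℝ))} [IsFiniteMeasure ν] (u v : V) :
    Integrable (dx G θ T T' u v) ν :=
  intg (measurable_dx T T' u v) 4 (dx_nonneg _ _ _ _) (dx_le (abs_lt_of_sq H.half))

lemma int_gr {ν : Measure ((V → ℝ) × (V → ℝ))} [IsFiniteMeasure ν] (u v w : V) :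
    Integrable (gr G θ T T' u v w) ν :=
  intg (measurable_gr _ _ _ _ _) (60000 * (4 + 2 * 12)) (gr_nonneg _ _ _ _ _) fun p => by
    have a := abs_le.1 (abs_av_le (G := G) (T := T) (u := u) (v := v) (w := w) (h := p.1) H.lt_one)
    have b := abs_le.1 (abs_av_le (G := G) (T := T') (u := u) (v := v) (w := w) (h := p.2) H.lt_one)
    have c1 := dx_le (G := G) (T := T) (T' := T') (u := u) (v := v) H.lt_one p
    have c2 := dx_le (G := G) (T := T) (T' := T') (u := v) (v := u) H.lt_one p
    have c3 := dx_le (G := G) (T := T) (T' := T') (u := w) (v := w) H.lt_one p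
    have c4 := dx_nonneg (G := G) (θ := θ) T T' u v p
    have c5 := dx_nonneg (G := G) (θ := θ) T T' v u p
    have c6 := dx_nonneg (G := G) (θ := θ) T T' w w p
    unfold gr
    gcongr <;> nlinarith


lemma beta_bound {wt : V → ℝ} (hw : Wt G η wt) {ν : Measure ((V → ℝ) × (V → ℝ))}
    [IsProbabilityMeasure ν] {D : ℝ} (hD : 0 ≤ D) (hB : Bd G θ T T' wt ν D) (S : Finset V)
    {π : (V → ℝ) × (V → ℝ) → V → ℝ} (hπ : Measurable π) :
    (∀ u v, Integrable (fun p => ∑ w ∈ L, av G θ S u v w (π p) ^ 2 * dx G θ T T' w w p) ν) ∧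
    ∀ u v, Ok G u v → ∫ p, ∑ w ∈ L, av G θ S u v w (π p) ^ 2 * dx G θ T T' w w p ∂ν ≤
      3 / (1 - r) * D * wt u := by
  have hb : ∀ u v p, ∑ w ∈ L, av G θ S u v w (π p) ^ 2 * dx G θ T T' w w p ≤ L.card * 4 := by
    intro u v p
    rw [← nsmul_eq_mul]
    exact Finset.sum_le_card_nsmul L _ 4 fun w _ => by
      nlinarith [av_sq_le (G := G) (T := S) (u := u) (v := v) (w := w) H.lt_one (π p),
        dx_le (G := G) (T := T) (T' := T') (u := w) (v := w) H.lt_one p,
        dx_nonneg (G := G) (θ := θ) T T' w w p]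
  have hi : ∀ u v, Integrable
      (fun p => ∑ w ∈ L, av G θ S u v w (π p) ^ 2 * dx G θ T T' w w p) ν := fun u v =>
    intg (Finset.measurable_sum _ fun w _ => (((measurable_av S u v w).comp hπ).pow_const 2).mul
      (measurable_dx _ _ _ _)) _ (fun p => Finset.sum_nonneg fun w _ =>
        mul_nonneg (sq_nonneg _) (dx_nonneg _ _ _ _ _)) (hb u v)
  refine ⟨hi, H.maxp hw _ (B := L.card * 4) (fun u v => ?_) hD fun u v _ => ?_⟩
  · simpa using integral_mono (hi u v) (integrable_const _) (hb u v)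
  · have := integral_mono (hi u v) ((int_dx H u u).add
      ((integrable_finsetSum (ch G u v) fun c _ => hi c u).const_mul (θ ^ 2 * (1 + η))))
      (fun p => sum_rec H (π p) (F := fun w => dx G θ T T' w w p)
        (fun w => dx_nonneg _ _ _ _ _) u v)
    rw [integral_add' (int_dx H u u)
      ((integrable_finsetSum (ch G u v) fun c _ => hi c u).const_mul _), integral_const_mul,
      integral_finsetSum _ fun c _ => hi c u] at this
    linarith [hB u u (Or.inl rfl)]

lemma key_est {wt : V → ℝ} (hw : Wt G η wt) {ν : Measure ((V → ℝ) × (V → ℝ))}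
    [IsProbabilityMeasure ν] {D : ℝ} (hD : 0 ≤ D) (hB : Bd G θ T T' wt ν D)
    (hT : ∀ u, u ∉ T ∨ u ∉ T' → 1 ≤ D * wt u) (huv : Ok G u v) :
    ∑ w ∈ L, ∫ p, gr G θ T T' u v w p ∂ν ≤ Kc d η r * D * wt u := by
  have hp := H.pos
  set K := 3 / (1 - r) with hKdef
  have hK : 0 < K := div_pos (by norm_num) (by linarith [H.lt])
  have hw0 : ∀ u, 0 ≤ wt u := fun u => zero_le_one.trans (hw.1 u)
  have hb : ∀ u v (p : (V → ℝ) × (V → ℝ)),
      ∑ w ∈ L, (av G θ T u v w p.1 - av G θ T' u v w p.2) ^ 2 ≤ L.card * 4 := by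
    intro u v p
    rw [← nsmul_eq_mul]
    exact Finset.sum_le_card_nsmul L _ 4 fun w _ => by
      nlinarith [abs_le.1 (abs_av_le (G := G) (T := T) (u := u) (v := v) (w := w) (h := p.1)
        H.lt_one), abs_le.1 (abs_av_le (G := G) (T := T') (u := u) (v := v) (w := w) (h := p.2)
        H.lt_one)]
  have hi : ∀ u v, Integrable (fun p : (V → ℝ) × (V → ℝ) =>
      ∑ w ∈ L, (av G θ T u v w p.1 - av G θ T' u v w p.2) ^ 2) ν := fun u v =>
    intg (Finset.measurable_sum _ fun w _ => (((measurable_av T u v w).comp measurable_fst).sub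
      ((measurable_av T' u v w).comp measurable_snd)).pow_const 2) _
      (fun p => Finset.sum_nonneg fun w _ => sq_nonneg _) (hb u v)
  have hA := H.maxp hw (fun u v => ∫ p, ∑ w ∈ L,
      (av G θ T u v w p.1 - av G θ T' u v w p.2) ^ 2 ∂ν) (B := L.card * 4)
      (c := (4 * K + (1 + 1 / η) * 64 * K * d * (1 + η)) * D)
      (fun u v => by simpa using integral_mono (hi u v) (integrable_const _) (hb u v))
      (by positivity) (fun u v huv => by
        have i1 := (integrable_finsetSum (ch G u v) fun c _ =>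
          int_dx (T := T) (T' := T') (ν := ν) H c u)
        have i2 := (integrable_const (μ := ν) (4 * K * ind (u ∉ T ∨ u ∉ T'))).add
          (i1.const_mul ((1 + 1 / η) * 64 * K))
        have i3 := (integrable_finsetSum (ch G u v) fun c _ => hi c u).const_mul (θ ^ 2 * (1 + η))
        have := integral_mono (hi u v) (i2.add i3) (fun p => diff_rec H p huv)
        rw [integral_add' i2 i3, integral_add' (integrable_const _) (i1.const_mul _),
          integral_const_mul, integral_const_mul, integral_const_mul,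
          integral_finsetSum _ fun c _ => hi c u,
          integral_finsetSum _ fun c _ => int_dx H c u] at this
        have h1 : ind (u ∉ T ∨ u ∉ T') ≤ D * wt u := by
          by_cases e : u ∉ T ∨ u ∉ T'
          · rw [ind_pos e]; exact hT u e
          · rw [ind_neg e]; exact mul_nonneg hD (hw0 u)
        have h2 : ∑ c ∈ ch G u v, ∫ p, dx G θ T T' c u p ∂ν ≤ d * (D * ((1 + η) * wt u)) := by
          refine (Finset.sum_le_card_nsmul _ _ (D * ((1 + η) * wt u)) fun c hc => ?_).trans ?_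
          · have := (mem_ch.1 hc).1
            exact (hB c u (Or.inr this.symm)).trans (mul_le_mul_of_nonneg_left (hw.2 u c this) hD)
          · rw [nsmul_eq_mul]
            have := hw0 u
            exact mul_le_mul_of_nonneg_right (by exact_mod_cast card_ch_le H.deg u v)
              (by positivity)
        have h3 := mul_le_mul_of_nonneg_left h1 (show 0 ≤ 4 * K by positivity)
        have h4 := mul_le_mul_of_nonneg_left h2 (show 0 ≤ (1 + 1 / η) * 64 * K by positivity)
        simp only [integral_const, probReal_univ, smul_eq_mul, one_mul] at this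
        linarith) u v huv
  obtain ⟨j1, b1⟩ := beta_bound (L := L) H hw hD hB T measurable_fst
  obtain ⟨j2, b2⟩ := beta_bound (L := L) H hw hD hB T' measurable_snd
  have hgi : ∀ w, Integrable (gr G θ T T' u v w) ν := int_gr H u v
  have i1 := ((int_dx (T := T) (T' := T') (ν := ν) H u v).add
    (int_dx (T := T) (T' := T') H v u)).const_mul (2 * K)
  have i2 := ((hi u v).add i1).add ((j1 u v).add (j2 u v))
  have main := integral_mono (integrable_finsetSum L fun w _ => hgi w) (i2.const_mul 60000)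
    (fun p => by
      have h1 := sum_av_sq_le (L := L) (T := T) H p.1 huv
      have h2 := sum_av_sq_le (L := L) (T := T') H p.2 huv
      have h3 := mul_le_mul_of_nonneg_right (add_le_add h1 h2) (add_nonneg
        (dx_nonneg (G := G) (θ := θ) T T' u v p) (dx_nonneg (G := G) (θ := θ) T T' v u p))
      have e : ∑ w ∈ L, gr G θ T T' u v w p = 60000 * (∑ w ∈ L,
          (av G θ T u v w p.1 - av G θ T' u v w p.2) ^ 2 +
          (∑ w ∈ L, av G θ T u v w p.1 ^ 2 + ∑ w ∈ L, av G θ T' u v w p.2 ^ 2) *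
            (dx G θ T T' u v p + dx G θ T T' v u p) +
          (∑ w ∈ L, av G θ T u v w p.1 ^ 2 * dx G θ T T' w w p +
            ∑ w ∈ L, av G θ T' u v w p.2 ^ 2 * dx G θ T T' w w p)) := by
        rw [← Finset.sum_add_distrib, Finset.sum_mul, ← Finset.sum_add_distrib,
          ← Finset.sum_add_distrib, ← Finset.sum_add_distrib, Finset.mul_sum]
        exact Finset.sum_congr rfl fun w _ => by unfold gr; ring
      simp only [Pi.add_apply]
      rw [e]; linarith)
  rw [integral_finsetSum _ fun w _ => hgi w, integral_const_mul,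
    integral_add' ((hi u v).add i1) ((j1 u v).add (j2 u v)), integral_add' (hi u v) i1,
    integral_add' (j1 u v) (j2 u v), integral_const_mul,
    integral_add' (int_dx H u v) (int_dx H v u)] at main
  have h1 := hB u v huv
  have h2 : ∫ p, dx G θ T T' v u p ∂ν ≤ D * ((1 + η) * wt u) := by
    rcases huv with rfl | h
    · nlinarith [mul_nonneg (mul_nonneg hD hp.le) (hw0 v)]
    · exact (hB v u (Or.inr h.symm)).trans (mul_le_mul_of_nonneg_left (hw.2 u v h) hD)
  have h3 := mul_le_mul_of_nonneg_left (add_le_add h1 h2) (show 0 ≤ 2 * K by positivity)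
  have h4 := b1 u v huv
  have h5 := b2 u v huv
  unfold Kc
  rw [← hKdef] at *
  linarith

end Vale.Agent.P161
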