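import Vale.Agent.P161.Comp

/-! The factor map and its law. -/

namespace Vale.Agent.P161

open Vale.Agent.P151 MeasureTheory Filter Topology
open scoped Classical unitInterval ENNReal

variable {V : Type*} {G : SimpleGraph V} {θ : ℝ} {T : Finset V} {v : V} {δ : I}

lemma sign_alg {m x s : ℝ} (h1 : 1 - m ^ 2 ≤ s) (h2 : 1 - |m| ≤ s) (hm : |m| < 1) :
    (1 - (if 0 < x then 1 else -1) * m) / 2 ≤ s + (x - m) ^ 2 := by
  obtain ⟨a, b⟩ := abs_lt.1 hm
  split_ifs with h
  · rcases le_total 0 m with h' | h'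
    · rw [abs_of_nonneg h'] at h2; nlinarith [sq_nonneg (x - m)]
    · nlinarith
  · rcases le_total 0 m with h' | h'
    · nlinarith
    · rw [abs_of_nonpos h'] at h2; nlinarith [sq_nonneg (x - m)]

lemma sign_alg2 {m x s : ℝ} (h1 : 1 - m ^ 2 ≤ s) (h : ¬ (0 < x ↔ 0 < m)) :
    1 ≤ s + (x - m) ^ 2 := by
  by_cases hx : 0 < x
  · have : ¬ 0 < m := by tauto
    nlinarith
  · have : 0 < m := by tauto
    nlinarith

lemma mm_map (g : G ≃g G) (T : Finset V) (w : V) (h : V → ℝ) :
    mm G θ (T.image g) (g w) (fun v => h (g.symm v)) = mm G θ T w h := by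
  rw [mm, M_map]
  refine M_congr fun s _ => ?_
  simp [spT, sp]

lemma stp_map (g : G ≃g G) (T : Finset V) (w : V) (y : I) (h : V → ℝ) :
    stp G θ (T.image g) (g w) y (fun v => h (g.symm v)) = fun v => stp G θ T w y h (g.symm v) := by
  unfold stp
  by_cases e : w ∈ T
  · rw [if_pos (Finset.mem_image_of_mem _ e), if_pos e, mm_map]
    funext v
    obtain ⟨v, rfl⟩ := g.surjective v
    by_cases e' : v = w
    · subst e'; simp
    · rw [Function.update_of_ne (g.injective.ne e')]; simp [e']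
  · rw [if_neg (by simpa using e), if_neg e]

lemma mst_map (g : G ≃g G) (T : Finset V) (n : ℕ) (ω : ℕ → V → I) :
    mst G θ δ (T.image g) n (fun j v => ω j (g.symm v)) = fun v => mst G θ δ T n ω (g.symm v) := by
  have key : ∀ (l : List V) (U : V → I) (h : V → ℝ),
      run (stp G θ (T.image g)) (l.map g) (fun v => U (g.symm v)) (fun v => h (g.symm v)) =
        fun v => run (stp G θ T) l U h (g.symm v) := by
    intro l U h
    induction l with
    | nil => rfl
    | cons a l ih => simp only [List.map_cons, run, ih, stp_map, RelIso.symm_apply_apply]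
  induction n with
  | zero => rfl
  | succ n ih =>
    simp only [mst, st] at ih ⊢
    rw [ih, ← key]
    congr 1
    exact lst_map g.toEquiv T δ _

lemma ind_le_M (hθ : |θ| < 1) {D : Finset V} (hD : D ⊆ T) {Q : Set V → Prop}
    (hQ : ∀ s s' : Set V, (∀ v ∈ D, v ∈ s ↔ v ∈ s') → Q s → Q s') (x h : V → ℝ) :
    ind (Q {v | 0 < x v}) ≤ M G θ T h (fun s => ind (Q s)) +
      ∑ v ∈ D, (unc G θ T v h + (x v - mm G θ T v h) ^ 2) := by
  have h1 : M G θ T h (fun _ => ind (Q {v | 0 < x v}) + 0 * 0) ≤ M G θ T h (fun s =>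
      1 * ind (Q s) + 1 * ∑ v ∈ D, (1 / 2 + (-(sp v {v | 0 < x v}) / 2) * spT T v s)) := by
    refine M_mono hθ fun s _ => ?_
    have hn : ∀ v ∈ D, 0 ≤ 1 / 2 + (-(sp v {v | 0 < x v}) / 2) * spT T v s := fun v hv => by
      rw [spT_of_mem (hD hv)]; unfold sp; split_ifs <;> norm_num
    by_cases e : ∀ v ∈ D, v ∈ {v | 0 < x v} ↔ v ∈ s
    · linarith [ind_mono (hQ _ _ e), Finset.sum_nonneg hn]
    · push Not at e
      obtain ⟨v, hv, e⟩ := e
      have := Finset.single_le_sum hn hv
      have e2 : 1 / 2 + (-(sp v {v | 0 < x v}) / 2) * spT T v s = 1 := by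
        rw [spT_of_mem (hD hv)]; unfold sp
        rcases e with e | e
        · rw [if_pos e.1, if_neg e.2]; norm_num
        · rw [if_neg e.1, if_pos e.2]; norm_num
      linarith [ind_le_one (Q {v | 0 < x v}), ind_nonneg (Q s)]
  rw [M_aff hθ, M_lin, M_sum] at h1
  simp only [M_aff hθ, zero_mul, add_zero, one_mul] at h1
  refine h1.trans (add_le_add le_rfl (Finset.sum_le_sum fun v _ => ?_))
  have := sign_alg (x := x v) (unc_facts (G := G) (T := T) (v := v) hθ h).1 (unc_facts hθ h).2
    (abs_mm_lt hθ T v h)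
  simp only [sp, Set.mem_ofPred_eq]
  unfold mm at *
  linarith

variable [G.LocallyFinite]

/-- local approximation of the spin -/
noncomputable def xi (G : SimpleGraph V) [G.LocallyFinite] (θ : ℝ) (δ : I) (j k : ℕ) (v : V)
    (ω : ℕ → V → I) : ℝ := mm G θ (ball G (j * k) v) v (mst G θ δ (ball G (j * k) v) k ω)

/-- the limiting configuration -/
noncomputable def Phi (G : SimpleGraph V) [G.LocallyFinite] (θ : ℝ) (δ : I) (j : ℕ)
    (ω : ℕ → V → I) (v : V) : Bool := decide (∀ᶠ k in atTop, 0 < xi G θ δ j k v ω)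

lemma Phi_map (g : G ≃g G) (j : ℕ) (ω : ℕ → V → I) :
    Phi G θ δ j (fun i v => ω i (g.symm v)) = fun v => Phi G θ δ j ω (g.symm v) := by
  funext v
  obtain ⟨v, rfl⟩ := g.surjective v
  simp only [Phi, xi, ← image_ball, mst_map, mm_map, RelIso.symm_apply_apply]

variable [Countable V]

lemma measurable_xi (j k : ℕ) (v : V) : Measurable (xi G θ δ j k v) :=
  (measurable_mm _ _).comp (measurable_mst _ _)

lemma measurable_xi_pos (j k : ℕ) (v : V) : Measurable fun ω => 0 < xi G θ δ j k v ω :=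
  measurableSet_setOfPred.1 (measurableSet_lt measurable_const (measurable_xi j k v))

lemma measurable_Phi (j : ℕ) : Measurable (Phi G θ δ j) := by
  refine measurable_pi_lambda _ fun v => measurable_to_bool ?_
  have : (fun ω => Phi G θ δ j ω v) ⁻¹' {true} = {ω | ∃ N, ∀ k ≥ N, 0 < xi G θ δ j k v ω} := by
    ext ω; simp [Phi]
  rw [this]
  exact measurableSet_setOfPred.2 (Measurable.exists fun N => Measurable.forall fun k =>
    measurable_const.imp (measurable_xi_pos j k v))

variable {d j : ℕ} {η r : ℝ} (H : Par2 G θ d η r) (hδ : (δ : ℝ) ≤ 1 / 2)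
  (hK : 4 * Kc d η r * δ ≤ 1) (hj : 6 ≤ (1 + η) ^ j)
include H hδ hK hj

lemma err_bound {k : ℕ} (hT : ball G (j * k) v ⊆ T) :
    ∫⁻ ω, ENNReal.ofReal (unc G θ T v (mst G θ δ T k ω) +
      (xi G θ δ j k v ω - mm G θ T v (mst G θ δ T k ω)) ^ 2) ∂(noise V) ≤
      ENNReal.ofReal ((1 - δ / 24) ^ k + (1 / 2) ^ k) := by
  have h0 : 0 ≤ 1 - (δ : ℝ) / 24 := by linarith [δ.2.2]
  rw [ENNReal.ofReal_add (by positivity) (by positivity), lintegral_congr fun ω =>
    ENNReal.ofReal_add (p := unc G θ T v (mst G θ δ T k ω)) (Real.sqrt_nonneg _) (sq_nonneg _),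
    lintegral_add_left (f := fun ω => ENNReal.ofReal (unc G θ T v (mst G θ δ T k ω)))
      ((measurable_unc T v).comp (measurable_mst T k)).ennreal_ofReal]
  refine add_le_add (lint_unc_mst H.lt_one (hT (self_mem_ball _ _)) k)
    ((compare H hδ hK subset_rfl hT k).trans (ENNReal.ofReal_le_ofReal ?_))
  rw [pow_mul, ← div_pow]
  refine pow_le_pow_left₀ (div_nonneg (by norm_num) (by linarith)) ?_ k
  rw [div_le_iff₀ (by linarith)]; linarith

lemma ae_stable (hδ0 : (0 : ℝ) < δ) : ∀ᵐ ω ∂(noise V), ∀ v, ∀ᶠ k in atTop,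
    (0 < xi G θ δ j k v ω ↔ Phi G θ δ j ω v = true) := by
  have h0 : 0 ≤ 1 - (δ : ℝ) / 24 := by linarith [δ.2.2]
  refine ae_all_iff.2 fun v => ?_
  have hb : ∀ k, noise V {ω | ¬ (0 < xi G θ δ j k v ω ↔ 0 < xi G θ δ j (k + 1) v ω)} ≤
      ENNReal.ofReal ((1 - δ / 24) ^ k + (1 / 2) ^ k + (1 - δ / 24) ^ k) := by
    intro k
    have hT : ball G (j * k) v ⊆ ball G (j * (k + 1)) v := ball_mono (by nlinarith)
    set T := ball G (j * (k + 1)) v
    rw [ENNReal.ofReal_add (by positivity) (by positivity)]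
    refine le_trans (measure_mono (t := {ω | ¬ (0 < xi G θ δ j k v ω ↔
      0 < mm G θ T v (mst G θ δ T k ω))} ∪ {ω | ¬ (0 < mm G θ T v (mst G θ δ T k ω) ↔
        0 < mm G θ T v (mst G θ δ T (k + 1) ω))}) fun ω h => ?_) ((measure_union_le _ _).trans
      (add_le_add ?_ (sign_change H.lt_one (self_mem_ball _ _) k)))
    · by_contra h'
      simp only [Set.mem_union, Set.mem_ofPred_eq, not_or, not_not] at h h'
      exact h (h'.1.trans h'.2)
    · refine le_trans ?_ (err_bound H hδ hK hj hT)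
      rw [← lintegral_indicator_one]
      · refine lintegral_mono fun ω => ?_
        by_cases h : ¬ (0 < xi G θ δ j k v ω ↔ 0 < mm G θ T v (mst G θ δ T k ω))
        · rw [Set.indicator_of_mem (by exact h), Pi.one_apply, ENNReal.one_le_ofReal]
          exact sign_alg2 (unc_facts H.lt_one _).1 h
        · rw [Set.indicator_of_notMem (by exact h)]; exact zero_le
      · exact measurableSet_setOfPred.2 ((measurable_xi_pos j k v).iff (measurableSet_setOfPred.1
          (measurableSet_lt measurable_const ((measurable_mm T v).comp (measurable_mst T k))))).not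
  have g1 := summable_geometric_of_lt_one h0 (by linarith)
  have hs := ((g1.add summable_geometric_two).add g1).tsum_ofReal_ne_top
  filter_upwards [ae_eventually_notMem (ne_top_of_le_ne_top hs (ENNReal.tsum_le_tsum hb))] with ω h
  obtain ⟨N, hN⟩ := eventually_atTop.1 h
  simp only [not_not] at hN
  have h1 : ∀ k ≥ N, (0 < xi G θ δ j k v ω ↔ 0 < xi G θ δ j N v ω) := by
    intro k hk
    induction hk with
    | refl => rfl
    | step hk ih => exact (hN _ hk).symm.trans ih
  filter_upwards [eventually_ge_atTop N] with k hk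
  rw [h1 k hk, Phi, decide_eq_true_iff]
  constructor
  · intro h; filter_upwards [eventually_ge_atTop N] with k hk using (h1 k hk).2 h
  · intro h
    obtain ⟨k, h2, h3⟩ := (h.and (eventually_ge_atTop N)).exists
    exact (h1 k h3).1 h2

lemma law_le (hδ0 : (0 : ℝ) < δ) (D : Finset V) {Q : Set V → Prop}
    (hQ : ∀ s s' : Set V, (∀ v ∈ D, v ∈ s ↔ v ∈ s') → Q s → Q s')
    (hm : ∀ b : V → (ℕ → V → I) → Prop, (∀ v, Measurable (b v)) →
      MeasurableSet {ω | Q {v | b v ω}}) {c : ℝ}
    (hc : ∀ T, D ⊆ T → M G θ T 0 (fun s => ind (Q s)) ≤ c) :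
    noise V {ω | Q {v | Phi G θ δ j ω v = true}} ≤ ENNReal.ofReal c := by
  have h0 : 0 ≤ 1 - (δ : ℝ) / 24 := by linarith [δ.2.2]
  have hc0 : 0 ≤ c := (M_nonneg H.lt_one fun s _ => ind_nonneg _).trans (hc D subset_rfl)
  have t1 := tendsto_measure_of_ae_tendsto_indicator_of_isFiniteMeasure atTop (μ := noise V)
    (hm (fun v ω => Phi G θ δ j ω v = true) fun v => measurableSet_setOfPred.1
      (((measurable_pi_apply v).comp (measurable_Phi j)) (measurableSet_singleton true)))
    (fun k => hm (fun v ω => 0 < xi G θ δ j k v ω) (measurable_xi_pos j k)) (by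
      filter_upwards [ae_stable H hδ hK hj hδ0] with ω h
      filter_upwards [(eventually_all_finset D).2 fun v _ => h v] with k hk
      exact ⟨hQ _ _ hk, hQ _ _ fun v hv => (hk v hv).symm⟩)
  have t2 : Tendsto (fun k : ℕ => ENNReal.ofReal (c + D.card * ((1 - δ / 24) ^ k + (1 / 2) ^ k)))
      atTop (𝓝 (ENNReal.ofReal c)) := by
    refine ENNReal.tendsto_ofReal ?_
    have := (((tendsto_pow_atTop_nhds_zero_of_lt_one h0 (by linarith)).add
      (tendsto_pow_atTop_nhds_zero_of_lt_one (r := (1 / 2 : ℝ)) (by norm_num)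
        (by norm_num))).const_mul (D.card : ℝ)).const_add c
    simpa using this
  refine le_of_tendsto_of_tendsto' t1 t2 fun k => ?_
  let T := D.biUnion fun v => ball G (j * k) v
  have hT : ∀ v ∈ D, ball G (j * k) v ⊆ T := fun v hv => Finset.subset_biUnion_of_mem _ hv
  have hDT : D ⊆ T := fun v hv => hT v hv (self_mem_ball _ _)
  have hn : ∀ ω v, 0 ≤ unc G θ T v (mst G θ δ T k ω) +
      (xi G θ δ j k v ω - mm G θ T v (mst G θ δ T k ω)) ^ 2 :=
    fun ω v => add_nonneg (Real.sqrt_nonneg _) (sq_nonneg _)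
  have h1 : noise V {ω | Q {v | 0 < xi G θ δ j k v ω}} ≤ ∫⁻ ω,
      (ENNReal.ofReal (M G θ T (mst G θ δ T k ω) (fun s => ind (Q s))) +
      ∑ v ∈ D, ENNReal.ofReal (unc G θ T v (mst G θ δ T k ω) +
        (xi G θ δ j k v ω - mm G θ T v (mst G θ δ T k ω)) ^ 2)) ∂(noise V) := by
    rw [← lintegral_indicator_one (hm _ (measurable_xi_pos j k))]
    refine lintegral_mono fun ω => ?_
    by_cases h : Q {v | 0 < xi G θ δ j k v ω}
    · rw [Set.indicator_of_mem (by exact h), Pi.one_apply,
        ← ENNReal.ofReal_sum_of_nonneg fun v _ => hn ω v, ← ENNReal.ofReal_add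
          (M_nonneg H.lt_one fun s _ => ind_nonneg _) (Finset.sum_nonneg fun v _ => hn ω v),
        ENNReal.one_le_ofReal, ← ind_pos h]
      exact ind_le_M H.lt_one hDT hQ _ _
    · rw [Set.indicator_of_notMem (by exact h)]; exact zero_le
  refine h1.trans ?_
  rw [lintegral_add_left (f := fun ω => ENNReal.ofReal (M G θ T (mst G θ δ T k ω) _))
    ((measurable_M T _).comp (measurable_mst T k)).ennreal_ofReal,
    lintegral_finsetSum (f := fun v ω => ENNReal.ofReal (unc G θ T v (mst G θ δ T k ω) +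
        (xi G θ δ j k v ω - mm G θ T v (mst G θ δ T k ω)) ^ 2)) _ fun v _ => (((measurable_unc T v).comp (measurable_mst T k)).add
      (((measurable_xi j k v).sub ((measurable_mm T v).comp (measurable_mst T k))).pow_const
        2)).ennreal_ofReal, ENNReal.ofReal_add hc0 (by positivity),
    ENNReal.ofReal_mul (by positivity), ENNReal.ofReal_natCast, ← nsmul_eq_mul]
  exact add_le_add ((lint_M_mst H.lt_one (fun s => ind_nonneg _) k).trans
    (ENNReal.ofReal_le_ofReal (hc T hDT)))
    (Finset.sum_le_card_nsmul _ _ _ fun v hv => err_bound H hδ hK hj (hT v hv))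

lemma isFreeIsing_Phi (hδ0 : (0 : ℝ) < δ) : IsFreeIsing G θ ((noise V).map (Phi G θ δ j)) := by
  refine ⟨Measure.isProbabilityMeasure_map (measurable_Phi j).aemeasurable, fun D hD η => ?_⟩
  have hA : MeasurableSet {x : V → Bool | ∀ v ∈ D, x v = η v} :=
    measurableSet_setOfPred.2 (Measurable.forall fun v => measurable_const.imp
      (measurableSet_setOfPred.1 (measurableSet_eq_fun (measurable_pi_apply v) measurable_const)))
  have hm : ∀ b : V → (ℕ → V → I) → Prop, (∀ v, Measurable (b v)) →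
      Measurable fun ω => ∀ v ∈ D, (v ∈ {v | b v ω} ↔ η v = true) := fun b hb =>
    Measurable.forall fun v => measurable_const.imp ((hb v).iff measurable_const)
  have hc := fun T hT => M_cyl_zero H.tree H.lt_one hD η T hT
  set c := (1 / 2) * ∏ e ∈ edgesIn G D, edgeFactor θ η e
  have h1 := law_le H hδ hK hj hδ0 D (Q := fun s => ∀ v ∈ D, (v ∈ s ↔ η v = true))
    (fun s s' h1 h2 v hv => (h1 v hv).symm.trans (h2 v hv))
    (fun b hb => measurableSet_setOfPred.2 (hm b hb)) fun T hT => (hc T hT).le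
  have h2 := law_le H hδ hK hj hδ0 D (Q := fun s => ¬ ∀ v ∈ D, (v ∈ s ↔ η v = true))
    (fun s s' h1 h2 h3 => h2 fun v hv => (h1 v hv).trans (h3 v hv))
    (fun b hb => measurableSet_setOfPred.2 (hm b hb).not) (c := 1 - c) fun T hT => by
      have := M_aff (G := G) (T := T) (h := 0) H.lt_one 1 (-1) (cyl D η)
      rw [hc T hT] at this
      simp only [ind_not]
      refine le_of_eq ((M_congr fun s _ => ?_).trans (this.trans (by ring)))
      unfold cyl; ring
  have hc0 : 0 ≤ c := (M_nonneg H.lt_one fun s _ => ind_nonneg _).trans (hc D subset_rfl).le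
  have hc1 : c ≤ 1 := (hc D subset_rfl).symm.trans_le (M_le H.lt_one fun s _ => ind_le_one _)
  have e : Phi G θ δ j ⁻¹' {x : V → Bool | ∀ v ∈ D, x v = η v} =
      {ω | ∀ v ∈ D, (v ∈ {v | Phi G θ δ j ω v = true} ↔ η v = true)} := by
    ext ω; exact forall₂_congr fun v _ => Bool.eq_iff_iff
  have h3 := probReal_compl_eq_one_sub (μ := noise V) ((measurable_Phi (G := G) (θ := θ) (δ := δ) j) hA)
  have h4 := ENNReal.toReal_le_of_le_ofReal hc0 h1
  have h5 := ENNReal.toReal_le_of_le_ofReal (by linarith) h2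
  rw [e] at h3
  rw [map_measureReal_apply (measurable_Phi j) hA, e,
    Finset.prod_congr (s₂ := edgesIn G D) (by ext e; simp [edgesIn]) fun _ _ => rfl]
  exact le_antisymm h4 (by have := h3.symm.trans_le h5; change c ≤ _; linarith)

end Vale.Agent.P161
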