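import Vale.Agent.P161.Tree

/-! Finite volume Gibbs expectations with external fields. -/

namespace Vale.Agent.P161

open Vale.Agent.P151
open scoped Classical

variable {V : Type*} (G : SimpleGraph V) (θ : ℝ)

/-- spin of a vertex in a configuration -/
noncomputable def sp (a : V) (s : Set V) : ℝ := if a ∈ s then 1 else -1

/-- spin, set to zero outside the volume -/
noncomputable def spT (T : Finset V) (a : V) (s : Set V) : ℝ := if a ∈ T then sp a s else 0

/-- edge weight -/
noncomputable def es (s : Set V) : Sym2 V → ℝ :=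
  Sym2.lift ⟨fun a b => 1 + θ * (sp a s * sp b s), fun a b => by simp only [mul_comm (sp a s)]⟩

/-- Gibbs weight -/
noncomputable def W (T : Finset V) (h : V → ℝ) (s : Set V) : ℝ :=
  (∏ e ∈ edgesIn G T, es θ s e) * ∏ w ∈ T, (if w ∈ s then Real.exp (h w) else 1)

/-- unnormalised expectation -/
noncomputable def Z (T : Finset V) (h : V → ℝ) (F : Set V → ℝ) : ℝ :=
  Ex (fun _ => 1 / 2) T (fun s => W G θ T h s * F s)

/-- Gibbs expectation -/
noncomputable def M (T : Finset V) (h : V → ℝ) (F : Set V → ℝ) : ℝ :=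
  Z G θ T h F / Z G θ T h (fun _ => 1)

variable {G θ} {T : Finset V} {h : V → ℝ} {F F' : Set V → ℝ} {a b : V} {s : Set V}

lemma sp_sq (a : V) (s : Set V) : sp a s * sp a s = 1 := by unfold sp; split_ifs <;> norm_num

lemma abs_sp (a : V) (s : Set V) : |sp a s| = 1 := by unfold sp; split_ifs <;> norm_num

lemma abs_spT_le (T : Finset V) (a : V) (s : Set V) : |spT T a s| ≤ 1 := by
  unfold spT; split_ifs
  · exact (abs_sp a s).le
  · simp

lemma spT_of_mem (ha : a ∈ T) : spT T a = sp a := by funext s; simp [spT, ha]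

lemma spT_of_not_mem (ha : a ∉ T) : spT T a = fun _ => 0 := by funext s; simp [spT, ha]

lemma half_par : Par (fun _ : V => (1 / 2 : ℝ)) := fun _ => by norm_num

lemma es_pos (hθ : |θ| < 1) (s : Set V) (e : Sym2 V) : 0 < es θ s e := by
  induction e using Sym2.ind with
  | h a b =>
    have : |θ * (sp a s * sp b s)| < 1 := by rw [abs_mul, abs_mul, abs_sp, abs_sp]; simpa using hθ
    simp only [es, Sym2.lift_mk]
    linarith [(abs_lt.1 this).1]

lemma W_pos (hθ : |θ| < 1) (T : Finset V) (h : V → ℝ) (s : Set V) : 0 < W G θ T h s :=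
  mul_pos (Finset.prod_pos fun e _ => es_pos hθ s e) (Finset.prod_pos fun w _ => by
    split_ifs
    · exact Real.exp_pos _
    · exact one_pos)

lemma Z_pos (hθ : |θ| < 1) (h0 : ∀ s : Set V, s ⊆ T → 0 ≤ F s) {s0 : Finset V} (hs0 : s0 ⊆ T)
    (h1 : 0 < F s0) : 0 < Z G θ T h F := by
  unfold Z Ex
  refine Finset.sum_pos' (fun s hs => mul_nonneg (wt_nonneg half_par _ _) (mul_nonneg
    (W_pos hθ _ _ _).le (h0 _ (by exact_mod_cast Finset.mem_powerset.1 hs))))
    ⟨s0, Finset.mem_powerset.2 hs0, mul_pos ?_ (mul_pos (W_pos hθ _ _ _) h1)⟩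
  unfold wt
  exact Finset.prod_pos fun e _ => by split_ifs <;> norm_num

lemma Z_one_pos (hθ : |θ| < 1) : 0 < Z G θ T h (fun _ => 1) :=
  Z_pos hθ (fun _ _ => zero_le_one) (Finset.empty_subset _) one_pos

lemma Z_congr (e : ∀ s : Set V, s ⊆ T → F s = F' s) : Z G θ T h F = Z G θ T h F' :=
  Ex_congr fun s hs => by rw [e s hs]

lemma M_congr (e : ∀ s : Set V, s ⊆ T → F s = F' s) : M G θ T h F = M G θ T h F' := by
  unfold M; rw [Z_congr e]

lemma Z_lin (c c' : ℝ) (F F' : Set V → ℝ) :
    Z G θ T h (fun s => c * F s + c' * F' s) = c * Z G θ T h F + c' * Z G θ T h F' := by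
  unfold Z
  rw [← Ex_const_mul, ← Ex_const_mul, ← Ex_add]
  exact Ex_congr fun s _ => by ring

lemma M_lin (c c' : ℝ) (F F' : Set V → ℝ) :
    M G θ T h (fun s => c * F s + c' * F' s) = c * M G θ T h F + c' * M G θ T h F' := by
  unfold M; rw [Z_lin]; ring

lemma M_one (hθ : |θ| < 1) : M G θ T h (fun _ => 1) = 1 := div_self (Z_one_pos hθ).ne'

lemma M_zero : M G θ T h (fun _ => 0) = 0 := by
  have := M_lin (G := G) (θ := θ) (T := T) (h := h) 0 0 (fun _ => 0) (fun _ => 0)
  simpa using this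

lemma M_aff (hθ : |θ| < 1) (c c' : ℝ) (F : Set V → ℝ) :
    M G θ T h (fun s => c + c' * F s) = c + c' * M G θ T h F := by
  have := M_lin (G := G) (θ := θ) (T := T) (h := h) c c' (fun _ => 1) F
  rw [M_one hθ] at this
  simpa using this

lemma M_mono (hθ : |θ| < 1) (e : ∀ s : Set V, s ⊆ T → F s ≤ F' s) :
    M G θ T h F ≤ M G θ T h F' :=
  div_le_div_of_nonneg_right (Ex_mono half_par fun s hs =>
    mul_le_mul_of_nonneg_left (e s hs) (W_pos hθ _ _ _).le) (Z_one_pos hθ).le

lemma M_nonneg (hθ : |θ| < 1) (e : ∀ s : Set V, s ⊆ T → 0 ≤ F s) : 0 ≤ M G θ T h F := by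
  have := M_mono (G := G) (h := h) hθ (F := fun _ => 0) e
  rwa [M_zero] at this

lemma M_le (hθ : |θ| < 1) {c : ℝ} (e : ∀ s : Set V, s ⊆ T → F s ≤ c) : M G θ T h F ≤ c := by
  have := M_mono (G := G) (h := h) hθ (F' := fun _ => c + 0 * F ∅) (F := F) (by simpa using e)
  have h2 := M_aff (G := G) (T := T) (h := h) hθ c 0 (fun _ => F ∅)
  rw [h2] at this; simpa using this

lemma abs_M_le (hθ : |θ| < 1) (e : ∀ s : Set V, s ⊆ T → |F s| ≤ F' s) :
    |M G θ T h F| ≤ M G θ T h F' := by
  refine abs_le.2 ⟨?_, M_mono hθ fun s hs => (abs_le.1 (e s hs)).2⟩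
  have := M_mono (G := G) (h := h) hθ (F := fun s => 0 + (-1) * F' s) (F' := F)
    (fun s hs => by linarith [(abs_le.1 (e s hs)).1])
  rw [M_aff hθ] at this; linarith

lemma M_sum {κ : Type*} (D : Finset κ) (F : κ → Set V → ℝ) :
    M G θ T h (fun s => ∑ i ∈ D, F i s) = ∑ i ∈ D, M G θ T h (F i) := by
  unfold M Z
  rw [← Finset.sum_div, ← Ex_sum]
  congr 1
  exact Ex_congr fun s _ => by rw [Finset.mul_sum]

lemma abs_M_spT_lt (hθ : |θ| < 1) (T : Finset V) (h : V → ℝ) (a : V) :
    |M G θ T h (spT T a)| < 1 := by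
  by_cases ha : a ∈ T
  · have h1 : 0 < M G θ T h (fun s => 1 + 1 * spT T a s) :=
      div_pos (Z_pos hθ (fun s _ => by linarith [(abs_le.1 (abs_spT_le T a s)).1]) subset_rfl
        (by simp [spT, sp, ha])) (Z_one_pos hθ)
    have h2 : 0 < M G θ T h (fun s => 1 + (-1) * spT T a s) :=
      div_pos (Z_pos hθ (fun s _ => by linarith [(abs_le.1 (abs_spT_le T a s)).2])
        (Finset.empty_subset _) (by simp [spT, sp, ha])) (Z_one_pos hθ)
    rw [M_aff hθ] at h1 h2
    exact abs_lt.2 ⟨by linarith, by linarith⟩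
  · rw [spT_of_not_mem ha, M_zero]; simp

lemma measurable_M (T : Finset V) (F : Set V → ℝ) : Measurable fun h => M G θ T h F := by
  have key : ∀ F : Set V → ℝ, Measurable fun h => Z G θ T h F := by
    intro F
    unfold Z Ex W
    refine Finset.measurable_sum _ fun s _ => Measurable.const_mul (Measurable.mul_const
      (Measurable.const_mul (Finset.measurable_prod _ fun w _ => ?_) _) _) _
    split_ifs <;> fun_prop
  exact (key F).div (key _)

lemma W_congr {h' : V → ℝ} (e : ∀ w ∈ T, h w = h' w) : W G θ T h = W G θ T h' := by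
  funext s; unfold W
  congr 1
  exact Finset.prod_congr rfl fun w hw => by rw [e w hw]

lemma M_congr_h {h' : V → ℝ} (e : ∀ w ∈ T, h w = h' w) : M G θ T h F = M G θ T h' F := by
  unfold M Z; rw [W_congr e]

/-- effect of one observation -/
lemma M_update (hθ : |θ| < 1) {y : ℝ} (hy : |y| ≤ 1) (w : V) (F : Set V → ℝ) :
    M G θ T (Function.update h w (h w + Real.log ((2 + y) / (2 - y)))) F =
      (2 * M G θ T h F + y * M G θ T h (fun s => F s * spT T w s)) /
        (2 + M G θ T h (spT T w) * y) := by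
  obtain ⟨y1, y2⟩ := abs_le.1 hy
  by_cases hw : w ∈ T
  · have hW : ∀ s, W G θ T (Function.update h w (h w + Real.log ((2 + y) / (2 - y)))) s =
        W G θ T h s * ((2 + y * spT T w s) / (2 - y)) := by
      intro s
      unfold W
      rw [mul_assoc, ← Finset.mul_prod_erase T _ hw, ← Finset.mul_prod_erase T _ hw]
      congr 1
      rw [mul_right_comm]
      congr 1
      · have : (2 : ℝ) - y ≠ 0 := by linarith
        by_cases hs : w ∈ s
        · simp only [hs, if_true, Function.update_self, spT, hw, sp, mul_one]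
          rw [Real.exp_add, Real.exp_log (div_pos (by linarith) (by linarith))]
        · simp only [hs, if_false, spT, hw, sp, if_true]
          field_simp; ring
      · exact Finset.prod_congr rfl fun x hx => by
          rw [Function.update_of_ne (Finset.ne_of_mem_erase hx)]
    have hZ : ∀ F : Set V → ℝ,
        Z G θ T (Function.update h w (h w + Real.log ((2 + y) / (2 - y)))) F =
          (2 * Z G θ T h F + y * Z G θ T h (fun s => F s * spT T w s)) / (2 - y) := by
      intro F
      rw [← Z_lin, div_eq_mul_inv (Z G θ T h _)]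
      unfold Z
      rw [← Ex_mul_const]
      exact Ex_congr fun s _ => by rw [hW]; ring
    have hz := Z_one_pos (G := G) (T := T) (h := h) hθ
    have hd : 1 ≤ 2 + M G θ T h (spT T w) * y := by
      have : |M G θ T h (spT T w) * y| ≤ 1 := by
        rw [abs_mul]; exact mul_le_one₀ (abs_M_spT_lt hθ T h w).le (abs_nonneg _) hy
      linarith [(abs_le.1 this).1]
    have hd' : 2 + M G θ T h (spT T w) * y ≠ 0 := by linarith
    have e1 : Z G θ T h (fun s => 1 * spT T w s) = M G θ T h (spT T w) * Z G θ T h (fun _ => 1) := by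
      unfold M; rw [div_mul_cancel₀ _ hz.ne']; simp
    have : (2 : ℝ) - y ≠ 0 := by linarith
    rw [eq_div_iff hd']
    unfold M at *
    rw [hZ, hZ, e1]
    have e2 : 2 * Z G θ T h (fun _ => 1) + y * (Z G θ T h (spT T w) / Z G θ T h (fun _ => 1) *
        Z G θ T h (fun _ => 1)) = Z G θ T h (fun _ => 1) *
        (2 + Z G θ T h (spT T w) / Z G θ T h (fun _ => 1) * y) := by ring
    rw [e2]
    generalize 2 + Z G θ T h (spT T w) / Z G θ T h (fun _ => 1) * y = k at *
    field_simp
  · rw [M_congr_h (h' := h) fun x hx => Function.update_of_ne (fun e : x = w => hw (e ▸ hx)) _ _,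
      spT_of_not_mem hw]
    simp [M_zero]

lemma sp_union_left {t : Set V} (ha : a ∉ t) : sp a (s ∪ t) = sp a s := by simp [sp, ha]

lemma sp_union_right {t : Set V} (ha : a ∉ s) : sp a (s ∪ t) = sp a t := by simp [sp, ha]

lemma spT_union_left {R : Set V} {t : Set V} (ht : t ⊆ T.filter (· ∉ R)) (ha : a ∈ R) :
    spT T a (s ∪ t) = spT (T.filter (· ∈ R)) a s := by
  have : a ∉ t := fun h => (Finset.mem_filter.1 (ht h)).2 ha
  simp [spT, ha, sp_union_left this]

lemma spT_union_right {R : Set V} {t : Set V} (hs : s ⊆ T.filter (· ∈ R)) (ha : a ∉ R) :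
    spT T a (s ∪ t) = spT (T.filter (· ∉ R)) a t := by
  have : a ∉ s := fun h => ha (Finset.mem_filter.1 (hs h)).2
  simp [spT, ha, sp_union_right this]

lemma W_cut (hG : G.IsTree) (hab : G.Adj a b) {t : Set V} (hs : s ⊆ T.filter (· ∈ Br G a b))
    (ht : t ⊆ T.filter (· ∉ Br G a b)) :
    W G θ T h (s ∪ t) = W G θ (T.filter (· ∈ Br G a b)) h s * W G θ (T.filter (· ∉ Br G a b)) h t *
      (1 + θ * (spT (T.filter (· ∈ Br G a b)) a s * spT (T.filter (· ∉ Br G a b)) b t)) := by
  set R := Br G a b with hR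
  have haR : a ∈ R := self_mem_Br a b
  have hbR : b ∉ R := not_mem_Br hG hab
  have hs' : ∀ x, x ∉ R → x ∉ s := fun x hx h => hx (Finset.mem_filter.1 (hs h)).2
  have ht' : ∀ x, x ∈ R → x ∉ t := fun x hx h => (Finset.mem_filter.1 (ht h)).2 hx
  have e1 : ∏ w ∈ T, (if w ∈ s ∪ t then Real.exp (h w) else 1) =
      (∏ w ∈ T.filter (· ∈ R), (if w ∈ s then Real.exp (h w) else 1)) *
        ∏ w ∈ T.filter (· ∉ R), (if w ∈ t then Real.exp (h w) else 1) := by
    rw [← Finset.prod_filter_mul_prod_filter_not T (· ∈ R)]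
    congr 1
    · exact Finset.prod_congr rfl fun x hx => by simp [ht' x (Finset.mem_filter.1 hx).2]
    · exact Finset.prod_congr rfl fun x hx => by simp [hs' x (Finset.mem_filter.1 hx).2]
  have e2 : ∏ e ∈ edgesIn G T, es θ (s ∪ t) e =
      (∏ e ∈ edgesIn G (T.filter (· ∈ R)), es θ s e) *
        ((∏ e ∈ edgesIn G (T.filter (· ∉ R)), es θ t e) *
        (1 + θ * (spT (T.filter (· ∈ R)) a s * spT (T.filter (· ∉ R)) b t))) := by
    rw [← Finset.prod_filter_mul_prod_filter_not (edgesIn G T) (· ∈ ins R),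
      ← Finset.prod_filter_mul_prod_filter_not ((edgesIn G T).filter (· ∉ ins R)) (· ∈ ins Rᶜ)]
    congr 1
    · refine Finset.prod_congr ?_ fun e he => ?_
      · ext e
        induction e using Sym2.ind with
        | h x y => simp only [Finset.mem_filter, mem_edgesIn, mem_ins_mk, Finset.mem_coe]; tauto
      · induction e using Sym2.ind with
        | h x y =>
          simp only [Finset.mem_filter, mem_edgesIn, mem_ins_mk, Finset.mem_coe] at he
          simp only [es, Sym2.lift_mk, sp_union_left (ht' x he.2.1.2),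
            sp_union_left (ht' y he.2.2.2)]
    congr 1
    · refine Finset.prod_congr ?_ fun e he => ?_
      · ext e
        induction e using Sym2.ind with
        | h x y =>
          simp only [Finset.mem_filter, mem_edgesIn, mem_ins_mk, Finset.mem_coe, Set.mem_compl_iff]
          tauto
      · induction e using Sym2.ind with
        | h x y =>
          simp only [Finset.mem_filter, mem_edgesIn, mem_ins_mk, Finset.mem_coe] at he
          simp only [es, Sym2.lift_mk, sp_union_right (hs' x he.2.1.2),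
            sp_union_right (hs' y he.2.2.2)]
    have hx : ∀ e, e ∈ ((edgesIn G T).filter (· ∉ ins R)).filter (· ∉ ins Rᶜ) ↔
        e = s(a, b) ∧ a ∈ T ∧ b ∈ T := by
      intro e
      constructor
      · induction e using Sym2.ind with
        | h x y =>
          simp only [Finset.mem_filter, mem_edgesIn, mem_ins_mk, Finset.mem_coe, Set.mem_compl_iff,
            SimpleGraph.mem_edgeSet]
          rintro ⟨⟨⟨h1, h2⟩, h3⟩, h4⟩
          have : s(x, y) = s(a, b) := by
            by_contra hne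
            by_cases hx : x ∈ R
            · exact h3 ⟨hx, Br_step hx h1 hne⟩
            · have hy : y ∈ R := by tauto
              exact hx (Br_step hy h1.symm (by rwa [Sym2.eq_swap]))
          refine ⟨this, ?_⟩
          rcases Sym2.eq_iff.1 this with ⟨rfl, rfl⟩ | ⟨rfl, rfl⟩ <;> tauto
      · rintro ⟨rfl, h1, h2⟩
        simp only [Finset.mem_filter, mem_edgesIn, mem_ins_mk, Finset.mem_coe, Set.mem_compl_iff,
          SimpleGraph.mem_edgeSet]
        tauto
    by_cases hT : a ∈ T ∧ b ∈ T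
    · rw [show ((edgesIn G T).filter (· ∉ ins R)).filter (· ∉ ins Rᶜ) = {s(a, b)} by
        ext e; rw [hx]; simp [hT]]
      simp [es, spT, hT, haR, hbR, sp_union_left (ht' a haR), sp_union_right (hs' b hbR)]
    · rw [show ((edgesIn G T).filter (· ∉ ins R)).filter (· ∉ ins Rᶜ) = ∅ by
        ext e; rw [hx]; simp [hT]]
      by_cases h1 : a ∈ T
      · have : b ∉ T := fun h2 => hT ⟨h1, h2⟩
        simp [spT, this]
      · simp [spT, h1]
  unfold W
  rw [e1, e2]; ring

lemma Z_cut (hG : G.IsTree) (hab : G.Adj a b) {F1 F2 : Set V → ℝ}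
    (hF : ∀ s t : Set V, s ⊆ T.filter (· ∈ Br G a b) → t ⊆ T.filter (· ∉ Br G a b) →
      F (s ∪ t) = F1 s * F2 t) :
    Z G θ T h F = Z G θ (T.filter (· ∈ Br G a b)) h F1 * Z G θ (T.filter (· ∉ Br G a b)) h F2 +
      θ * (Z G θ (T.filter (· ∈ Br G a b)) h (fun s => F1 s * spT (T.filter (· ∈ Br G a b)) a s) *
        Z G θ (T.filter (· ∉ Br G a b)) h (fun s => F2 s * spT (T.filter (· ∉ Br G a b)) b s)) := by
  unfold Z
  rw [Ex_split _ T (Br G a b), ← Ex_mul_const, ← Ex_mul_const, ← Ex_const_mul, ← Ex_add]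
  refine Ex_congr fun s hs => ?_
  rw [← Ex_const_mul, ← Ex_const_mul, ← Ex_const_mul, ← Ex_add]
  refine Ex_congr fun t ht => ?_
  rw [W_cut hG hab hs ht, hF s t hs ht]; ring

lemma cut_den_pos (hθ : |θ| < 1) {x y : ℝ} (hx : |x| < 1) (hy : |y| < 1) : 0 < 1 + θ * (x * y) := by
  have : |θ * (x * y)| < 1 := by
    rw [abs_mul, abs_mul]
    exact mul_lt_one_of_nonneg_of_lt_one_left (abs_nonneg _) hθ
      (mul_le_one₀ hx.le (abs_nonneg _) hy.le)
  linarith [(abs_lt.1 this).1]

lemma M_cut (hG : G.IsTree) (hθ : |θ| < 1) (hab : G.Adj a b) {F1 F2 : Set V → ℝ}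
    (hF : ∀ s t : Set V, s ⊆ T.filter (· ∈ Br G a b) → t ⊆ T.filter (· ∉ Br G a b) →
      F (s ∪ t) = F1 s * F2 t) :
    M G θ T h F = (M G θ (T.filter (· ∈ Br G a b)) h F1 * M G θ (T.filter (· ∉ Br G a b)) h F2 +
      θ * (M G θ (T.filter (· ∈ Br G a b)) h (fun s => F1 s * spT (T.filter (· ∈ Br G a b)) a s) *
        M G θ (T.filter (· ∉ Br G a b)) h (fun s => F2 s * spT (T.filter (· ∉ Br G a b)) b s))) /
      (1 + θ * (M G θ (T.filter (· ∈ Br G a b)) h (spT (T.filter (· ∈ Br G a b)) a) *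
        M G θ (T.filter (· ∉ Br G a b)) h (spT (T.filter (· ∉ Br G a b)) b))) := by
  have hd := cut_den_pos hθ (abs_M_spT_lt (G := G) hθ (T.filter (· ∈ Br G a b)) h a)
    (abs_M_spT_lt (G := G) hθ (T.filter (· ∉ Br G a b)) h b)
  have z1 := Z_one_pos (G := G) (T := T.filter (· ∈ Br G a b)) (h := h) hθ
  have z2 := Z_one_pos (G := G) (T := T.filter (· ∉ Br G a b)) (h := h) hθ
  have e := Z_cut (θ := θ) (T := T) (h := h) (F := fun _ => 1) hG hab (F1 := fun _ => 1)
    (F2 := fun _ => 1) (by simp)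
  simp only [one_mul] at e
  rw [eq_div_iff hd.ne']
  unfold M at *
  rw [Z_cut hG hab hF, e]
  have : Z G θ (T.filter (· ∈ Br G a b)) h (fun _ => 1) * Z G θ (T.filter (· ∉ Br G a b)) h
      (fun _ => 1) + θ * (Z G θ (T.filter (· ∈ Br G a b)) h (spT (T.filter (· ∈ Br G a b)) a) *
        Z G θ (T.filter (· ∉ Br G a b)) h (spT (T.filter (· ∉ Br G a b)) b)) =
      Z G θ (T.filter (· ∈ Br G a b)) h (fun _ => 1) * Z G θ (T.filter (· ∉ Br G a b)) h
      (fun _ => 1) * (1 + θ * (Z G θ (T.filter (· ∈ Br G a b)) h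
        (spT (T.filter (· ∈ Br G a b)) a) / Z G θ (T.filter (· ∈ Br G a b)) h (fun _ => 1) *
        (Z G θ (T.filter (· ∉ Br G a b)) h (spT (T.filter (· ∉ Br G a b)) b) /
          Z G θ (T.filter (· ∉ Br G a b)) h (fun _ => 1)))) := by field_simp
  rw [this]
  generalize (1 + θ * (Z G θ (T.filter (· ∈ Br G a b)) h
        (spT (T.filter (· ∈ Br G a b)) a) / Z G θ (T.filter (· ∈ Br G a b)) h (fun _ => 1) *
        (Z G θ (T.filter (· ∉ Br G a b)) h (spT (T.filter (· ∉ Br G a b)) b) /
          Z G θ (T.filter (· ∉ Br G a b)) h (fun _ => 1)))) = k at *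
  field_simp

/-- equivariance -/
lemma M_map (g : G ≃g G) (T : Finset V) (h : V → ℝ) (F : Set V → ℝ) :
    M G θ (T.image g) (fun v => h (g.symm v)) F = M G θ T h (fun s => F (g '' s)) := by
  have hW : ∀ s : Set V, W G θ (T.image g) (fun v => h (g.symm v)) (g '' s) = W G θ T h s := by
    intro s
    have hm : ∀ x, g x ∈ g '' s ↔ x ∈ s := fun x => g.injective.mem_set_image
    unfold W
    congr 1
    · symm
      refine Finset.prod_bij (fun e _ => Sym2.map g e) ?_ ?_ ?_ ?_
      · intro e he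
        induction e using Sym2.ind with
        | h x y =>
          simp only [mem_edgesIn, mem_ins_mk, Finset.mem_coe, SimpleGraph.mem_edgeSet,
            Sym2.map_mk] at he ⊢
          exact ⟨g.map_adj_iff.2 he.1, Finset.mem_image_of_mem _ he.2.1,
            Finset.mem_image_of_mem _ he.2.2⟩
      · intro e _ e' _ h
        exact Sym2.map.injective g.injective h
      · intro e he
        induction e using Sym2.ind with
        | h x y =>
          simp only [mem_edgesIn, mem_ins_mk, Finset.mem_coe, SimpleGraph.mem_edgeSet,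
            Finset.mem_image] at he
          obtain ⟨h1, ⟨x', hx, rfl⟩, ⟨y', hy, rfl⟩⟩ := he
          exact ⟨s(x', y'), mem_edgesIn.2 ⟨g.map_adj_iff.1 h1, mem_ins_mk.2 ⟨hx, hy⟩⟩, rfl⟩
      · intro e _
        induction e using Sym2.ind with
        | h x y => simp only [es, Sym2.lift_mk, Sym2.map_mk, sp, hm]
    · rw [Finset.prod_image fun x _ y _ h => g.injective h]
      exact Finset.prod_congr rfl fun x _ => by simp only [hm, RelIso.symm_apply_apply]
  unfold M Z
  rw [Ex_image _ g.injective, Ex_image _ g.injective]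
  simp only [hW]

end Vale.Agent.P161
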