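import Vale.Agent.P161.Cut

/-! Innovations of the observation process. -/

namespace Vale.Agent.P161

open Vale.Agent.P151 MeasureTheory Measure Filter Topology Function
open scoped Classical ENNReal

lemma real_eq {α : Type*} [MeasurableSpace α] (ν : Measure α) {s : Set α} (hs : MeasurableSet s) :
    ν.real s = ∫ x, ind (x ∈ s) ∂ν := by
  rw [← integral_indicator_one hs]
  congr 1

lemma ext_BM {α : Type*} [MeasurableSpace α] {μ ν : Measure α} [IsFiniteMeasure μ]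
    [IsFiniteMeasure ν] (h : ∀ F : α → ℝ, BM F → ∫ x, F x ∂μ = ∫ x, F x ∂ν) : μ = ν := by
  ext s hs
  rw [← measureReal_eq_measureReal_iff, real_eq _ hs, real_eq _ hs]
  exact h _ (BM.ind (measurable_mem.2 hs))

lemma ext_rect {Y ι : Type*} [MeasurableSpace Y] {α β : Measure ((ι → II) × Y)} [IsFiniteMeasure α]
    [IsFiniteMeasure β] (h : ∀ (f : Y → ℝ) (A : Finset ι) (g : ι → II → ℝ), BM f → (∀ j, BM (g j)) →
      ∫ p, f p.2 * ∏ j ∈ A, g j (p.1 j) ∂α = ∫ p, f p.2 * ∏ j ∈ A, g j (p.1 j) ∂β) : α = β := by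
  refine Measure.ext_prod fun {t s} ht hs => ?_
  have key : ∀ (γ : Measure ((ι → II) × Y)) (t : Set (ι → II)), MeasurableSet t →
      (γ.restrict (Prod.snd ⁻¹' s)).map Prod.fst t = γ (t ×ˢ s) := fun γ t ht => by
    rw [map_apply measurable_fst ht, restrict_apply (measurable_fst ht)]; rfl
  have box : ∀ (A : Finset ι) (t : ι → Set II), (∀ i, MeasurableSet (t i)) →
      α (((A : Set ι).pi t) ×ˢ s) = β (((A : Set ι).pi t) ×ˢ s) := by
    intro A t ht
    have m := (MeasurableSet.pi A.countable_toSet fun i _ => ht i).prod hs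
    have e : ∀ p : (ι → II) × Y, ind (p ∈ ((A : Set ι).pi t) ×ˢ s) =
        ind (p.2 ∈ s) * ∏ j ∈ A, ind (p.1 j ∈ t j) := fun p => by
      simp only [ind, Finset.prod_boole, Set.mem_prod, Set.mem_pi, Finset.mem_coe]
      by_cases h1 : p.2 ∈ s <;> simp [h1]
    rw [← measureReal_eq_measureReal_iff, real_eq _ m, real_eq _ m]
    simp only [e]
    exact h (fun y => ind (y ∈ s)) A (fun j x => ind (x ∈ t j)) (BM.ind (measurable_mem.2 hs))
      fun j => BM.ind (measurable_mem.2 (ht j))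
  rw [← key α t ht, ← key β t ht]
  congr 1
  refine ext_of_generate_finite _ generateFrom_squareCylinders.symm
    (isPiSystem_squareCylinders (fun _ => MeasurableSpace.isPiSystem_measurableSet) (by simp)) ?_ ?_
  · rintro _ ⟨A, t, ht, rfl⟩
    have m : MeasurableSet ((A : Set ι).pi t) :=
      MeasurableSet.pi A.countable_toSet fun i _ => ht i trivial
    rw [key α _ m, key β _ m, box A t fun i => ht i trivial]
  · simpa only [key _ _ MeasurableSet.univ, Finset.coe_empty, Set.empty_pi] using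
      box ∅ (fun _ => Set.univ) fun _ => MeasurableSet.univ

lemma int_prod {ι : Type*} (A : Finset ι) {g : ι → II → ℝ} (hg : ∀ j, BM (g j)) :
    ∫ t, ∏ j ∈ A, g j (t j) ∂iid ι = ∏ j ∈ A, ∫ s, g j s := by
  induction A using Finset.induction_on with
  | empty => simp
  | insert i A hi ih =>
    rw [iid, BM.upd i (by fun_prop)]
    simp only [Finset.prod_insert hi, update_self]
    rw [← ih, ← integral_const_mul]
    congr 1; funext t
    rw [← integral_mul_const]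
    congr 1; funext s
    rw [Finset.prod_congr rfl fun j hj => by rw [update_of_ne fun e : j = i => hi (e ▸ hj)]]

lemma mp_swap {ι : Type*} [DecidableEq ι] (i : ι) :
    MeasurePreserving (fun p : (ι → II) × II => (update p.1 i p.2, p.1 i))
      ((iid ι).prod volume) ((iid ι).prod volume) := by
  have m : Measurable fun p : (ι → II) × II => (update p.1 i p.2, p.1 i) := by fun_prop
  refine ⟨m, ext_BM fun F hF => ?_⟩
  rw [BM.mp ⟨m, rfl⟩ hF, BM.fub (by fun_prop), BM.fub hF, iid, BM.upd i (by fun_prop),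
    BM.upd i (f := fun x => ∫ y, F (x, y)) (by fun_prop)]
  congr 1; funext t
  simp only [update_idem, update_self]
  exact BM.swap (by fun_prop)

lemma Fc_qf {m : ℝ} (hm : |m| ≤ 1) (t : II) : Fc m (qf m t) = t := by
  obtain ⟨y, hy, e⟩ := exists_Fc m t
  rw [← e, qf_Fc hm hy]

lemma Fc_mem {m y : ℝ} (hm : |m| ≤ 1) (hy : |y| ≤ 1) : Fc m y ∈ Set.Icc (0 : ℝ) 1 := by
  obtain ⟨a, b⟩ := abs_le.1 hm
  obtain ⟨c, e⟩ := abs_le.1 hy
  unfold Fc
  constructor
  · nlinarith [mul_nonneg (show 0 ≤ y + 1 by linarith) (show 0 ≤ 4 + m * (y - 1) by nlinarith)]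
  · nlinarith [mul_nonneg (show 0 ≤ 1 - y by linarith) (show 0 ≤ 4 + m * (y + 1) by nlinarith)]

/-- probability integral transform -/
noncomputable def pit (m y : ℝ) : II := Set.projIcc 0 1 zero_le_one (Fc m y)

lemma qf_pit {m y : ℝ} (hm : |m| ≤ 1) (hy : |y| ≤ 1) : qf m (pit m y) = y := by
  rw [pit, Set.projIcc_of_mem _ (Fc_mem hm hy), qf_Fc hm hy]

lemma pit_qf {m : ℝ} (hm : |m| ≤ 1) (t : II) : pit m (qf m t) = t := by
  rw [pit, Fc_qf hm, Set.projIcc_val]

@[fun_prop] lemma measurable_pit {α : Type*} [MeasurableSpace α] {f g : α → ℝ} (hf : Measurable f)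
    (hg : Measurable g) : Measurable fun x => pit (f x) (g x) :=
  continuous_projIcc.measurable.comp (by unfold Fc; fun_prop)

variable {V : Type*} {G : SimpleGraph V} [G.LocallyFinite] {θ : ℝ} {d : ℕ}
  {μ : Measure (V → Bool)} {K k : ℤ} {τ : JJ V → II} {i j : JJ V} {s : II} {B : Set (JJ V)}

/-- local rule of the observations before time `(k, s)` -/
def bt (k : ℤ) (s : II) (j : JJ V) : Set II := {t | (j.2 < k ∧ t < hf) ∨ (j.2 = k ∧ t < s)}

/-- observations before time `(k, s)` -/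
def Bt (k : ℤ) (s : II) (τ : JJ V → II) : Set (JJ V) := Bm (bt k s) τ

lemma mem_Bt : j ∈ Bt k s τ ↔ (j.2 < k ∧ τ j < hf) ∨ (j.2 = k ∧ τ j < s) := Iff.rfl

lemma sc_Bt : Sc k (Bt k s τ) := fun _ hj => hj.elim (fun h => h.1.le) fun h => h.1.le

@[fun_prop] lemma measurable_Bt {α : Type*} [MeasurableSpace α] {s : α → II} {τ : α → JJ V → II}
    {O : α → OO V} (hs : Measurable s) (hτ : Measurable τ) (hO : Measurable O) (k : ℤ) :
    Measurable fun x => zB (Bt k (s x) (τ x)) (O x) :=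
  measurable_zB' (fun j => by simp only [mem_Bt]; fun_prop) hO

@[fun_prop] lemma measurable_msk_Bt {α : Type*} [MeasurableSpace α] {s : α → II}
    {τ : α → JJ V → II} {z : α → JJ V → ℝ} (hs : Measurable s) (hτ : Measurable τ)
    (hz : Measurable z) (k : ℤ) : Measurable fun x => msk (Bt k (s x) (τ x)) (z x) :=
  measurable_pi_lambda _ fun j => Measurable.ite
    (measurableSet_setOfPred.2 (by simp only [mem_Bt]; fun_prop)) (by fun_prop) measurable_const

variable (G θ) in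
/-- innovation computed from the data -/
noncomputable def uz (τ : JJ V → II) (z : JJ V → ℝ) (j : JJ V) : II :=
  pit (aa j.2 * ms G θ (msk (Bt j.2 (τ j) τ) z) j.1) (z j / aa j.2)

variable (G θ) in
/-- innovations -/
noncomputable def uu (τ : JJ V → II) (O : OO V) (j : JJ V) : II :=
  if τ j < hf then pit (aa j.2 * ms G θ (zB (Bt j.2 (τ j) τ) O) j.1) (yy O j) else O.2 j

lemma uu_eq (h : τ j < hf) (hj : j ∈ B) (hB : Bt j.2 (τ j) τ ⊆ B) (O : OO V) :
    uu G θ τ O j = uz G θ τ (zB B O) j := by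
  rw [uu, if_pos h, uz, mk_zB hB, zB, if_pos hj, mul_div_cancel_left₀ _ (aa_pos _).ne']

@[fun_prop] lemma measurable_uz [Fact (|θ| < 1)] {α : Type*} [MeasurableSpace α]
    {τ : α → JJ V → II} {z : α → JJ V → ℝ} (hτ : Measurable τ) (hz : Measurable z) :
    Measurable fun x => uz G θ (τ x) (z x) :=
  measurable_pi_lambda _ fun j => by unfold uz; fun_prop

@[fun_prop] lemma measurable_uu [Fact (|θ| < 1)] {α : Type*} [MeasurableSpace α]
    {τ : α → JJ V → II} {O : α → OO V} (hτ : Measurable τ) (hO : Measurable O) :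
    Measurable fun x => uu G θ (τ x) (O x) :=
  measurable_pi_lambda _ fun j => Measurable.ite (measurableSet_lt (by fun_prop) measurable_const)
    (by fun_prop) (by fun_prop)

lemma Bt_sub (hj : j ∈ Bt k s τ) : Bt j.2 (τ j) τ ⊆ Bt k s τ := by
  rintro i (h | h) <;> rcases hj with h' | h'
  · exact Or.inl ⟨h.1.trans h'.1, h.2⟩
  · exact Or.inl ⟨h'.1 ▸ h.1, h.2⟩
  · exact Or.inl ⟨h.1 ▸ h'.1, h.2.trans h'.2⟩
  · exact Or.inr ⟨h.1.trans h'.1, h.2.trans h'.2⟩

lemma Bt_ring (hs : s ≤ hf) (hj : j ∈ Bt k s τ) : τ j < hf :=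
  hj.elim (fun h => h.2) fun h => h.2.trans_le hs

lemma sub_Bt (hs : s ≤ hf) (hj : j ∉ Bt k s τ) (h : τ j < hf) : Bt k s τ ⊆ Bt j.2 (τ j) τ := by
  simp only [mem_Bt, h, and_true, not_or, not_lt, not_and] at hj
  intro i hi
  have := Bt_ring hs hi
  rcases hj.1.eq_or_lt with e | e <;> rcases hi with h' | h'
  · exact Or.inl ⟨e ▸ h'.1, this⟩
  · exact Or.inr ⟨h'.1.trans e, h'.2.trans_le (hj.2 e.symm)⟩
  · exact Or.inl ⟨h'.1.trans e, this⟩
  · exact Or.inl ⟨h'.1 ▸ e, this⟩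

lemma not_mem_Bt : j ∉ Bt j.2 (τ j) τ := by simp [mem_Bt]

lemma abs_am [Fact (|θ| < 1)] (k : ℤ) (z : JJ V → ℝ) (w : V) : |aa k * ms G θ z w| ≤ 1 := by
  rw [abs_mul]
  exact mul_le_one₀ (abs_aa k) (abs_nonneg _) (abs_XX_le_one Fact.out _ _ _)

namespace Cr

variable (C : Cr G θ d) (hμ : IsFreeIsing G θ μ)
include C hμ

lemma one_step (hB : Sc K B) (hj : j ∉ B) {φ : (JJ V → ℝ) → ℝ} (hφ : BM φ) {g : II → ℝ}
    (hg : BM g) : ∫ O, φ (zB B O) * g (pit (aa j.2 * ms G θ (zB B O) j.1) (yy O j)) ∂PO μ =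
      (∫ O, φ (zB B O) ∂PO μ) * ∫ t, g t := by
  have := hμ.1
  have : Fact (|θ| < 1) := ⟨C.abs_lt⟩
  rw [resample j (F := fun O y => φ (zB B O) * g (pit (aa j.2 * ms G θ (zB B O) j.1) y))
    (by fun_prop) fun O t y => by rw [zB_update hj]]
  have e : ∀ t : II, ∫ O, φ (zB B O) * g (pit (aa j.2 * ms G θ (zB B O) j.1) (qf 0 t)) *
      (1 + aa j.2 * spin (O.1 j.1) * qf 0 t / 2) ∂PO μ = ∫ O, φ (zB B O) * (g (pit (aa j.2 *
      ms G θ (zB B O) j.1) (qf 0 t)) * (1 + aa j.2 * ms G θ (zB B O) j.1 * qf 0 t / 2)) ∂PO μ := by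
    intro t
    have := C.post hμ hB (f := fun z => φ z * g (pit (aa j.2 * ms G θ z j.1) (qf 0 t)) *
      (aa j.2 * qf 0 t / 2)) (BM.meas (by fun_prop)) (by fun_prop) j.1
    simp only [mul_add, mul_one]
    rw [BM.iadd (by fun_prop) (by fun_prop), BM.iadd (by fun_prop) (by fun_prop)]
    congr 1
    refine Eq.trans ?_ (this.trans ?_) <;> (congr 1; funext O; ring)
  simp only [e]
  rw [← BM.swap (by fun_prop), ← integral_mul_const]
  congr 1; funext O
  rw [integral_const_mul, ← dens (abs_am _ _ _) (g := fun y => g (pit _ y)) (by fun_prop)]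
  simp only [pit_qf (abs_am _ _ _)]

omit hμ in
lemma peel_idle [IsProbabilityMeasure μ] {A : Finset (JJ V)} (hj : j ∈ A) (hB : j ∉ B)
    (h : ¬ τ j < hf) {f : (JJ V → ℝ) → ℝ} (hf' : BM f) {g : JJ V → II → ℝ} (hg : ∀ j, BM (g j)) :
    ∫ O, f (zB B O) * ∏ j ∈ A, g j (uu G θ τ O j) ∂PO μ =
      (∫ O, f (zB B O) * ∏ j ∈ A.erase j, g j (uu G θ τ O j) ∂PO μ) * ∫ t, g j t := by
  have : Fact (|θ| < 1) := ⟨C.abs_lt⟩
  rw [BM.fub (by fun_prop), BM.fub (by fun_prop), ← integral_mul_const]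
  congr 1; funext σ
  rw [iid, BM.upd j (by fun_prop), ← integral_mul_const]
  congr 1; funext ξ
  rw [← integral_const_mul]
  congr 1; funext t
  rw [← Finset.prod_erase_mul _ _ hj, zB_update hB (σ, ξ), mul_assoc, uu, if_neg h]
  simp only [update_self]
  congr 2
  refine Finset.prod_congr rfl fun i hi => ?_
  have hne := Finset.ne_of_mem_erase hi
  unfold uu
  split_ifs with h'
  · rw [zB_update (fun e => h (Bt_ring h'.le e)) (σ, ξ)]
    simp only [yy, update_of_ne hne]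
  · simp only [update_of_ne hne]

lemma peel_last {A : Finset (JJ V)} (hj : j ∈ A) (hB : B ⊆ Bt j.2 (τ j) τ) (h : τ j < hf)
    (hlt : ∀ i ∈ A.erase j, i ∈ Bt j.2 (τ j) τ) {f : (JJ V → ℝ) → ℝ} (hf' : BM f)
    {g : JJ V → II → ℝ} (hg : ∀ j, BM (g j)) :
    ∫ O, f (zB B O) * ∏ j ∈ A, g j (uu G θ τ O j) ∂PO μ =
      (∫ O, f (zB B O) * ∏ j ∈ A.erase j, g j (uu G θ τ O j) ∂PO μ) * ∫ t, g j t := by
  have : Fact (|θ| < 1) := ⟨C.abs_lt⟩
  have := C.one_step hμ sc_Bt (not_mem_Bt (j := j) (τ := τ))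
    (φ := fun z => f (msk B z) * ∏ i ∈ A.erase j, g i (uz G θ τ z i)) (by fun_prop) (hg j)
  have e : ∀ O, ∀ i ∈ A.erase j, g i (uz G θ τ (zB (Bt j.2 (τ j) τ) O) i) = g i (uu G θ τ O i) :=
    fun O i hi => congrArg (g i) (uu_eq (Bt_ring h.le (hlt i hi)) (hlt i hi) (Bt_sub (hlt i hi)) O).symm
  simp only [mk_zB hB, fun O => Finset.prod_congr rfl (e O)] at this
  rw [← this]
  congr 1; funext O
  rw [← Finset.prod_erase_mul _ _ hj, ← mul_assoc, uu, if_pos h]

lemma prod_uu (hτ : Injective τ) (hs : s ≤ hf) (A : Finset (JJ V)) (hA : ∀ j ∈ A, j ∉ Bt k s τ)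
    {f : (JJ V → ℝ) → ℝ} (hf' : BM f) {g : JJ V → II → ℝ} (hg : ∀ j, BM (g j)) :
    ∫ O, f (zB (Bt k s τ) O) * ∏ j ∈ A, g j (uu G θ τ O j) ∂PO μ =
      (∫ O, f (zB (Bt k s τ) O) ∂PO μ) * ∏ j ∈ A, ∫ t, g j t := by
  have := hμ.1
  induction A using Finset.strongInduction with
  | H A ih =>
  rcases A.eq_empty_or_nonempty with rfl | hne
  · simp
  suffices ∃ j ∈ A, ∫ O, f (zB (Bt k s τ) O) * ∏ j ∈ A, g j (uu G θ τ O j) ∂PO μ =
      (∫ O, f (zB (Bt k s τ) O) * ∏ j ∈ A.erase j, g j (uu G θ τ O j) ∂PO μ) * ∫ t, g j t by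
    obtain ⟨j, hj, e⟩ := this
    rw [e, ih _ (Finset.erase_ssubset hj) fun i hi => hA i (Finset.mem_of_mem_erase hi), mul_assoc,
      Finset.prod_erase_mul _ _ hj]
  by_cases hn : ∃ j ∈ A, ¬ τ j < hf
  · obtain ⟨j, hj, h⟩ := hn
    exact ⟨j, hj, C.peel_idle hj (hA j hj) h hf' hg⟩
  · push Not at hn
    obtain ⟨j, hj, hmax⟩ := A.exists_max_image (fun j => toLex (j.2, τ j)) hne
    refine ⟨j, hj, C.peel_last hμ hj (sub_Bt hs (hA j hj) (hn j hj)) (hn j hj) (fun i hi => ?_)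
      hf' hg⟩
    rcases Prod.Lex.toLex_le_toLex.1 (hmax i (Finset.mem_of_mem_erase hi)) with h | h
    · exact Or.inl ⟨h, hn i (Finset.mem_of_mem_erase hi)⟩
    · exact Or.inr ⟨h.1, lt_of_le_of_ne h.2 (hτ.ne (Finset.ne_of_mem_erase hi))⟩

lemma ml (hτ : Injective τ) (hs : s ≤ hf) {F : (JJ V → II) × (JJ V → ℝ) → ℝ} (hF : BM F) :
    ∫ O, F (uu G θ τ O, zB (Bt k s τ) O) ∂PO μ = ∫ O, ∫ t, F ((Bt k s τ).piecewise
      (uz G θ τ (zB (Bt k s τ) O)) t, zB (Bt k s τ) O) ∂iid (JJ V) ∂PO μ := by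
  have := hμ.1
  have : Fact (|θ| < 1) := ⟨C.abs_lt⟩
  have m1 : Measurable fun O => (uu G θ τ O, zB (Bt k s τ) O) := by fun_prop
  have m2 : Measurable fun p : OO V × (JJ V → II) => ((Bt k s τ).piecewise
      (uz G θ τ (zB (Bt k s τ) p.1)) p.2, zB (Bt k s τ) p.1) := by fun_prop
  have key : ∀ {F : (JJ V → II) × (JJ V → ℝ) → ℝ}, BM F →
      ∫ p, F p ∂((PO μ).prod (iid (JJ V))).map (fun p : OO V × (JJ V → II) => ((Bt k s τ).piecewise
      (uz G θ τ (zB (Bt k s τ) p.1)) p.2, zB (Bt k s τ) p.1)) = ∫ O, ∫ t, F ((Bt k s τ).piecewise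
      (uz G θ τ (zB (Bt k s τ) O)) t, zB (Bt k s τ) O) ∂iid (JJ V) ∂PO μ := fun hF => by
    rw [BM.mp ⟨m2, rfl⟩ hF, BM.fub (hF.comp m2)]
  rw [← key hF, ← BM.mp ⟨m1, rfl⟩ hF]
  congr 1
  refine ext_rect fun f A g hf' hg => ?_
  rw [key (by fun_prop), BM.mp ⟨m1, rfl⟩ (by fun_prop)]
  have := C.prod_uu hμ hτ hs (A.filter (· ∉ Bt k s τ)) (fun j hj => (Finset.mem_filter.1 hj).2)
    (f := fun z => f z * ∏ i ∈ A.filter (· ∈ Bt k s τ), g i (uz G θ τ z i)) (by fun_prop) hg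
  refine Eq.trans ?_ (this.trans ?_)
  · congr 1; funext O
    rw [← Finset.prod_filter_mul_prod_filter_not A (· ∈ Bt k s τ), mul_assoc]
    congr 2
    exact Finset.prod_congr rfl fun i hi => by
      have := (Finset.mem_filter.1 hi).2
      rw [← uu_eq (Bt_ring hs this) this (Bt_sub this)]
  · rw [← integral_mul_const, ← int_prod _ hg]
    congr 1; funext O
    rw [← integral_const_mul]
    congr 1; funext t
    rw [← Finset.prod_filter_mul_prod_filter_not A (· ∈ Bt k s τ), mul_assoc]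
    congr 2 <;> exact Finset.prod_congr rfl fun i hi => by simp [(Finset.mem_filter.1 hi).2]

lemma law_uu (hτ : Injective τ) : (PO μ).map (uu G θ τ) = iid (JJ V) := by
  have := hμ.1
  have : Fact (|θ| < 1) := ⟨C.abs_lt⟩
  have m : Measurable (uu G θ τ) := by fun_prop
  refine eq_infinitePi _ fun A t ht => ?_
  obtain ⟨k, hk⟩ := (A.image Prod.snd).bddBelow
  have := C.prod_uu hμ hτ (k := k) (s := 0) hf.2.1 A (fun j hj => by
    simpa [mem_Bt] using fun h => absurd (hk (Finset.mem_image_of_mem _ hj)) (not_le.2 h))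
    (BM.const 1) (g := fun j x => ind (x ∈ t j)) fun j => BM.ind (measurable_mem.2 (ht j))
  have ms := MeasurableSet.pi A.countable_toSet fun i _ => ht i
  rw [← ENNReal.toReal_eq_toReal_iff' (measure_ne_top _ _) (ENNReal.prod_ne_top fun _ _ =>
    measure_ne_top _ _), ENNReal.toReal_prod, ← measureReal_def, real_eq _ ms,
    BM.mp ⟨m, rfl⟩ (BM.ind (measurable_mem.2 ms))]
  simp only [← real_eq _ (ht _), one_mul, integral_const, probReal_univ, smul_eq_mul] at this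
  refine Eq.trans ?_ this
  congr 1; funext O
  simp [ind, Finset.prod_boole, Set.mem_pi]

end Cr

end Vale.Agent.P161
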