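import Vale.Agent.P161.Bm

/-! Structure of the free Ising measure. -/

namespace Vale.Agent.P161

open Vale.Agent.P151 MeasureTheory Measure Filter Topology
open scoped Classical ENNReal

variable {V : Type*} {G : SimpleGraph V} {θ : ℝ} {μ ν : Measure (V → Bool)} {T D : Finset V}
  {a b o u : V}

/-- plus spins inside a volume -/
def sg (T : Finset V) (σ : V → Bool) : Set V := {v | v ∈ T ∧ σ v = true}

lemma sg_subset (T : Finset V) (σ : V → Bool) : sg T σ ⊆ T := fun _ h => h.1

lemma spT_sg (hu : u ∈ T) (σ : V → Bool) : spT T u (sg T σ) = spin (σ u) := by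
  simp [spT, sp, sg, hu, spin]

@[fun_prop] lemma BM.ind {α : Type*} [MeasurableSpace α] {p : α → Prop} (hp : Measurable p) :
    BM fun x => ind (p x) :=
  BM.ite (measurableSet_setOfPred.2 hp) (BM.const 1) (BM.const 0)

lemma cyl_sg (hD : D ⊆ T) (η σ : V → Bool) : cyl D η (sg T σ) = ind (∀ v ∈ D, σ v = η v) :=
  ind_congr (forall₂_congr fun v hv => by
    rw [Bool.eq_iff_iff (a := σ v)]; simp [sg, hD hv])

lemma eq_sum_cyl (F : Set V → ℝ) {s : Set V} (hs : s ⊆ T) :
    F s = ∑ t ∈ T.powerset, F t * cyl T (fun v => decide (v ∈ t)) s := by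
  rw [Finset.sum_eq_single (T.filter (· ∈ s))]
  · have e : ((T.filter (· ∈ s) : Finset V) : Set V) = s := by
      ext x; simpa using fun h => hs h
    rw [e, cyl, ind_pos, mul_one]
    intro v hv; simp [hv]
  · intro t ht hne
    rw [cyl, ind_neg, mul_zero]
    refine fun h => hne ?_
    ext x
    have := h x
    simp only [decide_eq_true_eq] at this
    simp only [Finset.mem_filter]
    exact ⟨fun hx => ⟨Finset.mem_powerset.1 ht hx, (this (Finset.mem_powerset.1 ht hx)).2 hx⟩,
      fun hx => (this hx.1).1 hx.2⟩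
  · intro h; exact absurd (Finset.mem_powerset.2 (Finset.filter_subset _ _)) h

lemma measurable_cyl (D : Finset V) (η : V → Bool) :
    Measurable fun σ : V → Bool => ∀ v ∈ D, σ v = η v := by
  exact measurableSet_setOfPred.1 (MeasurableSet.pi (t := fun v => {η v}) D.countable_toSet
    fun _ _ => measurableSet_singleton _)

lemma BM.sg (T : Finset V) (F : Set V → ℝ) : BM fun σ => F (sg T σ) := by
  simp only [fun σ => eq_sum_cyl F (sg_subset T σ), cyl_sg subset_rfl]
  exact BM.sum _ fun t _ => (BM.const _).mul (BM.ind (measurable_cyl _ _))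

lemma real_cyl (ν : Measure (V → Bool)) (D : Finset V) (η : V → Bool) :
    ν.real {x | ∀ v ∈ D, x v = η v} = ∫ σ, ind (∀ v ∈ D, σ v = η v) ∂ν := by
  rw [← integral_indicator_one (measurableSet_setOfPred.2 (measurable_cyl D η))]
  congr 1

/-- the marginal on `T` is the zero field Gibbs measure -/
def GV (G : SimpleGraph V) (θ : ℝ) (μ : Measure (V → Bool)) (T : Finset V) : Prop :=
  ∀ F : Set V → ℝ, ∫ σ, F (sg T σ) ∂μ = M G θ T 0 F

variable [G.LocallyFinite]

lemma gv_ball (hG : G.IsTree) (hθ : |θ| < 1) (hμ : IsFreeIsing G θ μ) (n : ℕ) (o : V) :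
    GV G θ μ (ball G n o) := by
  intro F
  have := hμ.1
  rw [M_congr fun s hs => eq_sum_cyl F hs, M_sum]
  simp only [fun σ => eq_sum_cyl F (sg_subset (ball G n o) σ)]
  rw [BM.isum _ fun t _ => (BM.const _).mul (BM.sg _ _)]
  refine Finset.sum_congr rfl fun t _ => ?_
  have := M_lin (G := G) (θ := θ) (T := ball G n o) (h := 0) (F t) 0
    (cyl (ball G n o) fun v => decide (v ∈ t)) (fun _ => 0)
  simp only [mul_zero, add_zero, zero_mul] at this
  rw [this, integral_const_mul, M_cyl_zero hG hθ (ball_connected n o) _ _ subset_rfl]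
  simp only [cyl_sg subset_rfl]
  rw [← real_cyl, hμ.2 _ (ball_connected n o),
    Finset.prod_congr (s₂ := edgesIn G (ball G n o)) (by ext e; simp [edgesIn]) fun _ _ => rfl]

omit [G.LocallyFinite] in
lemma GV.cut (hG : G.IsTree) (hθ : |θ| < 1) (h : GV G θ μ T) (hab : G.Adj a b) :
    GV G θ μ (Te G T a b) := by
  intro F
  have h1 := h fun s => F (s ∩ Br G a b)
  have e : ∀ σ, sg T σ ∩ Br G a b = sg (Te G T a b) σ := by
    intro σ; ext x; simp only [sg, Te, Set.mem_inter_iff, Set.mem_ofPred_eq, Finset.mem_filter]; tauto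
  simp only [e] at h1
  rw [h1, M_cut hG hθ hab (F1 := F) (F2 := fun _ => 1)]
  · have := mm_zero (G := G) (θ := θ) (T.filter (· ∉ Br G a b)) b
    unfold mm at this
    simp only [one_mul, M_one hθ, this, mul_zero, add_zero, div_one, mul_one]
    rfl
  · intro s t hs ht
    rw [mul_one]
    congr 1
    ext x
    exact ⟨fun h => h.1.resolve_right fun h' => (Finset.mem_filter.1 (ht h')).2 h.2,
      fun h => ⟨Or.inl h, (Finset.mem_filter.1 (hs h)).2⟩⟩

lemma exists_ball_sup (hG : G.IsTree) (o : V) (D : Finset V) : ∃ k, D ⊆ ball G k o := by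
  induction D using Finset.induction_on with
  | empty => exact ⟨0, Finset.empty_subset _⟩
  | insert a D _ ih =>
    obtain ⟨k, hk⟩ := ih
    obtain ⟨l, hl⟩ := exists_ball_of_reachable (hG.connected o a)
    exact ⟨k + l, Finset.insert_subset (ball_mono (by omega) hl) (hk.trans (ball_mono (by omega)))⟩

lemma eq_of_cyl (hG : G.IsTree) (hμ : IsFreeIsing G θ μ) [IsProbabilityMeasure ν] (o : V)
    (h : ∀ n D η, D ⊆ ball G n o → ∫ σ, cyl D η (sg (ball G n o) σ) ∂ν =
      ∫ σ, cyl D η (sg (ball G n o) σ) ∂μ) : ν = μ := by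
  refine isFreeIsing_unique hG ⟨inferInstance, fun D hD η => ?_⟩ hμ
  obtain ⟨n, hn⟩ := exists_ball_sup hG o D
  have := h n D η hn
  simp only [cyl_sg hn, ← real_cyl] at this
  rw [this, hμ.2 D hD]

lemma mp_not (hG : G.IsTree) (hθ : |θ| < 1) (hμ : IsFreeIsing G θ μ) :
    MeasurePreserving (fun (σ : V → Bool) v => !σ v) μ μ := by
  have := hμ.1
  have m : Measurable fun (σ : V → Bool) v => !σ v := by fun_prop
  obtain ⟨o⟩ := hG.connected.nonempty
  have := isProbabilityMeasure_map (μ := μ) m.aemeasurable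
  refine ⟨m, eq_of_cyl hG hμ o fun n D η _ => ?_⟩
  have e : ∀ σ : V → Bool, sg (ball G n o) (fun v => !σ v) =
      (ball G n o : Set V) \ sg (ball G n o) σ := by
    intro σ; ext x; simp [sg]; tauto
  rw [BM.mp ⟨m, rfl⟩ (BM.sg _ _), gv_ball hG hθ hμ]
  simp only [e]
  rw [gv_ball hG hθ hμ n o fun s => cyl D η (_ \ s), ← M_neg, neg_zero]

lemma mp_aut (hG : G.IsTree) (hθ : |θ| < 1) (hμ : IsFreeIsing G θ μ) (g : G ≃g G) :
    MeasurePreserving (fun (σ : V → Bool) v => σ (g.symm v)) μ μ := by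
  have := hμ.1
  have m : Measurable fun (σ : V → Bool) v => σ (g.symm v) := by fun_prop
  obtain ⟨o⟩ := hG.connected.nonempty
  have := isProbabilityMeasure_map (μ := μ) m.aemeasurable
  refine ⟨m, eq_of_cyl hG hμ (g o) fun n D η _ => ?_⟩
  have e : ∀ σ : V → Bool, sg (ball G n (g o)) (fun v => σ (g.symm v)) =
      g '' sg (ball G n o) σ := by
    intro σ; ext x
    obtain ⟨x, rfl⟩ := g.surjective x
    simp [sg, ball_map_iff]
  rw [BM.mp ⟨m, rfl⟩ (BM.sg _ _), gv_ball hG hθ hμ]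
  simp only [e]
  rw [gv_ball hG hθ hμ n o fun s => cyl D η (g '' s), ← M_map, image_ball]
  rfl

lemma integral_spin (hG : G.IsTree) (hθ : |θ| < 1) (hμ : IsFreeIsing G θ μ) (u : V) :
    ∫ σ, spin (σ u) ∂μ = 0 := by
  have := gv_ball hG hθ hμ 0 u (spT (ball G 0 u) u)
  simp only [spT_sg (self_mem_ball 0 u)] at this
  exact this.trans (mm_zero _ _)

omit [G.LocallyFinite] in
lemma abs_spin (b : Bool) : |spin b| = 1 := by cases b <;> simp [spin]

omit [G.LocallyFinite] in
lemma wt_pos (hθ : |θ| < 1) (s t : Bool) : 0 < 1 + θ * (spin s * spin t) := by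
  have : |θ * (spin s * spin t)| < 1 := by simpa [abs_mul, abs_spin] using hθ
  linarith [(abs_lt.1 this).1]

lemma ising_cut (hG : G.IsTree) (hθ : |θ| < 1) (hμ : IsFreeIsing G θ μ) (hab : G.Adj a b)
    {F : (V → Bool) → ℝ} (hF : BM F) :
    ∫ σ, F σ ∂μ = ∫ p, (1 + θ * (spin (p.1 a) * spin (p.2 b))) *
      F ((Br G a b).piecewise p.1 p.2) ∂(μ.prod μ) := by
  have := hμ.1
  have m : Measurable fun p : (V → Bool) × (V → Bool) => (Br G a b).piecewise p.1 p.2 :=
    measurable_pi_lambda _ fun v => by unfold Set.piecewise; split_ifs <;> fun_prop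
  set ν := ((μ.prod μ).withDensity fun p =>
    ENNReal.ofReal (1 + θ * (spin (p.1 a) * spin (p.2 b)))).map
    fun p => (Br G a b).piecewise p.1 p.2 with hν
  have key : ∀ {F : (V → Bool) → ℝ}, BM F → ∫ σ, F σ ∂ν = ∫ p, (1 + θ * (spin (p.1 a) *
      spin (p.2 b))) * F ((Br G a b).piecewise p.1 p.2) ∂(μ.prod μ) := by
    intro F hF
    rw [BM.mp ⟨m, rfl⟩ hF, integral_withDensity_eq_integral_toReal_smul (by fun_prop) (by simp)]
    simp only [ENNReal.toReal_ofReal (wt_pos hθ _ _).le, smul_eq_mul]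
  have pf : ∀ {F1 F2 : (V → Bool) → ℝ}, BM F1 → BM F2 → ∫ p, (1 + θ * (spin (p.1 a) *
      spin (p.2 b))) * (F1 p.1 * F2 p.2) ∂(μ.prod μ) = (∫ σ, F1 σ ∂μ) * (∫ σ, F2 σ ∂μ) +
      θ * ((∫ σ, F1 σ * spin (σ a) ∂μ) * ∫ σ, F2 σ * spin (σ b) ∂μ) := by
    intro F1 F2 h1 h2
    rw [← integral_prod_mul, ← integral_prod_mul, ← integral_const_mul,
      ← BM.iadd (by fun_prop) (by fun_prop)]
    congr 1; funext p; ring
  have : IsProbabilityMeasure ν := by
    have h1 := key (BM.const 1)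
    have h2 := pf (BM.const 1) (BM.const 1)
    simp only [mul_one, one_mul, integral_spin hG hθ hμ, integral_const, probReal_univ,
      smul_eq_mul, mul_zero, add_zero] at h1 h2
    exact isProbabilityMeasure_iff_real.2 (h1.trans h2)
  rw [← key hF]
  congr 1
  symm
  refine eq_of_cyl hG hμ a fun n D η hD => ?_
  set T := ball G (n + 1) a
  have hT : D ⊆ T := hD.trans (ball_mono (by omega))
  have ha : a ∈ Te G T a b := Finset.mem_filter.2 ⟨self_mem_ball _ _, self_mem_Br _ _⟩
  have hb : b ∈ Te G T b a := Finset.mem_filter.2 ⟨ball_adj (self_mem_ball _ _) hab, self_mem_Br _ _⟩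
  have e2 : T.filter (· ∉ Br G a b) = Te G T b a :=
    Finset.filter_congr fun x _ => Br_compl hG hab
  simp only [cyl_sg hD, ← cyl_sg hT]
  have hc : ∀ s t : Set V, s ⊆ T.filter (· ∈ Br G a b) → t ⊆ T.filter (· ∉ Br G a b) →
      cyl D η (s ∪ t) = cyl (D.filter (· ∈ Br G a b)) η s * cyl (D.filter (· ∉ Br G a b)) η t := by
    intro s t hs ht
    rw [cyl, cyl, cyl, ← ind_and]
    refine ind_congr ⟨fun h => ⟨fun v hv => ?_, fun v hv => ?_⟩, fun h v hv => ?_⟩
    · obtain ⟨h1, h2⟩ := Finset.mem_filter.1 hv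
      have : v ∉ t := fun h' => (Finset.mem_filter.1 (ht h')).2 h2
      simpa [this] using h v h1
    · obtain ⟨h1, h2⟩ := Finset.mem_filter.1 hv
      have : v ∉ s := fun h' => h2 (Finset.mem_filter.1 (hs h')).2
      simpa [this] using h v h1
    · by_cases e : v ∈ Br G a b
      · have : v ∉ t := fun h' => (Finset.mem_filter.1 (ht h')).2 e
        simpa [this] using h.1 v (Finset.mem_filter.2 ⟨hv, e⟩)
      · have : v ∉ s := fun h' => e (Finset.mem_filter.1 (hs h')).2
        simpa [this] using h.2 v (Finset.mem_filter.2 ⟨hv, e⟩)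
  have e3 : ∀ p : (V → Bool) × (V → Bool), cyl D η (sg T ((Br G a b).piecewise p.1 p.2)) =
      cyl (D.filter (· ∈ Br G a b)) η (sg (Te G T a b) p.1) *
        cyl (D.filter (· ∉ Br G a b)) η (sg (Te G T b a) p.2) := by
    intro p
    rw [← hc (sg (Te G T a b) p.1) _ (sg_subset _ _) (by rw [e2]; exact sg_subset _ _), ← e2]
    congr 1; ext x
    by_cases e : x ∈ Br G a b <;> simp [sg, Te, e]
  have g1 := (gv_ball hG hθ hμ (n + 1) a).cut hG hθ hab
  have g2 := (gv_ball hG hθ hμ (n + 1) a).cut hG hθ hab.symm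
  rw [key (BM.sg _ _), gv_ball hG hθ hμ, M_cut hG hθ hab hc, e2]
  simp only [e3]
  rw [pf (BM.sg _ _) (BM.sg _ _)]
  simp only [← spT_sg ha, ← spT_sg hb]
  rw [g1, g2, g1 fun s => _ * spT _ a s, g2 fun s => _ * spT _ b s]
  have := mm_zero (G := G) (θ := θ) (Te G T b a) b
  unfold mm at this
  rw [this, mul_zero, mul_zero, add_zero, div_one]
  rfl

end Vale.Agent.P161
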