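import Vale.Agent.P161.Innov
import Vale.Agent.P161.Dec

/-! The relatively independent joining over times and innovations. -/

namespace Vale.Agent.P161

open Vale.Agent.P151 MeasureTheory Measure Filter Topology Function ProbabilityTheory
open scoped Classical ENNReal

@[fun_prop] lemma BM.kint {α β γ : Type*} [MeasurableSpace α] [MeasurableSpace β]
    [MeasurableSpace γ] (κ : Kernel γ β) [IsMarkovKernel κ] {g : α → γ} (hg : Measurable g)
    {f : α → β → ℝ} (hf : BM fun p : α × β => f p.1 p.2) : BM fun x => ∫ y, f x y ∂κ (g x) := by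
  obtain ⟨C, h⟩ := hf.bdd
  exact ⟨(hf.meas.stronglyMeasurable.integral_kernel_prod_right (κ := κ.comap g hg)).measurable, C,
    fun x => by simpa using (norm_integral_le_of_norm_le_const (μ := κ (g x)) (f := f x) (C := C)
      (ae_of_all _ fun y => h (x, y)))⟩

lemma gl {α Ω Y : Type*} [MeasurableSpace α] [MeasurableSpace Ω] [MeasurableSpace Y]
    [StandardBorelSpace Y] (Q : Measure α) [IsProbabilityMeasure Q] (κ : Kernel α Ω)
    [IsMarkovKernel κ] {S T : α → α} (hS : Measurable S) (hT : Measurable T) (e : ∀ a, T (S a) = a)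
    {M1 M2 : α × Ω → Y} (h1 : Measurable M1) (h2 : Measurable M2)
    (h : ∀ F : α × Y → ℝ, BM F →
      ∫ a, ∫ O, F (S a, M2 (a, O)) ∂κ a ∂Q = ∫ a, ∫ O, F (a, M1 (a, O)) ∂κ a ∂Q)
    {F : α × Y × Y → ℝ} (hF : BM F) :
    ∫ a, ∫ O, ∫ O', F (S a, M2 (a, O), M2 (a, O')) ∂κ a ∂κ a ∂Q =
      ∫ a, ∫ O, ∫ O', F (a, M1 (a, O), M1 (a, O')) ∂κ a ∂κ a ∂Q := by
  have key : ∀ {M : α × Ω → Y}, Measurable M → ∃ η : Kernel α Y, IsMarkovKernel η ∧
      ∀ a (f : Y → ℝ), BM f → ∫ y, f y ∂η a = ∫ O, f (M (a, O)) ∂κ a := fun {M} hM =>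
    ⟨(Kernel.id ×ₖ κ).map M, Kernel.IsMarkovKernel.map _ hM, fun a f hf => by
      rw [Kernel.map_apply _ hM, Kernel.prod_apply, Kernel.id_apply, dirac_prod,
        map_map hM (by fun_prop), BM.mp ⟨by fun_prop, rfl⟩ hf]; rfl⟩
  obtain ⟨η1, _, k1⟩ := key h1
  obtain ⟨η2, _, k2⟩ := key h2
  have mS : MeasurePreserving S Q Q := ⟨hS, ext_BM fun f hf => by
    rw [BM.mp ⟨hS, rfl⟩ hf]
    simpa using h (fun p => f p.1) (by fun_prop)⟩
  have ae : η2.comap T hT =ᵐ[Q] η1 := Kernel.ae_eq_of_compProd_eq (ext_BM fun f hf => by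
    rw [Measure.integral_compProd hf.int, Measure.integral_compProd hf.int]
    simp only [Kernel.comap_apply]
    rw [BM.mp mS (by fun_prop)]
    simp only [e, fun a b => k2 a (fun y => f (b, y)) (by fun_prop),
      fun a => k1 a (fun y => f (a, y)) (by fun_prop)]
    exact h f hf)
  have a1 : ∀ a b, ∫ O, ∫ O', F (b, M2 (a, O), M2 (a, O')) ∂κ a ∂κ a =
      ∫ y, ∫ y', F (b, y, y') ∂η2 a ∂η2 a := fun a b => by
    rw [k2 _ _ (by fun_prop)]
    simp only [fun y => k2 a (fun y' => F (b, y, y')) (by fun_prop)]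
  have a2 : ∀ a, ∫ O, ∫ O', F (a, M1 (a, O), M1 (a, O')) ∂κ a ∂κ a =
      ∫ y, ∫ y', F (a, y, y') ∂η1 a ∂η1 a := fun a => by
    rw [k1 _ _ (by fun_prop)]
    simp only [fun y => k1 a (fun y' => F (a, y, y')) (by fun_prop)]
  simp only [a1, a2]
  refine Eq.trans ?_ (integral_congr_ae (f := fun a => ∫ y, ∫ y', F (a, y, y') ∂η2 (T a) ∂η2 (T a)) (by
    filter_upwards [ae] with a ha
    rw [← ha, Kernel.comap_apply]))
  conv_rhs => rw [BM.mp mS (by fun_prop)]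
  simp only [e]

lemma mp_equiv {ι ι' : Type*} (e : ι ≃ ι') :
    MeasurePreserving (fun (z : ι' → II) j => z (e j)) (iid ι') (iid ι) := by
  refine ⟨by fun_prop, eq_infinitePi _ fun s t ht => ?_⟩
  rw [map_apply (by fun_prop) (MeasurableSet.pi s.countable_toSet fun i _ => ht i)]
  have : (fun (z : ι' → II) j => z (e j)) ⁻¹' ((s : Set ι).pi t) =
      ((s.map e.toEmbedding : Finset ι') : Set ι').pi fun i => t (e.symm i) := by
    ext z; simp [Set.mem_pi, e.surjective.forall]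
  rw [this, iid, infinitePi_pi _ fun i _ => ht _, Finset.prod_map]
  simp

variable {V : Type*} {G : SimpleGraph V} [G.LocallyFinite] {θ : ℝ} {d : ℕ}
  {μ : Measure (V → Bool)} {K k : ℤ} {τ : JJ V → II} {i j : JJ V} {s : II} {B : Set (JJ V)}

/-- times and innovations -/
abbrev Zb (V : Type*) := (JJ V → II) × (JJ V → II)

/-- law of times and innovations -/
noncomputable abbrev QQ (V : Type*) : Measure (Zb V) := (iid (JJ V)).prod (iid (JJ V))

/-- action on labels -/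
def gz {X : Type*} (g : G ≃g G) (z : JJ V → X) : JJ V → X := fun j => z (g j.1, j.2)

/-- action on spins and noise -/
def gO (g : G ≃g G) (O : OO V) : OO V := (fun v => O.1 (g v), gz g O.2)

omit [G.LocallyFinite] in
@[fun_prop] lemma measurable_gz {X : Type*} [MeasurableSpace X] (g : G ≃g G) :
    Measurable (gz (X := X) g) := by unfold gz; fun_prop

omit [G.LocallyFinite] in
@[fun_prop] lemma measurable_gO (g : G ≃g G) : Measurable (gO g) := by unfold gO; fun_prop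

omit [G.LocallyFinite] in
lemma mp_gz (g : G ≃g G) : MeasurePreserving (gz g) (iid (JJ V)) (iid (JJ V)) :=
  mp_equiv (g.toEquiv.prodCongr (Equiv.refl ℤ))

omit [G.LocallyFinite] in
lemma hh_gz (g : G ≃g G) (O : OO V) :
    hh (zB (Bt k s (gz g τ)) (gO g O)) = fun v => hh (zB (Bt k s τ) O) (g v) := rfl

lemma uu_gz (g : G ≃g G) (O : OO V) : uu G θ (gz g τ) (gO g O) = gz g (uu G θ τ O) := by
  funext j
  simp only [uu, ms, hh_gz, XX_comp]
  rfl

omit [G.LocallyFinite] in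
lemma Bt_update {m t : II} (a : m ≤ τ i) (b : m ≤ t) (h : k < i.2 ∨ k = i.2 ∧ s ≤ m) :
    Bt k s (update τ i t) = Bt k s τ := by
  ext j
  by_cases e : j = i
  · subst e
    simp only [mem_Bt, update_self]
    rcases h with h | ⟨rfl, h⟩
    · simp [h.ne', h.le]
    · simp [(h.trans a).not_gt, (h.trans b).not_gt]
  · simp [mem_Bt, e]

lemma pw_update {m t : II} (a : m ≤ τ i) (b : m ≤ t) (z : JJ V → ℝ) (u : JJ V → II) :
    (Bt i.2 m τ).piecewise (uz G θ (update τ i t) z) u = (Bt i.2 m τ).piecewise (uz G θ τ z) u := by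
  funext j
  by_cases hj : j ∈ Bt i.2 m τ
  · have hne : j ≠ i := fun h => by
      subst h
      exact hj.elim (fun h => h.1.false) fun h => h.2.not_ge a
    rw [Set.piecewise_eq_of_mem _ _ _ hj, Set.piecewise_eq_of_mem _ _ _ hj, uz, uz,
      update_of_ne hne, Bt_update a b (hj.imp (fun h => h.1) fun h => ⟨h.1, h.2.le⟩)]
  · rw [Set.piecewise_eq_of_notMem _ _ _ hj, Set.piecewise_eq_of_notMem _ _ _ hj]

/-- a disintegration over times and innovations -/
structure Jn (G : SimpleGraph V) [G.LocallyFinite] (θ : ℝ) (d : ℕ) (μ : Measure (V → Bool))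
    (κ : Kernel (Zb V) (OO V)) : Prop extends Cr G θ d where
  free : IsFreeIsing G θ μ
  markov : IsMarkovKernel κ
  dis : QQ V ⊗ₘ κ = (PP μ).map fun ω => ((ω.1, uu G θ ω.1 ω.2), ω.2)

lemma Cr.exists_jn (C : Cr G θ d) (hμ : IsFreeIsing G θ μ) : ∃ κ, Jn G θ d μ κ := by
  have := hμ.1
  have := countable_of_tree C.tree
  have : Fact (|θ| < 1) := ⟨C.abs_lt⟩
  have m : Measurable fun ω : Om V => ((ω.1, uu G θ ω.1 ω.2), ω.2) := by fun_prop
  set ρ := (PP μ).map fun ω => ((ω.1, uu G θ ω.1 ω.2), ω.2) with hρ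
  have : IsProbabilityMeasure ρ := isProbabilityMeasure_map m.aemeasurable
  refine ⟨ρ.condKernel, C, hμ, inferInstance, Eq.trans ?_ (ρ.disintegrate ρ.condKernel)⟩
  congr 1
  refine ext_BM fun F hF => ?_
  rw [Measure.fst, BM.mp ⟨measurable_fst, rfl⟩ hF, BM.mp ⟨m, rfl⟩ (by fun_prop), BM.fub hF,
    BM.fub (by fun_prop)]
  refine integral_congr_ae ?_
  filter_upwards [ae_injective] with τ hτ
  exact BM.mp ⟨by fun_prop, C.law_uu hμ hτ⟩ (f := fun u => F (τ, u)) (by fun_prop)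

/-- the joining -/
noncomputable def JP (κ : Kernel (Zb V) (OO V)) : Measure (Zb V × OO V × OO V) := QQ V ⊗ₘ (κ ×ₖ κ)

namespace Jn

variable {κ : Kernel (Zb V) (OO V)} (J : Jn G θ d μ κ)
include J

lemma prob : IsProbabilityMeasure (JP κ) := by have := J.markov; unfold JP; infer_instance

lemma int_J {F : Zb V × OO V × OO V → ℝ} (hF : BM F) :
    ∫ ω, F ω ∂JP κ = ∫ z, ∫ O, ∫ O', F (z, O, O') ∂κ z ∂κ z ∂QQ V := by
  have := J.markov
  rw [JP, Measure.integral_compProd hF.int]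
  congr 1; funext z
  rw [Kernel.prod_apply, BM.fub (by fun_prop)]

lemma int_K {F : Zb V × OO V → ℝ} (hF : BM F) : ∫ z, ∫ O, F (z, O) ∂κ z ∂QQ V =
    ∫ τ, ∫ O, F ((τ, uu G θ τ O), O) ∂PO μ ∂iid (JJ V) := by
  have := J.markov; have := J.free.1
  have : Fact (|θ| < 1) := ⟨J.abs_lt⟩
  rw [← Measure.integral_compProd hF.int, J.dis, BM.mp ⟨by fun_prop, rfl⟩ hF, BM.fub (by fun_prop)]

lemma mp_sw : MeasurePreserving (fun ω : Zb V × OO V × OO V => (ω.1, ω.2.2, ω.2.1)) (JP κ) (JP κ) := by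
  have := J.markov; have := J.prob
  have m : Measurable fun ω : Zb V × OO V × OO V => (ω.1, ω.2.2, ω.2.1) := by fun_prop
  refine ⟨m, ext_BM fun F hF => ?_⟩
  rw [BM.mp ⟨m, rfl⟩ hF, J.int_J hF, J.int_J (by fun_prop)]
  congr 1; funext z
  exact BM.swap (by fun_prop)

lemma mp1 : MeasurePreserving (fun ω : Zb V × OO V × OO V => (ω.1, ω.2.1)) (JP κ) (QQ V ⊗ₘ κ) := by
  have := J.markov; have := J.prob
  have m : Measurable fun ω : Zb V × OO V × OO V => (ω.1, ω.2.1) := by fun_prop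
  refine ⟨m, ext_BM fun F hF => ?_⟩
  rw [BM.mp ⟨m, rfl⟩ hF, J.int_J (by fun_prop), Measure.integral_compProd hF.int]
  simp

lemma mp2 : MeasurePreserving (fun ω : Zb V × OO V × OO V => (ω.1.1, ω.2.1)) (JP κ) (PP μ) := by
  have : Fact (|θ| < 1) := ⟨J.abs_lt⟩
  refine MeasurePreserving.comp (g := fun p : Zb V × OO V => (p.1.1, p.2)) ⟨by fun_prop, ?_⟩ J.mp1
  rw [J.dis, map_map (by fun_prop) (by fun_prop)]
  exact map_id

lemma ae_uu : ∀ᵐ ω ∂JP κ, ω.1.2 = uu G θ ω.1.1 ω.2.1 := by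
  have : Fact (|θ| < 1) := ⟨J.abs_lt⟩
  have := countable_of_tree J.tree
  have m : MeasurableSet {p : Zb V × OO V | p.1.2 = uu G θ p.1.1 p.2} :=
    measurableSet_eq_fun (by fun_prop) (by fun_prop)
  refine J.mp1.quasiMeasurePreserving.ae (p := fun p => p.1.2 = uu G θ p.1.1 p.2) ?_
  rw [J.dis, ae_map_iff (by fun_prop) m]
  exact ae_of_all _ fun _ => rfl

lemma mp_K (g : G ≃g G) : MeasurePreserving
    (fun p : Zb V × OO V => ((gz g p.1.1, gz g p.1.2), gO g p.2)) (QQ V ⊗ₘ κ) (QQ V ⊗ₘ κ) := by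
  have : Fact (|θ| < 1) := ⟨J.abs_lt⟩
  have := J.free.1
  have e : MeasurePreserving _ (PP μ) (PP μ) :=
    ((mp_gz g).prod ((mp_aut J.tree J.abs_lt J.free g.symm).prod (mp_gz g)))
  refine ⟨by fun_prop, ?_⟩
  rw [J.dis]
  conv_rhs => rw [← e.map_eq]
  rw [map_map (by fun_prop) (by fun_prop), map_map (by fun_prop) e.measurable]
  congr 1; funext ω
  simp only [Function.comp, ← uu_gz]
  rfl

lemma mp_aut (g : G ≃g G) : MeasurePreserving (fun ω : Zb V × OO V × OO V =>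
    ((gz g ω.1.1, gz g ω.1.2), gO g ω.2.1, gO g ω.2.2)) (JP κ) (JP κ) := by
  have := J.markov; have := J.prob
  have := countable_of_tree J.tree
  have m : Measurable fun ω : Zb V × OO V × OO V =>
      ((gz g ω.1.1, gz g ω.1.2), gO g ω.2.1, gO g ω.2.2) := by fun_prop
  refine ⟨m, ext_BM fun F hF => ?_⟩
  rw [BM.mp ⟨m, rfl⟩ hF, J.int_J hF, J.int_J (by fun_prop)]
  refine gl (QQ V) κ (S := fun z => (gz g z.1, gz g z.2)) (T := fun z => (gz g.symm z.1, gz g.symm z.2))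
    (by fun_prop) (by fun_prop) (fun z => by ext <;> simp [gz]) (M1 := Prod.snd)
    (M2 := fun p => gO g p.2) (by fun_prop) (by fun_prop) (fun f hf => ?_) hF
  have := BM.mp (J.mp_K g) hf
  rw [Measure.integral_compProd hf.int, Measure.integral_compProd (BM.int (by fun_prop))] at this
  exact this.symm

lemma gl_ext {S : Zb V × II → Zb V × II} (hS : Measurable S) (e : ∀ a, S (S a) = a)
    {M : (Zb V × II) × OO V → JJ V → ℝ} (hM : Measurable M)
    (h : ∀ F : (Zb V × II) × (JJ V → ℝ) → ℝ, BM F →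
      ∫ τ, ∫ t, ∫ O, F (S ((τ, uu G θ τ O), t), M (((τ, uu G θ τ O), t), O)) ∂PO μ ∂volume ∂iid (JJ V)
      = ∫ τ, ∫ t, ∫ O, F (((τ, uu G θ τ O), t), M (((τ, uu G θ τ O), t), O)) ∂PO μ ∂volume ∂iid (JJ V))
    {F : (Zb V × II) × (JJ V → ℝ) × (JJ V → ℝ) → ℝ} (hF : BM F) :
    ∫ ω, ∫ t, F (S (ω.1, t), M ((ω.1, t), ω.2.1), M ((ω.1, t), ω.2.2)) ∂volume ∂JP κ =
      ∫ ω, ∫ t, F ((ω.1, t), M ((ω.1, t), ω.2.1), M ((ω.1, t), ω.2.2)) ∂volume ∂JP κ := by
  have := J.markov; have := J.prob; have := J.free.1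
  have := countable_of_tree J.tree
  have : Fact (|θ| < 1) := ⟨J.abs_lt⟩
  have k1 : ∀ {F : (Zb V × II) × OO V → ℝ}, BM F → ∫ a, ∫ O, F (a, O) ∂κ a.1 ∂(QQ V).prod volume =
      ∫ τ, ∫ t, ∫ O, F (((τ, uu G θ τ O), t), O) ∂PO μ ∂volume ∂iid (JJ V) := fun {F} hF => by
    rw [BM.fub (by fun_prop)]
    have : ∀ z, ∫ t, ∫ O, F ((z, t), O) ∂κ z = ∫ O, ∫ t, F ((z, t), O) ∂volume ∂κ z :=
      fun z => BM.swap (by fun_prop)
    simp only [this]
    rw [J.int_K (F := fun p => ∫ t, F ((p.1, t), p.2)) (by fun_prop)]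
    congr 1; funext τ
    exact BM.swap (by fun_prop)
  have k2 : ∀ {F : (Zb V × II) × OO V × OO V → ℝ}, BM F → ∫ ω, ∫ t, F ((ω.1, t), ω.2) ∂volume ∂JP κ =
      ∫ a, ∫ O, ∫ O', F (a, O, O') ∂κ a.1 ∂κ a.1 ∂(QQ V).prod volume := fun {F} hF => by
    rw [BM.swap (by fun_prop), BM.fub (by fun_prop), BM.swap (μ := QQ V) (by fun_prop)]
    congr 1; funext t
    exact J.int_J (by fun_prop)
  rw [k2 (F := fun q => F (S q.1, M (q.1, q.2.1), M (q.1, q.2.2))) (by fun_prop),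
    k2 (F := fun q => F (q.1, M (q.1, q.2.1), M (q.1, q.2.2))) (by fun_prop)]
  refine gl ((QQ V).prod volume) (κ.comap Prod.fst measurable_fst) hS hS e hM hM (fun f hf => ?_) hF
  simp only [Kernel.comap_apply]
  rw [k1 (F := fun q => f (S q.1, M q)) (by fun_prop), k1 (F := fun q => f (q.1, M q)) (by fun_prop)]
  exact h f hf

lemma indep (i : JJ V) {Φ : II × (JJ V → II) × (JJ V → ℝ) × (JJ V → ℝ) → ℝ} (hΦ : BM Φ) :
    ∫ ω, Φ (ω.1.2 i, ω.1.1, zB (Bt i.2 (min (ω.1.1 i) hf) ω.1.1) ω.2.1,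
      zB (Bt i.2 (min (ω.1.1 i) hf) ω.1.1) ω.2.2) ∂JP κ =
    ∫ ω, ∫ t, Φ (t, ω.1.1, zB (Bt i.2 (min (ω.1.1 i) hf) ω.1.1) ω.2.1,
      zB (Bt i.2 (min (ω.1.1 i) hf) ω.1.1) ω.2.2) ∂volume ∂JP κ := by
  have := J.free.1
  have := countable_of_tree J.tree
  have : Fact (|θ| < 1) := ⟨J.abs_lt⟩
  have := J.gl_ext (S := fun a => ((a.1.1, update a.1.2 i a.2), a.1.2 i)) (by fun_prop)
    (fun a => by simp) (M := fun q => zB (Bt i.2 (min (q.1.1.1 i) hf) q.1.1.1) q.2) (by fun_prop)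
    (fun F hF => ?_) (F := fun q => Φ (q.1.2, q.1.1.1, q.2.1, q.2.2)) (by fun_prop)
  · simpa using this
  refine integral_congr_ae ?_
  filter_upwards [ae_injective] with τ hτ
  set B := Bt i.2 (min (τ i) hf) τ
  have hi : i ∉ B := by simp [B, mem_Bt]
  have a1 := fun t => J.ml J.free hτ (k := i.2) (min_le_right (τ i) hf)
    (F := fun p => F (((τ, update p.1 i t), p.1 i), p.2)) (by fun_prop)
  have a2 := fun t => J.ml J.free hτ (k := i.2) (min_le_right (τ i) hf)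
    (F := fun p => F (((τ, p.1), t), p.2)) (by fun_prop)
  simp only at a1 a2 ⊢
  simp only [B, a1, a2]
  rw [BM.swap (by fun_prop), BM.swap (μ := (volume : Measure II)) (by fun_prop)]
  congr 1; funext O
  rw [BM.swap (by fun_prop), BM.swap (μ := (volume : Measure II)) (by fun_prop)]
  have := BM.mp (mp_swap i) (f := fun p : (JJ V → II) × II =>
    F (((τ, B.piecewise (uz G θ τ (zB B O)) p.1), p.2), zB B O)) (by fun_prop)
  rw [BM.fub (by fun_prop), BM.fub (by fun_prop)] at this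
  rw [this]
  congr 1; funext t; congr 1; funext t0
  rw [Set.piecewise_eq_of_notMem _ _ _ hi]
  congr 4
  funext j
  by_cases e : j = i
  · subst e; simp [hi]
  · simp only [update_of_ne e, Set.piecewise, B]

lemma ml_upd (i : JJ V) (t : II) (h1 : Injective τ) (h2 : Injective (update τ i t))
    {F : (JJ V → II) × (JJ V → ℝ) → ℝ} (hF : BM F) :
    ∫ O, F (uu G θ τ O, zB (Bt i.2 (min (min (τ i) t) hf) τ) O) ∂PO μ = ∫ O, F (uu G θ
      (update τ i t) O, zB (Bt i.2 (min (min (τ i) t) hf) (update τ i t)) O) ∂PO μ := by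
  have a : min (min (τ i) t) hf ≤ τ i := (min_le_left _ _).trans (min_le_left _ _)
  have b : min (min (τ i) t) hf ≤ t := (min_le_left _ _).trans (min_le_right _ _)
  rw [J.ml J.free h1 (min_le_right _ _) hF, J.ml J.free h2 (min_le_right _ _) hF,
    Bt_update a b (Or.inr ⟨rfl, le_rfl⟩)]
  simp only [pw_update a b]

lemma swap_time (i : JJ V) {F : (Zb V × II) × (JJ V → ℝ) × (JJ V → ℝ) → ℝ} (hF : BM F) :
    ∫ ω, ∫ t, F (((update ω.1.1 i t, ω.1.2), ω.1.1 i), zB (Bt i.2 (min (min (ω.1.1 i) t) hf) ω.1.1)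
      ω.2.1, zB (Bt i.2 (min (min (ω.1.1 i) t) hf) ω.1.1) ω.2.2) ∂volume ∂JP κ =
    ∫ ω, ∫ t, F ((ω.1, t), zB (Bt i.2 (min (min (ω.1.1 i) t) hf) ω.1.1) ω.2.1,
      zB (Bt i.2 (min (min (ω.1.1 i) t) hf) ω.1.1) ω.2.2) ∂volume ∂JP κ := by
  have := J.free.1
  have := countable_of_tree J.tree
  have : Fact (|θ| < 1) := ⟨J.abs_lt⟩
  refine J.gl_ext (S := fun a => ((update a.1.1 i a.2, a.1.2), a.1.1 i)) (by fun_prop)
    (fun a => by simp) (M := fun q => zB (Bt i.2 (min (min (q.1.1.1 i) q.1.2) hf) q.1.1.1) q.2)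
    (by fun_prop) (fun F hF => ?_) hF
  have := BM.mp (mp_swap i) (f := fun p : (JJ V → II) × II => ∫ O, F (((p.1, uu G θ p.1 O), p.2),
    zB (Bt i.2 (min (min (p.1 i) p.2) hf) p.1) O) ∂PO μ) (by fun_prop)
  rw [BM.fub (by fun_prop)] at this
  rw [this, ← BM.fub (f := fun p : (JJ V → II) × II => ∫ O, F (((update p.1 i p.2, uu G θ p.1 O),
    p.1 i), zB (Bt i.2 (min (min (p.1 i) p.2) hf) p.1) O) ∂PO μ) (by fun_prop)]
  refine integral_congr_ae ?_
  have b1 := (measurePreserving_fst (μ := iid (JJ V)) (ν := (volume : Measure II))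
    ).quasiMeasurePreserving.ae ae_injective
  filter_upwards [b1, (mp_swap i).quasiMeasurePreserving.ae b1] with ⟨τ, t⟩ h1 h2
  simp only [update_self, min_comm t]
  exact J.ml_upd i t h1 h2 (F := fun p => F (((update τ i t, p.1), τ i), p.2)) (by fun_prop)

lemma hazard (i : JJ V) {s1 s2 : II} (hs : s2 ≤ hf) {F : (JJ V → ℝ) × (JJ V → ℝ) → ℝ} (hF : BM F)
    (F0 : ∀ p, 0 ≤ F p) :
    ∫ ω, ind (s1 ≤ ω.1.1 i ∧ ω.1.1 i < s2) * F (zB (Bt i.2 (ω.1.1 i) ω.1.1) ω.2.1,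
      zB (Bt i.2 (ω.1.1 i) ω.1.1) ω.2.2) ∂JP κ ≤ 2 * ∫ t, ind (s1 ≤ t ∧ t < s2) *
      ∫ ω, F (zB (Bt i.2 t ω.1.1) ω.2.1, zB (Bt i.2 t ω.1.1) ω.2.2) ∂JP κ := by
  have := J.prob
  have := J.swap_time i (F := fun q => ind (s1 ≤ q.1.1.1 i ∧ q.1.1.1 i < s2) *
      (ind (q.1.1.1 i < q.1.2) * F q.2)) (by fun_prop)
  simp only [update_self] at this
  simp only [← integral_const_mul (ind _)]
  rw [← BM.swap (by fun_prop), ← mul_le_mul_iff_right₀ (show (0 : ℝ) < 1 / 2 by norm_num),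
    ← integral_const_mul, ← mul_assoc, show (1 / 2 * 2 : ℝ) = 1 by norm_num, one_mul]
  refine (BM.imono (by fun_prop) (by fun_prop) fun ω => ?_).trans (this.symm.trans_le
    (BM.imono (by fun_prop) (by fun_prop) fun ω => BM.imono (by fun_prop) (by fun_prop)
      fun t => ?_))
  · by_cases e : s1 ≤ ω.1.1 i ∧ ω.1.1 i < s2
    · have : ∀ t, ind (ω.1.1 i < t) * F (zB (Bt i.2 (min (min (ω.1.1 i) t) hf) ω.1.1) ω.2.1,
          zB (Bt i.2 (min (min (ω.1.1 i) t) hf) ω.1.1) ω.2.2) = ind (t ∈ Set.Ioi (ω.1.1 i)) *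
          F (zB (Bt i.2 (ω.1.1 i) ω.1.1) ω.2.1, zB (Bt i.2 (ω.1.1 i) ω.1.1) ω.2.2) := fun t => by
        by_cases e' : ω.1.1 i < t
        · rw [min_eq_left e'.le, min_eq_left (e.2.le.trans hs)]; rfl
        · rw [ind_neg e', ind_neg (P := t ∈ _) e', zero_mul, zero_mul]
      simp only [ind_pos e, one_mul, this]
      rw [integral_mul_const, ← real_eq _ measurableSet_Ioi, measureReal_def,
        unitInterval.volume_Ioi, ENNReal.toReal_ofReal (sub_nonneg.2 (ω.1.1 i).2.2)]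
      have : (ω.1.1 i : ℝ) ≤ 1 / 2 := e.2.le.trans hs
      exact mul_le_mul_of_nonneg_right (by linarith) (F0 _)
    · simp [ind_neg e]
  · by_cases e : (s1 ≤ t ∧ t < s2) ∧ t < ω.1.1 i
    · rw [ind_pos e.2, one_mul, min_eq_right e.2.le, min_eq_left (e.1.2.le.trans hs)]
    · rw [← mul_assoc, ← ind_and, ind_neg e, zero_mul]
      exact mul_nonneg (ind_nonneg _) (F0 _)

end Jn

end Vale.Agent.P161
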