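import Vale.Agent.P161.Law

/-! Exponential moments of the susceptibility. -/

namespace Vale.Agent.P161

open Vale.Agent.P151 MeasureTheory Measure Filter Topology Function
open scoped Classical ENNReal

variable {V : Type*} {G : SimpleGraph V} [G.LocallyFinite] {θ : ℝ} {d : ℕ} {a b c u v w : V}
  {r N : ℕ}

variable (G θ) in
/-- truncated susceptibility -/
noncomputable def Lam (x : V → V → ℝ) : ℕ → V → V → ℝ
  | 0, _, _ => 1
  | N + 1, u, v => 1 + ∑ c ∈ ch G u v, θ * gg θ (x c u) * Lam x N c u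

/-- spectral gap -/
noncomputable def eta (θ p : ℝ) : ℝ := (1 - θ) * θ ^ 2 * √p / 8

lemma Lam_eq (hG : G.IsTree) (x : V → V → ℝ) (N : ℕ) (u v : V) :
    Lam G θ x N u v = ∑ r ∈ Finset.range (N + 1), θ ^ r * ∑ w ∈ desc G r u v, ap G θ x r u w := by
  induction N generalizing u v with
  | zero => simp [Lam, desc, ap]
  | succ N ih =>
    rw [Finset.sum_range_succ', Lam, add_comm]
    congr 1
    · simp only [ih, sum_desc_succ hG, Finset.mul_sum]
      rw [Finset.sum_comm]
      refine Finset.sum_congr rfl fun r _ => Finset.sum_congr rfl fun c hc =>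
        Finset.sum_congr rfl fun w hw => ?_
      rw [ap_succ hG (mem_ch.1 hc).1 (desc_subset_Br hG hw)]; ring
    · simp [desc, ap]

lemma Cr.one_le_Lam (C : Cr G θ d) {x : V → V → ℝ} (hx : ∀ u v, |x u v| < 1) (N : ℕ) (u v : V) :
    1 ≤ Lam G θ x N u v := by
  induction N generalizing u v with
  | zero => exact le_rfl
  | succ N ih =>
    exact le_add_of_nonneg_right (Finset.sum_nonneg fun c _ => mul_nonneg (mul_nonneg C.pos.le
      (gg_nonneg C.pos.le C.lt_one.le (hx _ _))) (zero_le_one.trans (ih _ _)))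

@[fun_prop] lemma BM.Lam [Fact (|θ| < 1)] {α : Type*} [MeasurableSpace α] {f : α → V → ℝ}
    (hf : Measurable f) (N : ℕ) (u v : V) : BM fun x => Lam G θ (P161.XX G θ (f x)) N u v := by
  induction N generalizing u v with
  | zero => exact BM.const 1
  | succ N ih => exact (BM.const 1).add (BM.sum _ fun c _ => BM.mul (by fun_prop) (ih _ _))

lemma dep_Lam (hG : G.IsTree) {R : Set V} (hR : Br G u v ⊆ R) ⦃x y : V → ℝ⦄
    (e : ∀ i ∈ R, x i = y i) : Lam G θ (XX G θ x) N u v = Lam G θ (XX G θ y) N u v := by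
  induction N generalizing u v with
  | zero => rw [Lam, Lam]
  | succ N ih =>
    rw [Lam, Lam]
    congr 1
    refine Finset.sum_congr rfl fun c hc => ?_
    have := (Br_child_subset hG (mem_ch.1 hc).1 (mem_ch.1 hc).2).trans hR
    rw [ih this, dep_XX this e]

lemma Lam_neg (hθ : |θ| < 1) (x : V → ℝ) :
    Lam G θ (XX G θ (-x)) N u v = Lam G θ (XX G θ x) N u v := by
  induction N generalizing u v with
  | zero => rw [Lam, Lam]
  | succ N ih => simp only [Lam, ih, XX_neg hθ, gg_neg]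

lemma exp_le_aux {y t s : ℝ} (hy : 0 ≤ y) (hs : s ≤ 1 / 2) (hs0 : 0 ≤ s) (h : y ≤ s * t) :
    Real.exp y ≤ 1 + y + s / 2 * (Real.exp t - 1) := by
  have h1 := convexOn_exp.2 (Set.mem_univ t) (Set.mem_univ 0) (show 0 ≤ 2 * s by linarith)
    (show 0 ≤ 1 - 2 * s by linarith) (by ring)
  simp only [smul_eq_mul, mul_zero, add_zero, Real.exp_zero, mul_one] at h1
  have h2 : Real.exp y ^ 2 ≤ Real.exp (2 * s * t) := by
    rw [← Real.exp_nat_mul]; exact Real.exp_le_exp.2 (by push_cast; linarith)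
  have h3 := Real.one_le_exp hy
  have h4 : 1 - (Real.exp y)⁻¹ ≤ y := by
    rw [← Real.exp_neg]; linarith [Real.add_one_le_exp (-y)]
  have h5 : Real.exp y - 1 ≤ y * Real.exp y := by
    have := mul_le_mul_of_nonneg_right h4 (Real.exp_pos y).le
    rwa [sub_mul, inv_mul_cancel₀ (Real.exp_pos y).ne', one_mul] at this
  generalize Real.exp y = E at *
  have h6 : (E - 1) * (3 - E) / 4 ≤ y := by
    by_contra hn
    nlinarith [mul_nonneg (sub_nonneg.2 h3) (sq_nonneg (E - 3 / 2))]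
  nlinarith

lemma Cr.eta_le (C : Cr G θ d) {p : ℝ} (hp : p ≤ 1) : eta θ p ≤ 1 := by
  have h6 : √p ≤ 1 := Real.sqrt_le_one.2 hp
  have h7 : (1 - θ) * θ ^ 2 ≤ 1 := by nlinarith [C.pos, C.half, sq_nonneg θ]
  unfold eta
  nlinarith [Real.sqrt_nonneg p]

lemma Cr.eta_pos (C : Cr G θ d) {p : ℝ} (hp : 0 < p) : 0 < eta θ p := by
  have := C.pos
  have := sub_pos.2 C.lt_one
  unfold eta; positivity

lemma Cr.card_le (C : Cr G θ d) (u v : V) : θ ^ 2 * (ch G u v).card ≤ 3 / 2 := by
  have : ((ch G u v).card : ℝ) ≤ d := by exact_mod_cast card_ch_le (fun v => (C.reg v).le) u v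
  nlinarith [C.crit, C.half, sq_nonneg θ]

lemma Cr.level_adj (C : Cr G θ d) (h : G.Adj u v) {f : V → ℝ} {t : ℝ}
    (hf : ∀ w ∈ desc G r u v, f w ≤ t) (ht : 0 ≤ t) : (θ ^ 2) ^ r * ∑ w ∈ desc G r u v, f w ≤ t := by
  have := Finset.sum_le_sum (g := fun _ => t * 1) fun w hw => (hf w hw).trans (mul_one t).ge
  rw [← Finset.mul_sum, sum_desc_one C.tree C.reg r h] at this
  calc _ ≤ (θ ^ 2) ^ r * (t * (d - 1) ^ r) := by gcongr
    _ = ((d - 1) * θ ^ 2) ^ r * t := by rw [mul_pow]; ring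
    _ = t := by rw [C.crit]; simp

lemma Cr.level (C : Cr G θ d) {f : V → ℝ} {t : ℝ} (hf : ∀ w ∈ desc G r u v, f w ≤ t) (ht : 0 ≤ t) :
    (θ ^ 2) ^ r * ∑ w ∈ desc G r u v, f w ≤ 2 * t := by
  cases r with
  | zero => simpa [desc] using (hf u (mem_desc_zero.2 rfl)).trans (by linarith)
  | succ r =>
    rw [sum_desc_succ C.tree, pow_succ', mul_assoc, Finset.mul_sum]
    have := Finset.sum_le_card_nsmul (ch G u v) _ t fun c hc => C.level_adj (mem_ch.1 hc).1.symm
      (fun w hw => hf w (mem_desc_succ.2 ⟨c, (mem_ch.1 hc).1, (mem_ch.1 hc).2, hw⟩)) ht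
    rw [nsmul_eq_mul] at this
    nlinarith [mul_le_mul_of_nonneg_left this (sq_nonneg θ),
      mul_le_mul_of_nonneg_right (C.card_le u v) ht]

lemma geom_le {η : ℝ} (h0 : 0 < η) (h1 : η ≤ 1) (R N : ℕ) :
    ∑ r ∈ Finset.Ico R N, (1 - η) ^ r ≤ (1 - η) ^ R / η := by
  simpa using geom_sum_Ico_le_of_lt_one (x := 1 - η) (by linarith) (by linarith) (m := R) (n := N)

namespace Pt

variable {Ω : Type*} [MeasurableSpace Ω] {P : Measure Ω} {σ : Ω → V → Bool} {h : Ω → V → ℝ}
  {H p : ℝ} (L : Pt G θ d P σ h H p)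
include L

lemma prod_even (A : Finset V) (hA : ∀ c ∈ A, G.Adj u c) {f : V → (V → ℝ) → ℝ}
    (m : ∀ c, Measurable (f c)) (dp : ∀ c, DependsOn (f c) (Br G c u))
    (bf : ∀ c, BM fun ω => f c (h ω)) (e : ∀ c x, f c (-x) = f c x) :
    ∫ ω, ∏ c ∈ A, f c (h ω) ∂P = ∏ c ∈ A, ∫ ω, f c (h ω) ∂P := by
  have := L.prob
  induction A using Finset.induction_on with
  | empty => simp
  | insert c A hc ih =>
    have hc' := hA c (Finset.mem_insert_self _ _)
    simp only [Finset.prod_insert hc]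
    rw [L.pf_even hc'.symm (g := fun x => ∏ c ∈ A, f c x) (m c) (dp c) (fun x y e' =>
      Finset.prod_congr rfl fun c' hc'' => (dp c').mono (Br_disj L.tree hc'
        (hA c' (Finset.mem_insert_of_mem hc'')) fun e => hc (e ▸ hc'')) e') (bf c)
      (BM.prod _ fun c _ => bf c) (e c), ih fun x hx => hA x (Finset.mem_insert_of_mem hx)]

lemma mgf_step {l B : ℝ} (hB : ∀ c, G.Adj c u → ∫ ω, Real.exp (l * (θ * gg θ (XX G θ (h ω) c u) *
      Lam G θ (XX G θ (h ω)) N c u)) ∂P ≤ Real.exp B) :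
    ∫ ω, Real.exp (l * Lam G θ (XX G θ (h ω)) (N + 1) u v) ∂P ≤
      Real.exp (l + (ch G u v).card * B) := by
  have := L.fact; have := L.mh
  simp only [Lam, mul_add, mul_one, Real.exp_add, Finset.mul_sum, Real.exp_sum]
  rw [integral_const_mul, L.prod_even _ (fun c hc => (mem_ch.1 hc).1)
    (f := fun c x => Real.exp (l * (θ * gg θ (XX G θ x c u) * Lam G θ (XX G θ x) N c u)))
    (fun c => BM.meas (by fun_prop))
    (fun c x y e => by simp only [dep_XX subset_rfl e, dep_Lam L.tree subset_rfl e])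
    (fun c => by fun_prop) (fun c x => by simp only [XX_neg L.abs_lt, gg_neg, Lam_neg L.abs_lt]),
    Real.exp_nat_mul, ← Finset.prod_const]
  exact mul_le_mul_of_nonneg_left (Finset.prod_le_prod
    (fun c _ => integral_nonneg fun _ => (Real.exp_pos _).le) fun c hc => hB c (mem_ch.1 hc).1.symm)
    (Real.exp_pos _).le

lemma Y_le (ω : Ω) (N : ℕ) (c u : V) :
    0 ≤ θ * gg θ (XX G θ (h ω) c u) * Lam G θ (XX G θ (h ω)) N c u ∧
    θ * gg θ (XX G θ (h ω) c u) * Lam G θ (XX G θ (h ω)) N c u ≤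
      θ ^ 2 * Lam G θ (XX G θ (h ω)) N c u := by
  have a := L.one_le_Lam (L.X_lt ω) N c u
  have b := gg_nonneg L.pos.le L.lt_one.le (L.X_lt ω c u)
  have e := gg_le L.pos.le L.half (L.X_lt ω c u)
  have := L.pos
  refine ⟨by positivity, mul_le_mul_of_nonneg_right ?_ (by linarith)⟩
  nlinarith [sq_nonneg (XX G θ (h ω) c u), mul_nonneg (sq_nonneg θ) (sq_nonneg (XX G θ (h ω) c u))]

variable (hp0 : 0 < p) (hp : p ≤ 1)
include hp0 hp

lemma level_ap (r : ℕ) (u v : V) :
    θ ^ r * ∑ w ∈ desc G r u v, ∫ ω, ap G θ (XX G θ (h ω)) r u w ∂P ≤ 2 * (1 - eta θ p) ^ r := by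
  have := L.level (r := r) (u := u) (v := v) (t := (1 - eta θ p) ^ r)
    (f := fun w => (θ ^ r)⁻¹ * ∫ ω, ap G θ (XX G θ (h ω)) r u w ∂P) (fun w hw => by
      rw [inv_mul_le_iff₀ (pow_pos L.pos r), ← mul_pow]; exact L.ap_exp hp0.le hp hw)
    (pow_nonneg (sub_nonneg.2 (L.eta_le hp)) r)
  rw [← Finset.mul_sum] at this
  refine le_trans (le_of_eq ?_) this
  have := L.pos
  field_simp; ring

lemma lam_mean (huv : G.Adj u v) : ∫ ω, Lam G θ (XX G θ (h ω)) N u v ∂P ≤ 1 / eta θ p := by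
  have := L.prob; have := L.fact; have := L.mh
  simp only [Lam_eq L.tree]
  rw [BM.isum _ fun r _ => by fun_prop]
  refine le_trans (Finset.sum_le_sum fun r _ => ?_) (by
    simpa only [Finset.range_eq_Ico, pow_zero] using geom_le (L.eta_pos hp0) (L.eta_le hp) 0 (N + 1))
  rw [integral_const_mul, BM.isum _ fun r _ => by fun_prop]
  have := L.level_adj huv (r := r) (t := (1 - eta θ p) ^ r)
    (f := fun w => (θ ^ r)⁻¹ * ∫ ω, ap G θ (XX G θ (h ω)) r u w ∂P) (fun w hw => by
      rw [inv_mul_le_iff₀ (pow_pos L.pos r), ← mul_pow]; exact L.ap_exp hp0.le hp hw)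
    (pow_nonneg (sub_nonneg.2 (L.eta_le hp)) r)
  rw [← Finset.mul_sum] at this
  refine le_trans (le_of_eq ?_) this
  have := L.pos
  field_simp; ring

lemma mgf0 (huv : G.Adj u v) :
    ∫ ω, Real.exp (eta θ p / 24 * Lam G θ (XX G θ (h ω)) N u v) ∂P ≤ 4 / 3 := by
  have := L.prob; have := L.fact; have := L.mh
  have e0 := L.eta_pos hp0
  have e1 := L.eta_le hp
  have e2 : Real.exp (1 / 4) ≤ 4 / 3 :=
    (Real.exp_bound_div_one_sub_of_interval (by norm_num) (by norm_num)).trans (by norm_num)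
  induction N generalizing u v with
  | zero => simpa [Lam] using (Real.exp_le_exp.2 (by linarith)).trans e2
  | succ N ih =>
    refine (L.mgf_step (B := θ ^ 2 * (5 / 24)) fun c hc => ?_).trans
      ((Real.exp_le_exp.2 ?_).trans e2)
    · refine (BM.imono (g := fun ω => 1 + eta θ p / 24 * θ ^ 2 * Lam G θ (XX G θ (h ω)) N c u +
        θ ^ 2 / 2 * (Real.exp (eta θ p / 24 * Lam G θ (XX G θ (h ω)) N c u) - 1))
        (by fun_prop) (by fun_prop) fun ω => ?_).trans ?_
      · obtain ⟨a, b⟩ := L.Y_le ω N c u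
        have b' := mul_le_mul_of_nonneg_left b (show 0 ≤ eta θ p / 24 by positivity)
        exact (exp_le_aux (t := eta θ p / 24 * Lam G θ (XX G θ (h ω)) N c u) (by positivity) L.half
          (sq_nonneg θ) (by linarith)).trans (by linarith)
      · rw [BM.iadd (by fun_prop) (by fun_prop), BM.iadd (by fun_prop) (by fun_prop),
          integral_const_mul, integral_const_mul, BM.isub (by fun_prop) (by fun_prop)]
        have a := mul_le_mul_of_nonneg_left (L.lam_mean hp0 hp (N := N) hc)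
          (show 0 ≤ eta θ p / 24 * θ ^ 2 by positivity)
        have b := mul_le_mul_of_nonneg_left (ih hc) (sq_nonneg θ)
        have e : eta θ p / 24 * θ ^ 2 * (1 / eta θ p) = θ ^ 2 / 24 := by field_simp
        simp only [integral_const, probReal_univ, smul_eq_mul, mul_one]
        linarith [Real.add_one_le_exp (θ ^ 2 * (5 / 24))]
    · rw [card_ch_eq L.reg huv, ← mul_assoc, L.crit]; linarith

omit hp0 hp in
lemma mgf_succ {l x : ℝ} (hl : 0 ≤ l)
    (hB : ∀ c u, G.Adj c u → ∫ ω, Real.exp (l * Lam G θ (XX G θ (h ω)) N c u) ∂P ≤ Real.exp x) :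
    ∫ ω, Real.exp (l * (d - 1) * Lam G θ (XX G θ (h ω)) (N + 1) u v) ∂P ≤
      Real.exp (l * (d - 1) + (ch G u v).card * x) := by
  have := L.prob; have := L.fact; have := L.mh
  have h3 : (3 : ℝ) ≤ d := by exact_mod_cast L.three
  refine L.mgf_step fun c hc => le_trans (BM.imono (by fun_prop) (by fun_prop) fun ω =>
    Real.exp_le_exp.2 ?_) (hB c u hc)
  refine (mul_le_mul_of_nonneg_left (L.Y_le ω N c u).2 (mul_nonneg hl (by linarith))).trans_eq ?_
  linear_combination l * Lam G θ (XX G θ (h ω)) N c u * L.crit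

lemma mgfj (j : ℕ) (huv : G.Adj u v) :
    ∫ ω, Real.exp (eta θ p / 24 * (d - 1) ^ j * Lam G θ (XX G θ (h ω)) N u v) ∂P ≤
      Real.exp (eta θ p / 24 * (d - 1) ^ j * (j + 24 / eta θ p)) := by
  have := L.prob
  have e0 := L.eta_pos hp0
  have e1 : 1 ≤ 24 / eta θ p := by rw [le_div_iff₀ e0]; linarith [L.eta_le hp]
  have h3 : (0 : ℝ) < d - 1 := by have : (3 : ℝ) ≤ d := by exact_mod_cast L.three
                                  linarith
  induction j generalizing N u v with
  | zero =>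
    simp only [pow_zero, mul_one, Nat.cast_zero, zero_add]
    rw [show eta θ p / 24 * (24 / eta θ p) = 1 by field_simp]
    exact (L.mgf0 hp0 hp huv).trans (by linarith [Real.add_one_le_exp 1])
  | succ j ih =>
    cases N with
    | zero =>
      simp only [Lam, integral_const, probReal_univ, smul_eq_mul, one_mul]
      gcongr
      linarith [(Nat.cast_nonneg (j + 1) : (0 : ℝ) ≤ _)]
    | succ N =>
      rw [pow_succ, ← mul_assoc]
      refine (L.mgf_succ (by positivity) fun c u hc => ih hc).trans_eq ?_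
      rw [card_ch_eq L.reg huv]; congr 1; push_cast; ring

lemma lam_tail (j N : ℕ) (u v : V) :
    ∫ ω, Real.exp (eta θ p / 24 * (d - 1) ^ (j + 1) * (Lam G θ (XX G θ (h ω)) N u v -
      (2 + 2 * (j + 24 / eta θ p)))) ∂P ≤ Real.exp (-(eta θ p / 24 * (d - 1) ^ (j + 1))) := by
  have := L.prob
  have e0 := L.eta_pos hp0
  have e1 : 0 ≤ j + 24 / eta θ p := by positivity
  have h3 : (3 : ℝ) ≤ d := by exact_mod_cast L.three
  have h4 : (0 : ℝ) < d - 1 := by linarith
  simp only [mul_sub _ (Lam G θ _ _ _ _), Real.exp_sub]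
  rw [integral_div, div_le_iff₀ (Real.exp_pos _), ← Real.exp_add]
  have h5 : 0 ≤ eta θ p / 24 * (d - 1) ^ j * (j + 24 / eta θ p) := by positivity
  cases N with
  | zero =>
    simp only [Lam, integral_const, probReal_univ, smul_eq_mul, one_mul]
    exact Real.exp_le_exp.2 (by rw [pow_succ]; nlinarith)
  | succ N =>
    rw [pow_succ, ← mul_assoc]
    refine (L.mgf_succ (by positivity) fun c u hc => L.mgfj hp0 hp j hc).trans
      (Real.exp_le_exp.2 ?_)
    have : ((ch G u v).card : ℝ) ≤ d := by exact_mod_cast card_ch_le (fun v => (L.reg v).le) u v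
    nlinarith [mul_le_mul_of_nonneg_right (show ((ch G u v).card : ℝ) ≤ 2 * (d - 1) by linarith) h5]

end Pt

end Vale.Agent.P161
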