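import Vale.Agent.P161.Cut

/-! Independence structure of the planted model and the spectral gap. -/

namespace Vale.Agent.P161

open Vale.Agent.P151 MeasureTheory Measure Filter Topology Function
open scoped Classical ENNReal

lemma abs_gg_le {θ x : ℝ} (hθ : |θ| < 1) (hx : |x| ≤ 1) : |gg θ x| ≤ 1 := by
  have a : θ ^ 2 < 1 := (sq_lt_one_iff_abs_lt_one θ).2 hθ
  have b : x ^ 2 ≤ 1 := (sq_le_one_iff_abs_le_one x).2 hx
  have c : 0 < 1 - θ ^ 2 * x ^ 2 := by nlinarith [sq_nonneg x]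
  rw [gg, abs_div, abs_mul, abs_of_pos c, abs_of_nonneg (by linarith : 0 ≤ 1 - x ^ 2),
    div_le_one c]
  nlinarith [abs_nonneg θ, sq_nonneg x]

lemma th_sq_mono {a b : ℝ} (h : |a| ≤ |b|) : th a ^ 2 ≤ th b ^ 2 :=
  sq_le_sq.2 (by rw [abs_th, abs_th]; exact th_mono h)

variable {V : Type*} {G : SimpleGraph V} [G.LocallyFinite] {θ : ℝ} {d : ℕ} {a b c u v w : V}
  {r : ℕ}

@[fun_prop] lemma BM.gg [hθ : Fact (|θ| < 1)] {α : Type*} [MeasurableSpace α] {f : α → V → ℝ}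
    (hf : Measurable f) (u v : V) : BM fun x => gg θ (P161.XX G θ (f x) u v) :=
  ⟨(measurable_gg θ).comp (BM.XX hf u v).meas, 1,
    fun _ => abs_gg_le hθ.out (abs_XX_le_one hθ.out _ _ _)⟩

@[fun_prop] lemma BM.ap [Fact (|θ| < 1)] {α : Type*} [MeasurableSpace α] {f : α → V → ℝ}
    (hf : Measurable f) (r : ℕ) (u w : V) : BM fun x => ap G θ (P161.XX G θ (f x)) r u w := by
  induction r generalizing u with
  | zero => exact BM.const 1
  | succ r ih =>
    refine BM.sum _ fun c _ => ?_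
    split_ifs
    · exact (BM.gg hf c u).mul (ih c)
    · exact BM.const 0

@[fun_prop] lemma measurable_XX'' {α : Type*} [MeasurableSpace α] {f : α → V → ℝ}
    (hf : Measurable f) (u v : V) : Measurable fun x => XX G θ (f x) u v :=
  (measurable_XX u v).comp hf

lemma dep_XX {R : Set V} (hR : Br G u v ⊆ R) ⦃x y : V → ℝ⦄ (e : ∀ i ∈ R, x i = y i) :
    XX G θ x u v = XX G θ y u v := XX_congr fun w hw => e w (hR hw)

omit [G.LocallyFinite] in
lemma Br_disj (hG : G.IsTree) (hc : G.Adj u c) (hc' : G.Adj u a) (hne : a ≠ c) :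
    Br G a u ⊆ (Br G c u)ᶜ := fun _ h h' => hne (Br_child_unique hG hc' hc h h')

lemma dep_ap (hG : G.IsTree) {R : Set V} (hw : w ∈ desc G r u v)
    (hR : ∀ c, G.Adj u c → w ∈ Br G c u → Br G c u ⊆ R) ⦃x y : V → ℝ⦄ (e : ∀ i ∈ R, x i = y i) :
    ap G θ (XX G θ x) r u w = ap G θ (XX G θ y) r u w := by
  induction r generalizing u v with
  | zero => exact (ap.eq_1 G θ _ u w).trans (ap.eq_1 G θ _ u w).symm
  | succ r ih =>
    obtain ⟨c, h1, _, h3⟩ := mem_desc_succ.1 hw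
    have h4 := desc_subset_Br hG h3
    rw [ap_succ hG h1 h4, ap_succ hG h1 h4, dep_XX (hR c h1 h4) e,
      ih h3 fun c' h5 h6 => (Br_child_subset hG h5 ?_).trans (hR c h1 h4)]
    rintro rfl
    exact (Br_compl hG h1).2 h4 h6

lemma Cr.exists_side (C : Cr G θ d) (hc : G.Adj c u) (w : V) : ∃ s ∈ ch G c u, w ∉ Br G s c := by
  by_contra hn
  push Not at hn
  have h1 : (ch G c u).card ≤ 1 := Finset.card_le_one.2 fun a ha b hb =>
    Br_child_unique C.tree (mem_ch.1 ha).1 (mem_ch.1 hb).1 (hn a ha) (hn b hb)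
  have h2 := card_ch_eq C.reg hc
  have h3 : (3 : ℝ) ≤ d := by exact_mod_cast C.three
  have h4 : ((ch G c u).card : ℝ) ≤ 1 := by exact_mod_cast h1
  linarith

lemma Cr.exists_sup (C : Cr G θ d) (F : V → V → ℝ) (B : ℝ) (hB : ∀ u v, G.Adj u v → F u v ≤ B) :
    ∃ s, (∀ u v, G.Adj u v → F u v ≤ s) ∧ ∀ t, (∀ u v, G.Adj u v → F u v ≤ t) → s ≤ t := by
  obtain ⟨o⟩ := C.tree.connected.nonempty
  obtain ⟨o', ho⟩ := (G.degree_pos_iff_exists_adj o).1 (by rw [C.reg]; linarith [C.three])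
  refine ⟨sSup {z | ∃ u v, G.Adj u v ∧ z = F u v}, fun u v h => le_csSup ⟨B, ?_⟩ ⟨u, v, h, rfl⟩,
    fun t ht => csSup_le ⟨_, o, o', ho, rfl⟩ ?_⟩
  · rintro _ ⟨u, v, h, rfl⟩; exact hB u v h
  · rintro _ ⟨u, v, h, rfl⟩; exact ht u v h

lemma Cr.sum_ch_le (C : Cr G θ d) (h : G.Adj u v) {f : V → ℝ} {t : ℝ}
    (hf : ∀ c, G.Adj c u → f c ≤ t) : θ ^ 2 * ∑ c ∈ ch G u v, f c ≤ t := by
  have := Finset.sum_le_card_nsmul (ch G u v) f t fun c hc => hf c (mem_ch.1 hc).1.symm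
  rw [nsmul_eq_mul, card_ch_eq C.reg h] at this
  calc _ ≤ θ ^ 2 * ((d - 1) * t) := by gcongr
    _ = ((d - 1) * θ ^ 2) * t := by ring
    _ = t := by rw [C.crit, one_mul]

namespace Pt

variable {Ω : Type*} [MeasurableSpace Ω] {P : Measure Ω} {σ : Ω → V → Bool} {h : Ω → V → ℝ}
  {H p : ℝ} (L : Pt G θ d P σ h H p)
include L

lemma fact : Fact (|θ| < 1) := ⟨L.abs_lt⟩

lemma X_lt (ω : Ω) (u v : V) : |XX G θ (h ω) u v| < 1 := L.abs_XX_lt (L.bd ω) u v

lemma bm_h (v : V) : BM fun ω => h ω v := ⟨by have := L.mh; fun_prop, H, fun ω => L.bd ω v⟩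

lemma bm_lr (u v : V) : BM fun ω => lr (XX G θ (h ω) u v) :=
  ⟨by have := L.mh; fun_prop, _, fun ω => abs_lr_le (th_lt_one _) (L.abs_XX_le (L.bd ω) u v)⟩

lemma bm_lrθ (u v : V) : BM fun ω => lr (θ * XX G θ (h ω) u v) :=
  ⟨by have := L.mh; fun_prop, _, fun ω => abs_lr_le L.lt_one (by
    rw [abs_mul, abs_of_pos L.pos]; exact mul_le_of_le_one_right L.pos.le (L.X_lt ω u v).le)⟩

lemma cut3 (hab : G.Adj a b) (Φ : (V → ℝ) → Bool → (V → ℝ) → ℝ)
    (m : ∀ s y, Measurable fun x => Φ x s y) (d1 : ∀ s y, DependsOn (fun x => Φ x s y) (Br G a b))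
    (d2 : ∀ x s, DependsOn (Φ x s) (Br G a b)ᶜ)
    (bm : BM fun q : Ω × Ω => Φ (h q.1) (σ q.2 b) (h q.2)) :
    ∫ ω, Φ (h ω) (σ ω b) (h ω) ∂P = ∫ ω2, ∫ ω1, (1 + θ * (XX G θ (h ω1) a b * spin (σ ω2 b))) *
      Φ (h ω1) (σ ω2 b) (h ω2) ∂P ∂P := by
  obtain ⟨g, -, h1, h2, h3⟩ := L.cut a b hab
  have := L.prob; have := L.fact; have := L.mh; have := L.mσ
  rw [h3 _ (bm.comp (g := fun ω => (ω, ω)) (by fun_prop))]
  congr 1; funext ω2
  have e : ∀ ω1, Φ (h (g (ω1, ω2))) (σ (g (ω1, ω2)) b) (h (g (ω1, ω2))) =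
      Φ (h ω1) (σ ω2 b) (h ω2) := by
    intro ω1
    rw [h1, h2, Set.piecewise_eq_of_notMem _ _ _ (not_mem_Br L.tree hab),
      d2 _ _ (y := h ω2) fun i hi => Set.piecewise_eq_of_notMem _ _ _ hi]
    exact d1 _ _ fun i hi => Set.piecewise_eq_of_mem _ _ _ hi
  have b1 := bm.comp (g := fun ω => (ω, ω2)) (by fun_prop)
  have := L.post a b (Or.inr hab) _ (m (σ ω2 b) (h ω2)) (d1 _ _) b1
  simp only [e, add_mul, one_mul]
  rw [BM.iadd b1 (BM.mul (by fun_prop) b1), BM.iadd b1 (BM.mul (by fun_prop) b1)]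
  congr 1
  calc _ = θ * spin (σ ω2 b) * ∫ ω, Φ (h ω) (σ ω2 b) (h ω2) * spin (σ ω a) ∂P := by
        rw [← integral_const_mul]; congr 1; funext ω; ring
    _ = _ := by rw [this, ← integral_const_mul]; congr 1; funext ω; ring

lemma flipf (u : V) {f : Bool → (V → ℝ) → ℝ} (hf : BM fun ω => f (σ ω u) (h ω)) :
    ∫ ω, f (σ ω u) (h ω) ∂P = ∫ ω, f (!σ ω u) (-h ω) ∂P := by
  obtain ⟨g, h1, h2, h3⟩ := L.flip
  simp only [BM.mp h1 hf, h2, h3]

lemma odd (u : V) {f : Bool → (V → ℝ) → ℝ} (hf : BM fun ω => f (σ ω u) (h ω))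
    (e : ∀ s x, f (!s) (-x) = -f s x) : ∫ ω, f (σ ω u) (h ω) ∂P = 0 := by
  have := L.flipf u hf
  simp only [e, integral_neg] at this
  linarith

lemma pf (hab : G.Adj a b) {f : (V → ℝ) → ℝ} {g : Bool → (V → ℝ) → ℝ} (m : Measurable f)
    (d1 : DependsOn f (Br G a b)) (d2 : ∀ s, DependsOn (g s) (Br G a b)ᶜ)
    (bf : BM fun ω => f (h ω)) (bg : BM fun ω => g (σ ω b) (h ω)) :
    ∫ ω, f (h ω) * g (σ ω b) (h ω) ∂P = (∫ ω, f (h ω) ∂P) * ∫ ω, g (σ ω b) (h ω) ∂P +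
      θ * ((∫ ω, f (h ω) * XX G θ (h ω) a b ∂P) * ∫ ω, g (σ ω b) (h ω) * spin (σ ω b) ∂P) := by
  have := L.prob; have := L.fact; have := L.mh; have := L.mσ
  rw [L.cut3 hab (fun x s y => f x * g s y) (fun _ _ => m.mul_const _)
    (fun _ _ _ _ e => by simp only [d1 e]) (fun _ _ _ _ e => by simp only [d2 _ e])
    ((bf.comp measurable_fst).mul (bg.comp measurable_snd)), ← integral_const_mul,
    ← integral_const_mul, ← integral_const_mul, ← BM.iadd ((BM.const _).mul bg)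
      ((BM.const _).mul ((BM.const _).mul (bg.mul (by fun_prop))))]
  congr 1; funext ω2
  rw [← integral_mul_const, ← integral_mul_const, ← integral_const_mul,
    ← BM.iadd (bf.mul (BM.const _)) ((BM.const _).mul ((bf.mul (by fun_prop)).mul (BM.const _)))]
  congr 1; funext ω1; ring

lemma pf_even (hab : G.Adj a b) {f g : (V → ℝ) → ℝ} (m : Measurable f)
    (d1 : DependsOn f (Br G a b)) (d2 : DependsOn g (Br G a b)ᶜ)
    (bf : BM fun ω => f (h ω)) (bg : BM fun ω => g (h ω)) (e : ∀ x, f (-x) = f x) :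
    ∫ ω, f (h ω) * g (h ω) ∂P = (∫ ω, f (h ω) ∂P) * ∫ ω, g (h ω) ∂P := by
  have := L.fact; have := L.mh
  rw [L.pf hab (g := fun _ => g) m d1 (fun _ => d2) bf bg,
    L.odd a (f := fun _ x => f x * XX G θ x a b) (bf.mul (by fun_prop))
      fun _ x => by rw [e, XX_neg L.abs_lt, mul_neg]]
  simp

lemma al (hab : G.Adj a b) {f g : Bool → (V → ℝ) → ℝ} (m : ∀ s, Measurable (f s))
    (d1 : ∀ s, DependsOn (f s) (Br G a b)) (d2 : ∀ s, DependsOn (g s) (Br G a b)ᶜ)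
    (bf : BM fun q : Ω × Ω => f (σ q.2 b) (h q.1)) (bf' : ∀ s, BM fun ω => f s (h ω))
    (bg : BM fun ω => g (σ ω b) (h ω)) (e : ∀ x, f false (-x) = f true x) :
    ∫ ω, f (σ ω b) (h ω) * g (σ ω b) (h ω) ∂P =
      (∫ ω, (1 + θ * XX G θ (h ω) a b) * f true (h ω) ∂P) * ∫ ω, g (σ ω b) (h ω) ∂P := by
  have := L.fact; have := L.mh
  rw [L.cut3 hab (fun x s y => f s x * g s y) (fun _ _ => (m _).mul_const _)
    (fun _ _ _ _ e => by simp only [d1 _ e]) (fun _ _ _ _ e => by simp only [d2 _ e])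
    (bf.mul (bg.comp measurable_snd)), ← integral_const_mul]
  congr 1; funext ω2
  simp only [← mul_assoc]
  rw [integral_mul_const]
  congr 1
  cases σ ω2 b
  · rw [L.flipf a (f := fun _ x => (1 + θ * XX G θ x a b * spin false) * f false x)
      (BM.mul (by fun_prop) (bf' _))]
    simp [XX_neg L.abs_lt, spin, e]
  · simp [spin]

lemma int_X (u v : V) : ∫ ω, XX G θ (h ω) u v ∂P = 0 := by
  have := L.fact; have := L.mh
  exact L.odd u (f := fun _ x => XX G θ x u v) (by fun_prop) fun _ _ => XX_neg L.abs_lt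

lemma test (u : V) (A : Finset V) (hA : ∀ c ∈ A, G.Adj u c) :
    ∫ ω, (th (h ω u) + θ * ∑ c ∈ A, XX G θ (h ω) c u) * spin (σ ω u) ∂P =
      ∫ ω, th (h ω u) ^ 2 ∂P + θ ^ 2 * ∑ c ∈ A, ∫ ω, XX G θ (h ω) c u ^ 2 ∂P ∧
    ∫ ω, (th (h ω u) + θ * ∑ c ∈ A, XX G θ (h ω) c u) ^ 2 ∂P ≤
      ∫ ω, (th (h ω u) + θ * ∑ c ∈ A, XX G θ (h ω) c u) * spin (σ ω u) ∂P +
      (∫ ω, (th (h ω u) + θ * ∑ c ∈ A, XX G θ (h ω) c u) * spin (σ ω u) ∂P) ^ 2 := by
  have := L.prob; have := L.fact; have := L.mh; have := L.mσ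
  induction A using Finset.induction_on with
  | empty => simp [(L.sig u).1, sq_nonneg]
  | insert c A hc ih =>
    obtain ⟨i1, i2⟩ := ih fun x hx => hA x (Finset.mem_insert_of_mem hx)
    have hc' := hA c (Finset.mem_insert_self _ _)
    have h1 := L.pf hc'.symm (f := fun x => XX G θ x c u) (g := fun s _ => spin s) (by fun_prop)
      (dep_XX subset_rfl) (fun _ _ _ _ => rfl) (by fun_prop) (by fun_prop)
    have h2 := L.pf hc'.symm (f := fun x => XX G θ x c u)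
      (g := fun _ x => th (x u) + θ * ∑ c ∈ A, XX G θ x c u) (by fun_prop)
      (dep_XX subset_rfl) (fun _ x y e => by
        simp only [e u (not_mem_Br L.tree hc'.symm)]
        rw [Finset.sum_congr rfl fun c' hc'' => dep_XX (Br_disj L.tree hc'
          (hA c' (Finset.mem_insert_of_mem hc'')) fun e => hc (e ▸ hc'')) e])
      (by fun_prop) (by fun_prop)
    simp only [L.int_X, zero_mul, zero_add, spin_sq, integral_const, probReal_univ, smul_eq_mul,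
      mul_one] at h1 h2
    simp only [← sq] at h1 h2
    set S : Ω → ℝ := fun ω => th (h ω u) + θ * ∑ c ∈ A, XX G θ (h ω) c u with hS
    have bS : BM S := by simp only [hS]; fun_prop
    have e : ∀ ω, th (h ω u) + θ * ∑ c ∈ insert c A, XX G θ (h ω) c u =
        S ω + θ * XX G θ (h ω) c u := fun ω => by rw [Finset.sum_insert hc, hS]; ring
    have e1 : ∫ ω, (S ω + θ * XX G θ (h ω) c u) * spin (σ ω u) ∂P =
        ∫ ω, S ω * spin (σ ω u) ∂P + θ ^ 2 * ∫ ω, XX G θ (h ω) c u ^ 2 ∂P := by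
      simp only [add_mul, mul_assoc]
      rw [BM.iadd (by fun_prop) (by fun_prop), integral_const_mul, h1]; ring
    have e2 : ∫ ω, (S ω + θ * XX G θ (h ω) c u) ^ 2 ∂P = ∫ ω, S ω ^ 2 ∂P +
        (2 * θ * ∫ ω, XX G θ (h ω) c u * S ω ∂P + θ ^ 2 * ∫ ω, XX G θ (h ω) c u ^ 2 ∂P) := by
      rw [← integral_const_mul, ← integral_const_mul, ← BM.iadd (by fun_prop) (by fun_prop),
        ← BM.iadd (by fun_prop) (by fun_prop)]
      congr 1; funext ω; ring
    simp only [e, e1, e2]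
    change ∫ ω, S ω * spin (σ ω u) ∂P = _ at i1
    change ∫ ω, S ω ^ 2 ∂P ≤ ∫ ω, S ω * spin (σ ω u) ∂P + (∫ ω, S ω * spin (σ ω u) ∂P) ^ 2 at i2
    change ∫ ω, XX G θ (h ω) c u * S ω ∂P = θ * (_ * ∫ ω, S ω * spin (σ ω u) ∂P) at h2
    rw [h2, Finset.sum_insert hc]
    exact ⟨by rw [i1]; ring, by nlinarith [sq_nonneg (θ ^ 2 * ∫ ω, XX G θ (h ω) c u ^ 2 ∂P)]⟩

lemma q_lower (hp0 : 0 ≤ p) (hp : p ≤ 1) (huv : G.Adj u v) :
    √p / 2 ≤ ∫ ω, XX G θ (h ω) u v ^ 2 ∂P := by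
  have := L.prob; have := L.fact; have := L.mh; have := L.mσ
  obtain ⟨s, h1, h2⟩ := L.exists_sup (fun u v => -∫ ω, XX G θ (h ω) u v ^ 2 ∂P) 0
    fun u v _ => neg_nonpos.2 (integral_nonneg fun _ => sq_nonneg _)
  have s0 : s ≤ 0 := h2 0 fun u v _ => neg_nonpos.2 (integral_nonneg fun _ => sq_nonneg _)
  have key : s ≤ -((p - s) / (1 + (p - s))) := h2 _ fun u v huv => by
    obtain ⟨t1, t2⟩ := L.test u (ch G u v) fun c hc => (mem_ch.1 hc).1
    have t3 := L.post u v (Or.inr huv) (fun x => th (x u) + θ * ∑ c ∈ ch G u v, XX G θ x c u)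
      (by fun_prop) (fun x y e => by
        simp only [e u (self_mem_Br _ _)]
        rw [Finset.sum_congr rfl fun c hc => dep_XX (Br_child_subset L.tree (mem_ch.1 hc).1
          (mem_ch.1 hc).2) e]) (by fun_prop)
    have t4 := L.sum_ch_le huv (f := fun c => -∫ ω, XX G θ (h ω) c u ^ 2 ∂P) fun c hc => h1 c u hc
    rw [Finset.sum_neg_distrib] at t4
    set S : Ω → ℝ := fun ω => th (h ω u) + θ * ∑ c ∈ ch G u v, XX G θ (h ω) c u with hS
    have bS : BM S := by simp only [hS]; fun_prop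
    change ∫ ω, S ω * spin (σ ω u) ∂P = _ at t1
    change ∫ ω, S ω ^ 2 ∂P ≤ ∫ ω, S ω * spin (σ ω u) ∂P + (∫ ω, S ω * spin (σ ω u) ∂P) ^ 2 at t2
    change ∫ ω, S ω * spin (σ ω u) ∂P = ∫ ω, S ω * _ ∂P at t3
    set m := ∫ ω, S ω * spin (σ ω u) ∂P
    have m1 : p - s ≤ m := by linarith [(L.sig u).2]
    have m2 : 0 < 1 + m := by linarith
    have t5 : ∫ ω, (2 / (1 + m) * (S ω * XX G θ (h ω) u v) - (1 / (1 + m)) ^ 2 * S ω ^ 2) ∂P ≤
        ∫ ω, XX G θ (h ω) u v ^ 2 ∂P := BM.imono (by fun_prop) (by fun_prop) fun ω => by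
      have := sq_nonneg (XX G θ (h ω) u v - 1 / (1 + m) * S ω)
      rw [show 2 / (1 + m) = 2 * (1 / (1 + m)) by ring]
      nlinarith
    rw [BM.isub (by fun_prop) (by fun_prop), integral_const_mul, integral_const_mul, ← t3] at t5
    have t6 : (p - s) / (1 + (p - s)) ≤ m / (1 + m) := by
      rw [div_le_div_iff₀ (by linarith) m2]; nlinarith
    have t7 : m / (1 + m) = 2 / (1 + m) * m - (1 / (1 + m)) ^ 2 * (m + m ^ 2) := by
      field_simp; ring
    have := mul_le_mul_of_nonneg_left t2 (sq_nonneg (1 / (1 + m)))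
    linarith
  rw [le_neg, div_le_iff₀ (by linarith)] at key
  have h3 := h1 u v huv
  have h4 := Real.sq_sqrt hp0
  have h5 := Real.sqrt_nonneg p
  have h6 : √p ≤ 1 := Real.sqrt_le_one.2 hp
  by_contra hn
  have h7 : -s < √p / 2 := by linarith
  nlinarith

lemma gap (hp0 : 0 ≤ p) (hp : p ≤ 1) (hc : G.Adj c u) {s : V} (hs : s ∈ ch G c u)
    {Y : (V → ℝ) → ℝ} (dY : DependsOn Y (Br G s c)ᶜ) (bY : BM fun ω => Y (h ω))
    (pY : ∀ ω, 0 ≤ Y (h ω)) : ∫ ω, gg θ (XX G θ (h ω) c u) * Y (h ω) ∂P ≤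
      θ * (1 - (1 - θ) * θ ^ 2 * √p / 8) * ∫ ω, Y (h ω) ∂P := by
  have := L.prob; have := L.fact; have := L.mh; have := L.mσ
  have hs' := (mem_ch.1 hs).1
  have θ0 := L.pos
  have θ1 := L.lt_one
  let B : (V → ℝ) → ℝ := fun x => x c + ∑ e ∈ (ch G c u).erase s, lr (θ * XX G θ x e c)
  have h1 := L.cut3 hs'.symm (fun x _ y => th (lr (θ * XX G θ x s c) + B y) ^ 2 * Y y)
    (fun _ _ => by fun_prop) (fun _ _ x y e => by simp only [dep_XX subset_rfl e])
    (fun _ _ x y e => by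
      simp only [B, dY e, e c (not_mem_Br L.tree hs'.symm)]
      rw [Finset.sum_congr rfl fun c' hc' => by rw [dep_XX (Br_disj L.tree hs'
        (mem_ch.1 (Finset.mem_of_mem_erase hc')).1 (Finset.ne_of_mem_erase hc')) e]])
    (BM.mul (by simp only [B]; fun_prop) (bY.comp measurable_snd))
  have h2 : ∫ ω, XX G θ (h ω) c u ^ 2 * Y (h ω) ∂P =
      ∫ ω, th (lr (θ * XX G θ (h ω) s c) + B (h ω)) ^ 2 * Y (h ω) ∂P := by
    refine integral_congr_ae ?_
    filter_upwards [L.conv] with ω hω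
    rw [← th_lr (L.X_lt ω c u), L.bp hω (L.bd ω) (Or.inr hc), ← Finset.add_sum_erase _ _ hs,
      add_left_comm]
  have h3 : ∀ t : ℝ, θ ^ 2 * (√p / 2) / 2 ≤ ∫ ω, th (lr (θ * XX G θ (h ω) s c) + t) ^ 2 ∂P := by
    intro t
    have a1 := L.flipf s (f := fun _ x => th (lr (θ * XX G θ x s c) + t) ^ 2) (by fun_prop)
    have a2 : ∫ ω, θ ^ 2 * XX G θ (h ω) s c ^ 2 ∂P ≤ ∫ ω, (th (lr (θ * XX G θ (h ω) s c) + t) ^ 2 +
        th (lr (θ * XX G θ (-h ω) s c) + t) ^ 2) ∂P :=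
      BM.imono (by fun_prop) (by fun_prop) fun ω => by
        rw [XX_neg L.abs_lt, mul_neg, lr_neg, ← mul_pow,
          ← th_lr (abs_mul_lt θ0.le θ1.le (L.X_lt ω s c))]
        rw [th_lr (abs_mul_lt θ0.le θ1.le (L.X_lt ω s c))]
        nth_rewrite 1 [← th_lr (abs_mul_lt θ0.le θ1.le (L.X_lt ω s c))]
        generalize lr (θ * XX G θ (h ω) s c) = A
        rcases le_total |A| |A + t| with e | e
        · linarith [th_sq_mono e, sq_nonneg (th (-A + t))]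
        · have : |A| ≤ |-A + t| := by
            have := abs_sub (A + t) (-A + t)
            rw [show A + t - (-A + t) = 2 * A by ring, abs_mul, abs_two] at this
            linarith
          linarith [th_sq_mono this, sq_nonneg (th (A + t))]
    rw [BM.iadd (by fun_prop) (by fun_prop), ← a1, integral_const_mul] at a2
    have := mul_le_mul_of_nonneg_left (L.q_lower hp0 hp hs'.symm) (sq_nonneg θ)
    linarith
  have h4 : (1 - θ) * (θ ^ 2 * (√p / 2) / 2) * ∫ ω, Y (h ω) ∂P ≤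
      ∫ ω, XX G θ (h ω) c u ^ 2 * Y (h ω) ∂P := by
    rw [h2, h1, ← integral_const_mul]
    refine BM.imono ((BM.const _).mul bY) (BM.integral (BM.mul (by fun_prop) (BM.mul
      (by simp only [B]; fun_prop) (bY.comp measurable_fst)))) fun ω2 => ?_
    simp only [← mul_assoc _ _ (Y (h ω2))]
    rw [integral_mul_const]
    refine mul_le_mul_of_nonneg_right ((mul_le_mul_of_nonneg_left (h3 (B (h ω2)))
      (by linarith)).trans ?_) (pY ω2)
    rw [← integral_const_mul]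
    refine BM.imono (by fun_prop) (by fun_prop) fun ω => mul_le_mul_of_nonneg_right ?_ (sq_nonneg _)
    have : |XX G θ (h ω) s c * spin (σ ω2 c)| ≤ 1 := by
      rw [abs_mul, abs_spin, mul_one]; exact (L.X_lt ω s c).le
    nlinarith [(abs_le.1 this).1]
  have h5 : ∫ ω, gg θ (XX G θ (h ω) c u) * Y (h ω) ∂P ≤
      ∫ ω, (θ * Y (h ω) - θ / 2 * (XX G θ (h ω) c u ^ 2 * Y (h ω))) ∂P :=
    BM.imono (BM.mul (by fun_prop) bY) (((BM.const _).mul bY).sub ((BM.const _).mul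
      (BM.mul (by fun_prop) bY))) fun ω => by
      nlinarith [mul_le_mul_of_nonneg_right (gg_le θ0.le L.half (L.X_lt ω c u)) (pY ω)]
  rw [BM.isub ((BM.const _).mul bY) ((BM.const _).mul (BM.mul (by fun_prop) bY)),
    integral_const_mul, integral_const_mul] at h5
  nlinarith [mul_le_mul_of_nonneg_left h4 θ0.le]

lemma ap_exp (hp0 : 0 ≤ p) (hp : p ≤ 1) (hw : w ∈ desc G r u v) :
    ∫ ω, ap G θ (XX G θ (h ω)) r u w ∂P ≤ (θ * (1 - (1 - θ) * θ ^ 2 * √p / 8)) ^ r := by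
  have := L.prob; have := L.fact; have := L.mh
  induction r generalizing u v with
  | zero => simp [ap]
  | succ r ih =>
    obtain ⟨c, h1, _, h3⟩ := mem_desc_succ.1 hw
    obtain ⟨s, hs, hws⟩ := L.exists_side h1.symm w
    simp only [ap_succ L.tree h1 (desc_subset_Br L.tree h3)]
    refine (L.gap hp0 hp h1.symm hs (Y := fun x => ap G θ (XX G θ x) r c w) (dep_ap L.tree h3 fun c' h4 h5 => Br_disj L.tree
      (mem_ch.1 hs).1 h4 fun e => hws (e ▸ h5)) (by fun_prop)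
      fun ω => (L.ap_bound (L.X_lt ω) h3).1.le).trans ?_
    rw [pow_succ' _ r]
    refine mul_le_mul_of_nonneg_left (ih h3) (mul_nonneg L.pos.le ?_)
    have h6 : √p ≤ 1 := Real.sqrt_le_one.2 hp
    have h7 : (1 - θ) * θ ^ 2 ≤ 1 := by nlinarith [L.pos, L.half, sq_nonneg θ]
    nlinarith [Real.sqrt_nonneg p]

end Pt

end Vale.Agent.P161
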