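import Vale.Agent.P161.Msg

/-! Log-likelihood ratios. -/

namespace Vale.Agent.P161

open Set

/-- log-likelihood ratio -/
noncomputable def lr (x : ℝ) : ℝ := Real.log ((1 + x) / (1 - x))

/-- inverse of the log-likelihood ratio -/
noncomputable def th (L : ℝ) : ℝ := (Real.exp L - 1) / (Real.exp L + 1)

/-- field increment of an observation -/
noncomputable def ell (z : ℝ) : ℝ := Real.log ((2 + z) / (2 - z))

variable {x y θ : ℝ}

lemma exp_lr (hx : |x| < 1) : Real.exp (lr x) = (1 + x) / (1 - x) :=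
  Real.exp_log (div_pos (by linarith [(abs_lt.1 hx).1]) (by linarith [(abs_lt.1 hx).2]))

lemma th_lr (hx : |x| < 1) : th (lr x) = x := by
  have : 1 - x ≠ 0 := by linarith [(abs_lt.1 hx).2]
  rw [th, exp_lr hx]; field_simp; ring

lemma lr_neg (x : ℝ) : lr (-x) = -lr x := by
  rw [lr, lr, ← Real.log_inv, inv_div]; simp [sub_eq_add_neg]

@[simp] lemma lr_zero : lr 0 = 0 := by simp [lr]

lemma ell_neg (x : ℝ) : ell (-x) = -ell x := by
  rw [ell, ell, ← Real.log_inv, inv_div]; simp [sub_eq_add_neg]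

@[simp] lemma ell_zero : ell 0 = 0 := by simp [ell]

lemma th_neg (L : ℝ) : th (-L) = -th L := by
  have := Real.exp_pos L
  rw [th, th, Real.exp_neg]; field_simp; ring

lemma th_mono : Monotone th := by
  intro a b h
  have := Real.exp_pos a
  have := Real.exp_le_exp.2 h
  rw [th, th, div_le_div_iff₀ (by positivity) (by positivity)]
  nlinarith

lemma th_lt_one (L : ℝ) : th L < 1 := by
  have := Real.exp_pos L
  rw [th, div_lt_one (by positivity)]; linarith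

lemma abs_th (L : ℝ) : |th L| = th |L| := by
  have h0 : th 0 = 0 := by simp [th]
  rcases le_total 0 L with h | h
  · rw [abs_of_nonneg h, abs_of_nonneg (h0 ▸ th_mono h)]
  · rw [abs_of_nonpos h, abs_of_nonpos (h0 ▸ th_mono h), th_neg]

lemma abs_le_th (hx : |x| < 1) {L : ℝ} (h : |lr x| ≤ L) : |x| ≤ th L := by
  rw [← th_lr hx, abs_th]; exact th_mono h

lemma measurable_lr : Measurable lr := by unfold lr; fun_prop

lemma measurable_th : Measurable th := by unfold th; fun_prop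

lemma measurable_ell : Measurable ell := by unfold ell; fun_prop

lemma lr_add {t : ℝ} (hy : |y| < 1) (ht : |t| < 1) :
    lr ((y + t) / (1 + t * y)) = lr y + lr t := by
  obtain ⟨a, b⟩ := abs_lt.1 hy
  obtain ⟨c, d⟩ := abs_lt.1 ht
  have h1 : 0 < 1 + t * y := by nlinarith
  have h2 : 1 - y ≠ 0 := by linarith
  have h3 : 1 - t ≠ 0 := by linarith
  rw [lr, lr, lr, ← Real.log_mul (div_pos (by linarith) (by linarith)).ne'
    (div_pos (by linarith) (by linarith)).ne', one_add_div h1.ne', one_sub_div h1.ne',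
    div_div_div_cancel_right₀ h1.ne', div_mul_div_comm]
  congr 2 <;> ring

lemma hasDerivAt_lr (hx : |x| < 1) : HasDerivAt lr (2 / (1 - x ^ 2)) x := by
  obtain ⟨a, b⟩ := abs_lt.1 hx
  have h1 : 1 - x ≠ 0 := by linarith
  have h2 : 1 + x ≠ 0 := by linarith
  have := (((hasDerivAt_id x).const_add 1).div ((hasDerivAt_id x).const_sub 1) h1).log
    (div_ne_zero h2 h1)
  refine HasDerivAt.congr_deriv this ?_
  have h3 : 1 - x ^ 2 = (1 + x) * (1 - x) := by ring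
  simp only [id, Pi.div_apply]
  rw [h3]; field_simp; ring

lemma lip_of_deriv {S : Set ℝ} (hS : Convex ℝ S) {f g f' g' : ℝ → ℝ}
    (hf : ∀ x ∈ S, HasDerivAt f (f' x) x) (hg : ∀ x ∈ S, HasDerivAt g (g' x) x)
    (h : ∀ x ∈ S, |f' x| ≤ g' x) (hx : x ∈ S) (hy : y ∈ S) : |f x - f y| ≤ |g x - g y| := by
  have key : ∀ c : ℝ, |c| ≤ 1 → MonotoneOn (fun x => g x + c * f x) S := by
    intro c hc
    have hd : ∀ x ∈ S, HasDerivAt (fun x => g x + c * f x) (g' x + c * f' x) x :=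
      fun x hx => (hg x hx).add ((hf x hx).const_mul c)
    refine monotoneOn_of_hasDerivWithinAt_nonneg hS
      (fun x hx => (hd x hx).continuousAt.continuousWithinAt)
      (fun x hx => (hd x (interior_subset hx)).hasDerivWithinAt) fun x hx => ?_
    have h1 : |c * f' x| ≤ |f' x| := by
      rw [abs_mul]; exact mul_le_of_le_one_left (abs_nonneg _) hc
    linarith [h x (interior_subset hx), (abs_le.1 h1).1]
  wlog hxy : y ≤ x generalizing x y
  · rw [abs_sub_comm, abs_sub_comm (g x)]; exact this hy hx (not_le.1 hxy).le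
  have a := key 1 (by simp) hy hx hxy
  have b := key (-1) (by simp) hy hx hxy
  simp only at a b
  exact abs_le.2 ⟨by linarith [le_abs_self (g x - g y)], by linarith [le_abs_self (g x - g y)]⟩

lemma abs_mul_lt (hθ0 : 0 ≤ θ) (hθ : θ ≤ 1) (hx : |x| < 1) : |θ * x| < 1 := by
  rw [abs_mul, abs_of_nonneg hθ0]; nlinarith [abs_nonneg x]

lemma lr_contr (hθ0 : 0 ≤ θ) (hθ : θ ≤ 1) (hx : |x| < 1) (hy : |y| < 1) :
    |lr (θ * x) - lr (θ * y)| ≤ θ * |lr x - lr y| := by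
  have := lip_of_deriv (convex_Ioo (-1 : ℝ) 1) (f := fun x => lr (θ * x)) (g := fun x => θ * lr x)
    (f' := fun x => 2 / (1 - (θ * x) ^ 2) * θ) (g' := fun x => θ * (2 / (1 - x ^ 2)))
    (fun x hx => by
      exact ((hasDerivAt_lr (abs_mul_lt hθ0 hθ (abs_lt.2 hx))).comp x
        ((hasDerivAt_id x).const_mul θ)).congr_deriv (by ring))
    (fun x hx => (hasDerivAt_lr (abs_lt.2 hx)).const_mul θ) (fun x hx => by
      have a : x ^ 2 < 1 := (sq_lt_one_iff_abs_lt_one x).2 (abs_lt.2 hx)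
      have b : (θ * x) ^ 2 ≤ x ^ 2 := by
        rw [mul_pow]; exact mul_le_of_le_one_left (sq_nonneg _) (pow_le_one₀ hθ0 hθ)
      rw [abs_of_nonneg (mul_nonneg (div_nonneg (by norm_num) (by linarith)) hθ0), mul_comm]
      gcongr) (abs_lt.1 hx) (abs_lt.1 hy)
  rwa [← mul_sub, abs_mul, abs_of_nonneg hθ0] at this

lemma le_lr (hx : |x| < 1) (hy : |y| < 1) : |x - y| ≤ |lr x - lr y| :=
  lip_of_deriv (convex_Ioo (-1 : ℝ) 1) (f := fun x => x) (f' := fun _ => 1)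
    (fun x _ => hasDerivAt_id x) (fun x hx => hasDerivAt_lr (abs_lt.2 hx)) (fun x hx => by
      have a : x ^ 2 < 1 := (sq_lt_one_iff_abs_lt_one x).2 (abs_lt.2 hx)
      rw [abs_one, le_div_iff₀ (by linarith)]; nlinarith [sq_nonneg x]) (abs_lt.1 hx) (abs_lt.1 hy)

lemma lr_le {ρ : ℝ} (hρ : ρ < 1) (hx : |x| ≤ ρ) (hy : |y| ≤ ρ) :
    |lr x - lr y| ≤ 2 / (1 - ρ ^ 2) * |x - y| := by
  have h0 : 0 ≤ ρ := (abs_nonneg _).trans hx
  have h1 : 0 < 1 - ρ ^ 2 := by nlinarith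
  have := lip_of_deriv (convex_Icc (-ρ) ρ) (g := fun x => 2 / (1 - ρ ^ 2) * x)
    (g' := fun _ => 2 / (1 - ρ ^ 2))
    (fun x hx => hasDerivAt_lr ((abs_le.2 hx).trans_lt hρ))
    (fun x _ => by simpa using (hasDerivAt_id x).const_mul (2 / (1 - ρ ^ 2))) (fun x hx => by
      have a : x ^ 2 ≤ ρ ^ 2 := sq_le_sq' hx.1 hx.2
      rw [abs_of_nonneg (div_nonneg (by norm_num) (by linarith))]
      gcongr) (abs_le.1 hx) (abs_le.1 hy)
  rwa [← mul_sub, abs_mul, abs_of_pos (show 0 < 2 / (1 - ρ ^ 2) by positivity)] at this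

lemma abs_ell_le (hx : |x| ≤ 1) : |ell x| ≤ 2 * |x| := by
  have h := lr_le (ρ := 1 / 2) (x := x / 2) (y := 0) (by norm_num)
    (by rw [abs_div, abs_two]; linarith) (by norm_num)
  have e : ell x = lr (x / 2) := by
    have : 2 - x ≠ 0 := by linarith [(abs_le.1 hx).2]
    rw [ell, lr]; congr 1; field_simp
  rw [lr_zero, sub_zero, sub_zero, abs_div, abs_two] at h
  rw [e]; norm_num at h; linarith [abs_nonneg x]

lemma lr_mono (hx : |x| < 1) (hy : |y| < 1) (h : x ≤ y) : lr x ≤ lr y := by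
  obtain ⟨a, b⟩ := abs_lt.1 hx
  obtain ⟨c, d⟩ := abs_lt.1 hy
  refine Real.log_le_log (div_pos (by linarith) (by linarith)) ?_
  rw [div_le_div_iff₀ (by linarith) (by linarith)]; nlinarith

lemma abs_lr_le {ρ : ℝ} (hρ : ρ < 1) (hx : |x| ≤ ρ) : |lr x| ≤ lr ρ := by
  have h0 : 0 ≤ ρ := (abs_nonneg _).trans hx
  have h1 : |ρ| < 1 := by rwa [abs_of_nonneg h0]
  refine abs_le.2 ⟨?_, lr_mono (hx.trans_lt hρ) h1 (abs_le.1 hx).2⟩
  rw [← lr_neg]
  exact lr_mono (by rwa [abs_neg]) (hx.trans_lt hρ) (abs_le.1 hx).1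

lemma gg_nonneg (hθ0 : 0 ≤ θ) (hθ : θ ≤ 1) (hx : |x| < 1) : 0 ≤ gg θ x := by
  have a : x ^ 2 < 1 := (sq_lt_one_iff_abs_lt_one x).2 hx
  have b : θ ^ 2 ≤ 1 := pow_le_one₀ hθ0 hθ
  exact div_nonneg (mul_nonneg hθ0 (by linarith)) (by nlinarith [sq_nonneg x])

lemma gg_le (hθ0 : 0 ≤ θ) (hθ : θ ^ 2 ≤ 1 / 2) (hx : |x| < 1) : gg θ x ≤ θ * (1 - x ^ 2 / 2) := by
  have a : x ^ 2 < 1 := (sq_lt_one_iff_abs_lt_one x).2 hx
  rw [gg, mul_div_assoc]
  refine mul_le_mul_of_nonneg_left ?_ hθ0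
  rw [div_le_iff₀ (by nlinarith [sq_nonneg x])]
  nlinarith [sq_nonneg x, mul_nonneg (sq_nonneg θ) (sq_nonneg (x ^ 2)),
    mul_le_mul_of_nonneg_right hθ (sq_nonneg x)]

lemma gg_ge (hθ0 : 0 ≤ θ) (hθ : θ ^ 2 ≤ 1 / 2) {ρ : ℝ} (hρ : ρ < 1) (hx : |x| ≤ ρ) :
    θ * (1 - ρ ^ 2) ≤ gg θ x := by
  have a : x ^ 2 ≤ ρ ^ 2 := sq_le_sq' (abs_le.1 hx).1 (abs_le.1 hx).2
  have h0 : 0 ≤ ρ := (abs_nonneg _).trans hx
  have b : ρ ^ 2 < 1 := by nlinarith
  rw [gg, mul_div_assoc]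
  refine mul_le_mul_of_nonneg_left ?_ hθ0
  rw [le_div_iff₀ (by nlinarith [sq_nonneg x])]
  nlinarith [mul_nonneg (sq_nonneg θ) (sq_nonneg x)]

lemma gg_neg (θ x : ℝ) : gg θ (-x) = gg θ x := by simp [gg]

lemma measurable_gg (θ : ℝ) : Measurable (gg θ) := by unfold gg; fun_prop

end Vale.Agent.P161
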