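import Vale.Agent.P161.Main
import Vale.Agent.P161.Aut
import Vale.Agent.P161.Lr

/-! Infinite volume messages. -/

namespace Vale.Agent.P161

open Vale.Agent.P151 MeasureTheory Filter Topology
open scoped Classical

/-- limit of a sequence, zero if there is none -/
noncomputable def lim0 (f : ℕ → ℝ) : ℝ :=
  if ∃ a, Tendsto f atTop (𝓝 a) then limUnder atTop f else 0

lemma lim0_eq {f : ℕ → ℝ} {a : ℝ} (h : Tendsto f atTop (𝓝 a)) : lim0 f = a := by
  rw [lim0, if_pos ⟨a, h⟩, h.limUnder_eq]

lemma lim0_neg (f : ℕ → ℝ) : lim0 (fun n => -f n) = -lim0 f := by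
  by_cases h : ∃ a, Tendsto f atTop (𝓝 a)
  · obtain ⟨a, h⟩ := h
    rw [lim0_eq h, lim0_eq h.neg]
  · rw [lim0, lim0, if_neg h, if_neg, neg_zero]
    exact fun ⟨a, ha⟩ => h ⟨-a, by simpa using ha.neg⟩

lemma abs_lim0_le {f : ℕ → ℝ} {c : ℝ} (h : ∀ n, |f n| ≤ c) : |lim0 f| ≤ c := by
  by_cases h' : ∃ a, Tendsto f atTop (𝓝 a)
  · obtain ⟨a, h'⟩ := h'
    rw [lim0_eq h']; exact le_of_tendsto' h'.abs h
  · rw [lim0, if_neg h', abs_zero]; exact (abs_nonneg _).trans (h 0)

lemma measurable_lim0 {α : Type*} [MeasurableSpace α] {f : ℕ → α → ℝ}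
    (hf : ∀ n, Measurable (f n)) : Measurable fun x => lim0 (fun n => f n x) :=
  Measurable.ite (measurableSet_exists_tendsto hf)
    (StronglyMeasurable.limUnder fun n => (hf n).stronglyMeasurable).measurable measurable_const

variable {V : Type*} {G : SimpleGraph V} {θ : ℝ} {T : Finset V} {h h' : V → ℝ} {u v w c o : V}

lemma M_neg (F : Set V → ℝ) :
    M G θ T (-h) F = M G θ T h (fun s => F ((T : Set V) \ s)) := by
  have hW : ∀ s : Set V, W G θ T (-h) ((T : Set V) \ s) =
      W G θ T h s * ∏ w ∈ T, Real.exp (-h w) := by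
    intro s
    have hs : ∀ x ∈ T, sp x ((T : Set V) \ s) = - sp x s := by
      intro x hx
      by_cases h : x ∈ s <;> simp [sp, h, hx]
    unfold W
    rw [mul_assoc, ← Finset.prod_mul_distrib]
    congr 1
    · refine Finset.prod_congr rfl fun e he => ?_
      induction e using Sym2.ind with
      | h x y =>
        simp only [mem_edgesIn, mem_ins_mk, Finset.mem_coe] at he
        simp only [es, Sym2.lift_mk, hs x he.2.1, hs y he.2.2, neg_mul_neg]
    · refine Finset.prod_congr rfl fun x hx => ?_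
      by_cases e : x ∈ s <;> simp [e, hx, ← Real.exp_add]
  have hZ : ∀ F : Set V → ℝ, Z G θ T (-h) F =
      Z G θ T h (fun s => F ((T : Set V) \ s)) * ∏ w ∈ T, Real.exp (-h w) := by
    intro F
    unfold Z
    rw [Ex_half_compl, ← Ex_mul_const]
    exact Ex_congr fun s _ => by rw [hW]; ring
  unfold M
  rw [hZ, hZ, mul_div_mul_right _ _ (Finset.prod_pos fun w _ => Real.exp_pos _).ne']

lemma mm_neg (hθ : |θ| < 1) : mm G θ T w (-h) = -mm G θ T w h := by
  rw [mm, M_neg, mm, ← zero_add (-_), neg_eq_neg_one_mul, ← M_aff hθ]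
  refine M_congr fun s _ => ?_
  by_cases e : w ∈ T <;> by_cases e' : w ∈ s <;> simp [spT, sp, e, e']

lemma mm_update (hG : G.IsTree) (hθ : |θ| < 1) {z : ℝ} (hz : |z| ≤ 1) :
    mm G θ T o (Function.update h w (h w + ell z)) =
      mm G θ T o h + ph z (mm G θ T w h) * Cv G θ T o o w h := by
  have h1 := one_le_den (abs_mm_lt (G := G) hθ T w h).le hz
  rw [mm, ell, M_update hθ hz, Cv, xm, Te_self hG, ph]
  change (2 * mm G θ T o h + _) / (2 + mm G θ T w h * z) = _
  have : 2 + mm G θ T w h * z ≠ 0 := by linarith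
  have : 2 + z * mm G θ T w h ≠ 0 := by linarith
  field_simp
  ring

lemma lr_mm (hG : G.IsTree) (hθ0 : 0 ≤ θ) (hθ : θ < 1) (A : Finset V) (hA : ∀ c ∈ A, G.Adj u c) :
    ∀ T : Finset V, u ∈ T → (∀ x ∈ T, x = u ∨ ∃ c ∈ A, x ∈ Br G c u) →
      lr (mm G θ T u h) = h u + ∑ c ∈ A, lr (θ * mm G θ (T.filter (· ∈ Br G c u)) c h) := by
  have hθ1 : |θ| < 1 := by rwa [abs_of_nonneg hθ0]
  induction A using Finset.induction_on with
  | empty =>
    intro T hu hT
    obtain rfl : T = {u} := Finset.eq_singleton_iff_unique_mem.2 ⟨hu, fun x hx => by simpa using hT x hx⟩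
    have e : edgesIn G {u} = ∅ := by
      ext e
      induction e using Sym2.ind with
      | h x y =>
        simp only [mem_edgesIn, mem_ins_mk, Finset.coe_singleton, Set.mem_singleton_iff,
          SimpleGraph.mem_edgeSet, Finset.notMem_empty, iff_false]
        rintro ⟨h1, rfl, rfl⟩; exact h1.ne rfl
    have : mm G θ {u} u h = th (h u) := by
      have := Real.exp_pos (h u)
      rw [mm, M, Z, Z, ← Finset.insert_empty, Ex_insert _ (Finset.notMem_empty _),
        Ex_insert _ (Finset.notMem_empty _)]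
      simp [W, e, spT, sp, th]
      field_simp; ring
    have h2 := Real.exp_pos (h u)
    rw [this, lr, th, Finset.sum_empty, add_zero, one_add_div (by positivity),
      one_sub_div (by positivity), div_div_div_cancel_right₀ (by positivity)]
    rw [show (Real.exp (h u) + 1 + (Real.exp (h u) - 1)) / (Real.exp (h u) + 1 -
      (Real.exp (h u) - 1)) = Real.exp (h u) by ring, Real.log_exp]
  | insert c A hc ih =>
    intro T hu hT
    have hc' := hA c (Finset.mem_insert_self _ _)
    have huR : u ∉ Br G c u := not_mem_Br hG hc'.symm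
    have hu2 : u ∈ T.filter (· ∉ Br G c u) := Finset.mem_filter.2 ⟨hu, huR⟩
    have a1 := M_cut (T := T) (h := h) (F := spT T u) hG hθ1 hc'.symm
      (F1 := fun _ => 1) (F2 := spT (T.filter (· ∉ Br G c u)) u)
      (fun s t hs _ => by rw [spT_union_right hs huR, one_mul])
    have e4 : M G θ (T.filter (· ∉ Br G c u)) h (fun s => spT (T.filter (· ∉ Br G c u)) u s *
        spT (T.filter (· ∉ Br G c u)) u s) = 1 := by
      rw [spT_of_mem hu2]; simp only [sp_sq]; exact M_one hθ1
    simp only [one_mul, M_one hθ1, e4, mul_one, ← mul_assoc] at a1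
    have a2 := ih (fun x hx => hA x (Finset.mem_insert_of_mem hx)) _ hu2 (fun x hx => by
      obtain ⟨h1, h2⟩ := Finset.mem_filter.1 hx
      rcases hT x h1 with h | ⟨c', h3, h4⟩
      · exact Or.inl h
      · rcases Finset.mem_insert.1 h3 with rfl | h3
        · exact absurd h4 h2
        · exact Or.inr ⟨c', h3, h4⟩)
    rw [Finset.sum_insert hc, mm, a1]
    refine (lr_add (abs_mm_lt hθ1 _ _ _) (abs_mul_lt hθ0 hθ.le (abs_mm_lt hθ1 _ _ _))).trans ?_
    rw [a2, add_assoc, add_comm (∑ _ ∈ _, _)]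
    congr 2
    refine Finset.sum_congr rfl fun c' hc'' => ?_
    congr 3
    ext x
    simp only [Finset.mem_filter]
    exact ⟨fun h => ⟨h.1.1, h.2⟩, fun h => ⟨⟨h.1, fun h' => hc (Br_child_unique hG hc'
      (hA c' (Finset.mem_insert_of_mem hc'')) h' h.2 ▸ hc'')⟩, h.2⟩⟩

variable [G.LocallyFinite]

lemma lr_xm (hG : G.IsTree) (hθ0 : 0 ≤ θ) (hθ : θ < 1) (hu : u ∈ T) :
    lr (xm G θ T u v h) = h u + ∑ c ∈ ch G u v, lr (θ * xm G θ T c u h) := by
  rw [xm, lr_mm hG hθ0 hθ (ch G u v) (fun c hc => (mem_ch.1 hc).1) (Te G T u v)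
    (Finset.mem_filter.2 ⟨hu, self_mem_Br _ _⟩) fun x hx => ?_]
  · congr 1
    refine Finset.sum_congr rfl fun c hc => ?_
    unfold xm
    congr 3
    ext x
    simp only [Te, Finset.mem_filter]
    exact ⟨fun h => ⟨h.1.1, h.2⟩, fun h =>
      ⟨⟨h.1, Br_child_subset hG (mem_ch.1 hc).1 (mem_ch.1 hc).2 h.2⟩, h.2⟩⟩
  · by_cases e : x = u
    · exact Or.inl e
    · obtain ⟨c, h1, h2, h3⟩ := exists_child (Finset.mem_filter.1 hx).2 e
      exact Or.inr ⟨c, mem_ch.2 ⟨h1, h2⟩, h3⟩

/-- the critical regime -/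
structure Cr (G : SimpleGraph V) [G.LocallyFinite] (θ : ℝ) (d : ℕ) : Prop where
  tree : G.IsTree
  reg : ∀ v, G.degree v = d
  three : 3 ≤ d
  pos : 0 < θ
  crit : ((d : ℝ) - 1) * θ ^ 2 = 1

/-- bound on the messages for fields bounded by `H` -/
noncomputable def rho (θ : ℝ) (d : ℕ) (H : ℝ) : ℝ := th (H + d * lr θ)

variable (G θ) in
/-- limit message along balls around `o` -/
noncomputable def Xo (o u v : V) (h : V → ℝ) : ℝ := lim0 fun n => xm G θ (ball G n o) u v h

variable (G θ) in
/-- infinite volume message -/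
noncomputable def XX (h : V → ℝ) (u v : V) : ℝ := Xo G θ u u v h

variable (G θ) in
/-- all finite volume messages converge -/
def Conv (h : V → ℝ) : Prop :=
  ∀ o u v, Ok G u v → Tendsto (fun n => xm G θ (ball G n o) u v h) atTop (𝓝 (XX G θ h u v))

variable (G θ) in
/-- product of gains along a path -/
noncomputable def ap (x : V → V → ℝ) : ℕ → V → V → ℝ
  | 0, _, _ => 1
  | r + 1, u, w => ∑ c ∈ G.neighborFinset u, if w ∈ Br G c u then gg θ (x c u) * ap x r c w else 0

variable {d : ℕ} {H : ℝ} {x : V → V → ℝ} {r : ℕ}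

lemma measurable_Xo (o u v : V) : Measurable (Xo G θ o u v) :=
  measurable_lim0 fun _ => measurable_xm _ _ _

lemma measurable_XX (u v : V) : Measurable fun h => XX G θ h u v := measurable_Xo u u v

lemma measurable_XX' : Measurable (XX G θ) :=
  measurable_pi_lambda _ fun u => measurable_pi_lambda _ fun v => measurable_XX u v

lemma measurableSet_Conv [Countable V] : MeasurableSet {h | Conv G θ h} :=
  measurableSet_setOfPred.2 (Measurable.forall fun _ => Measurable.forall fun u =>
    Measurable.forall fun v => measurable_const.imp (measurableSet_setOfPred.1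
      (measurableSet_tendsto_fun (fun _ => measurable_xm _ _ _) (measurable_XX u v))))

lemma Xo_congr (e : ∀ w ∈ Br G u v, h w = h' w) : Xo G θ o u v h = Xo G θ o u v h' := by
  unfold Xo xm mm
  congr 1; funext n
  exact M_congr_h fun w hw => e w (Finset.mem_filter.1 hw).2

lemma XX_congr (e : ∀ w ∈ Br G u v, h w = h' w) : XX G θ h u v = XX G θ h' u v := Xo_congr e

lemma XX_neg (hθ : |θ| < 1) : XX G θ (-h) u v = -XX G θ h u v := by
  unfold XX Xo xm
  simp only [mm_neg hθ, lim0_neg]

lemma XX_map (g : G ≃g G) : XX G θ (fun v => h (g.symm v)) (g u) (g v) = XX G θ h u v := by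
  unfold XX Xo xm
  congr 1; funext n
  have : Te G (ball G n (g u)) (g u) (g v) = (Te G (ball G n u) u v).image g := by
    ext x
    obtain ⟨x, rfl⟩ := g.surjective x
    simp only [Te, Finset.mem_filter, ball_map_iff, g.injective.mem_finset_image]
    exact and_congr_right fun _ => ⟨fun h => by simpa using Br_map g.symm h, Br_map g⟩
  rw [this, mm_map]

lemma ap_succ (hG : G.IsTree) (hc : G.Adj u c) (hw : w ∈ Br G c u) :
    ap G θ x (r + 1) u w = gg θ (x c u) * ap G θ x r c w := by
  rw [ap, Finset.sum_eq_single c, if_pos hw]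
  · intro c' hc' hne
    exact if_neg fun h => hne (Br_child_unique hG (by simpa using hc') hc h hw)
  · intro h; exact absurd (by simpa using hc) h

lemma measurable_ap (r : ℕ) (u w : V) : Measurable fun x : V → V → ℝ => ap G θ x r u w := by
  induction r generalizing u with
  | zero => exact measurable_const
  | succ r ih =>
    refine Finset.measurable_sum _ fun c _ => ?_
    split_ifs
    · exact ((measurable_gg θ).comp (by fun_prop)).mul (ih c)
    · exact measurable_const

lemma ap_map (hG : G.IsTree) (g : G ≃g G) (hw : w ∈ desc G r u v) :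
    ap G θ x r (g u) (g w) = ap G θ (fun a b => x (g a) (g b)) r u w := by
  induction r generalizing u v with
  | zero => rfl
  | succ r ih =>
    obtain ⟨c, h1, _, h3⟩ := mem_desc_succ.1 hw
    rw [ap_succ hG h1 (desc_subset_Br hG h3),
      ap_succ hG (g.map_adj_iff.2 h1) (Br_map g (desc_subset_Br hG h3)), ih h3]

namespace Cr

variable (C : Cr G θ d)
include C

lemma half : θ ^ 2 ≤ 1 / 2 := by
  have : (3 : ℝ) ≤ d := by exact_mod_cast C.three
  nlinarith [C.crit, sq_nonneg θ]

lemma abs_lt : |θ| < 1 := abs_lt_of_sq C.half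

lemma lt_one : θ < 1 := (le_abs_self θ).trans_lt C.abs_lt

lemma lr_nonneg : 0 ≤ lr θ := by simpa using lr_mono (x := 0) (by simp) C.abs_lt C.pos.le

lemma abs_xm_le (hH : ∀ v, |h v| ≤ H) (T : Finset V) (u v : V) : |xm G θ T u v h| ≤ rho θ d H := by
  have h0 : 0 ≤ H := (abs_nonneg _).trans (hH u)
  refine abs_le_th (abs_xm_lt C.abs_lt _ _ _ _) ?_
  by_cases hu : u ∈ T
  · rw [lr_xm C.tree C.pos.le C.lt_one hu]
    refine (abs_add_le _ _).trans (add_le_add (hH u) ((Finset.abs_sum_le_sum_abs _ _).trans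
      ((Finset.sum_le_card_nsmul _ _ (lr θ) fun c _ => abs_lr_le C.lt_one ?_).trans ?_)))
    · rw [abs_mul, abs_of_pos C.pos]
      exact mul_le_of_le_one_right C.pos.le (abs_xm_lt C.abs_lt _ _ _ _).le
    · rw [nsmul_eq_mul]
      exact mul_le_mul_of_nonneg_right (by exact_mod_cast card_ch_le (fun v => (C.reg v).le) u v)
        C.lr_nonneg
  · rw [xm, mm_of_not_mem (T := Te G T u v) fun h => hu (Finset.mem_filter.1 h).1]
    have := C.lr_nonneg
    simp; positivity

lemma abs_XX_le (hH : ∀ v, |h v| ≤ H) (u v : V) : |XX G θ h u v| ≤ rho θ d H :=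
  abs_lim0_le fun _ => C.abs_xm_le hH _ _ _

lemma abs_XX_lt (hH : ∀ v, |h v| ≤ H) (u v : V) : |XX G θ h u v| < 1 :=
  (C.abs_XX_le hH u v).trans_lt (th_lt_one _)

lemma ap_bound (hx : ∀ u v, |x u v| < 1) (hw : w ∈ desc G r u v) :
    0 < ap G θ x r u w ∧ ap G θ x r u w ≤ θ ^ r := by
  induction r generalizing u v with
  | zero => simp [ap]
  | succ r ih =>
    obtain ⟨c, h1, _, h3⟩ := mem_desc_succ.1 hw
    rw [ap_succ C.tree h1 (desc_subset_Br C.tree h3), pow_succ']
    have a := gg_ge C.pos.le C.half (hx c u) le_rfl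
    have b := gg_le C.pos.le C.half (hx c u)
    have e : |x c u| ^ 2 < 1 := by nlinarith [hx c u, abs_nonneg (x c u)]
    have := C.pos
    exact ⟨mul_pos (lt_of_lt_of_le (mul_pos this (by linarith)) a) (ih h3).1,
      mul_le_mul (by nlinarith [sq_nonneg (x c u)]) (ih h3).2 (ih h3).1.le this.le⟩

lemma ev_mem (o u : V) : ∀ᶠ n in atTop, u ∈ ball G n o := by
  obtain ⟨k, hk⟩ := exists_ball_of_reachable (C.tree.connected o u)
  filter_upwards [eventually_ge_atTop k] with n hn using ball_mono hn hk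

variable (hc : Conv G θ h) (hH : ∀ v, |h v| ≤ H)
include hc hH

lemma bp (huv : Ok G u v) :
    lr (XX G θ h u v) = h u + ∑ c ∈ ch G u v, lr (θ * XX G θ h c u) := by
  refine tendsto_nhds_unique ((hasDerivAt_lr (C.abs_XX_lt hH u v)).continuousAt.tendsto.comp
    (hc u u v huv)) ?_
  refine (tendsto_const_nhds.add (tendsto_finsetSum _ fun c hc' =>
    (hasDerivAt_lr (abs_mul_lt C.pos.le C.lt_one.le (C.abs_XX_lt hH c u))).continuousAt.tendsto.comp
      ((hc u c u (Or.inr (mem_ch.1 hc').1.symm)).const_mul θ))).congr fun n => ?_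
  exact (lr_xm C.tree C.pos.le C.lt_one (self_mem_ball n u)).symm

lemma tendsto_av (o : V) (hw : w ∈ desc G r u v) :
    Tendsto (fun n => av G θ (ball G n o) u v w h) atTop (𝓝 (ap G θ (XX G θ h) r u w)) := by
  induction r generalizing u v with
  | zero =>
    rw [mem_desc_zero.1 hw]
    refine tendsto_const_nhds.congr' ?_
    filter_upwards [C.ev_mem o u] with n hn using (av_root C.abs_lt hn).symm
  | succ r ih =>
    obtain ⟨c, h1, h2, h3⟩ := mem_desc_succ.1 hw
    rw [ap_succ C.tree h1 (desc_subset_Br C.tree h3)]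
    have hx := C.abs_XX_lt hH c u
    have hg : ContinuousAt (gg θ) (XX G θ h c u) := by
      have a : XX G θ h c u ^ 2 < 1 := (sq_lt_one_iff_abs_lt_one _).2 hx
      unfold gg
      exact ContinuousAt.div (by fun_prop) (by fun_prop)
        (by nlinarith [C.half, sq_nonneg (XX G θ h c u)])
    refine ((hg.tendsto.comp (hc o c u (Or.inr h1.symm))).mul (ih h3)).congr' ?_
    filter_upwards [C.ev_mem o u] with n hn using
      (av_rec C.tree C.abs_lt hn h1 h2 (desc_subset_Br C.tree h3)).symm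

lemma tendsto_Cv (o : V) (hw : w ∈ desc G r u u) :
    Tendsto (fun n => Cv G θ (ball G n o) u u w h) atTop
      (𝓝 (ap G θ (XX G θ h) r u w * (1 - XX G θ h u u ^ 2))) :=
  ((C.tendsto_av hc hH o hw).mul (((hc o u u (Or.inl rfl)).pow 2).const_sub 1)).congr
    fun _ => (Cv_eq C.abs_lt).symm

lemma ap_symm (hw : w ∈ desc G r u u) : ap G θ (XX G θ h) r u w * (1 - XX G θ h u u ^ 2) =
    ap G θ (XX G θ h) r w u * (1 - XX G θ h w w ^ 2) := by
  refine tendsto_nhds_unique (C.tendsto_Cv hc hH u hw)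
    ((C.tendsto_Cv hc hH u (desc_symm C.tree C.reg hw)).congr fun n => ?_)
  simp only [Cv, xm, Te_self C.tree, mul_comm]

lemma jump (hw : w ∈ desc G r u u) {z : ℝ} (hz : |z| ≤ 1) :
    XX G θ (Function.update h w (h w + ell z)) u u = XX G θ h u u +
      ph z (XX G θ h w w) * (ap G θ (XX G θ h) r u w * (1 - XX G θ h u u ^ 2)) := by
  refine lim0_eq ?_
  have hp : ContinuousAt (ph z) (XX G θ h w w) := by
    unfold ph
    exact ContinuousAt.div (by fun_prop) (by fun_prop)
      (by linarith [one_le_den (C.abs_XX_lt hH w w).le hz])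
  refine ((hc u u u (Or.inl rfl)).add ((hp.tendsto.comp (hc u w w (Or.inl rfl))).mul
    (C.tendsto_Cv hc hH u hw))).congr fun n => ?_
  simp only [xm_self C.tree, mm_update C.tree C.abs_lt hz, Function.comp]

end Cr

end Vale.Agent.P161
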