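import Vale.Agent.P161.Final

/-! The main theorem. -/

namespace Vale.Agent.P161

open Vale.Agent.P151 MeasureTheory Measure Filter Topology
open scoped Classical unitInterval ENNReal

variable {V : Type*} {G : SimpleGraph V} {θ : ℝ}

lemma exists_noise (V : Type*) : ∃ κ : I → ℕ → I, Measurable κ ∧
    (iid V).map (fun U j v => κ (U v) j) = noise V := by
  obtain ⟨κ, hκ, e⟩ := Measure.exists_measurable_map_eq (infinitePi fun _ : ℕ => (volume : Measure I))
  refine ⟨κ, hκ, ?_⟩
  have h1 : (iid V).map (fun U v => κ (U v)) =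
      infinitePi fun _ : V => infinitePi fun _ : ℕ => (volume : Measure I) := by
    rw [iid, infinitePi_map_pi _ (f := fun _ => κ) fun _ => hκ, e]
  have h2 := infinitePi_map_curry_symm (fun (_ : V) (_ : ℕ) => (volume : Measure I))
  have h3 := infinitePi_map_piCongrLeft (fun _ : ℕ × V => (volume : Measure I)) (Equiv.prodComm V ℕ)
  have h4 := infinitePi_map_curry (fun (_ : ℕ) (_ : V) => (volume : Measure I))
  have m : Measurable fun (U : V → I) v => κ (U v) := by fun_prop
  rw [← h3, ← h2, ← h1, map_map (by fun_prop) m, map_map (by fun_prop) (by fun_prop),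
    map_map (by fun_prop) (by fun_prop)] at h4
  rw [noise, iid, ← h4]
  congr 1

lemma countable_of_tree [G.LocallyFinite] (hG : G.IsTree) : Countable V := by
  obtain ⟨o⟩ := hG.connected.nonempty
  rw [← Set.countable_univ_iff]
  refine (Set.countable_iUnion fun k => (ball G k o).countable_toSet).mono fun v _ => ?_
  simpa using exists_ball_of_reachable (hG.connected o v)

lemma isFreeIsing_unique [G.LocallyFinite] (hG : G.IsTree) {μ ν : Measure (V → Bool)}
    (hμ : IsFreeIsing G θ μ) (hν : IsFreeIsing G θ ν) : μ = ν := by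
  have := hμ.1
  have := hν.1
  obtain ⟨o⟩ := hG.connected.nonempty
  have key : ∀ D : Finset V, μ.map D.restrict = ν.map D.restrict := by
    intro D
    obtain ⟨k, hk⟩ : ∃ k, D ⊆ ball G k o := by
      induction D using Finset.induction_on with
      | empty => exact ⟨0, Finset.empty_subset _⟩
      | insert a D _ ih =>
        obtain ⟨k, hk⟩ := ih
        obtain ⟨l, hl⟩ := exists_ball_of_reachable (hG.connected o a)
        exact ⟨k + l, Finset.insert_subset (ball_mono (by omega) hl)
          (hk.trans (ball_mono (by omega)))⟩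
    have h1 : μ.map (ball G k o).restrict = ν.map (ball G k o).restrict := by
      refine Measure.ext_of_singleton fun x => ?_
      rw [map_apply (by fun_prop) (measurableSet_singleton _),
        map_apply (by fun_prop) (measurableSet_singleton _)]
      let η : V → Bool := fun v => if h : v ∈ ball G k o then x ⟨v, h⟩ else true
      have e : (ball G k o).restrict (π := fun _ => Bool) ⁻¹' {x} = {y : V → Bool | ∀ v ∈ ball G k o, y v = η v} := by
        ext y
        simp only [Set.mem_preimage, Set.mem_singleton_iff, Set.mem_ofPred_eq, funext_iff, η]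
        exact ⟨fun h v hv => by rw [dif_pos hv]; exact h ⟨v, hv⟩,
          fun h v => by simpa [dif_pos v.2] using h v v.2⟩
      rw [e, ← measureReal_eq_measureReal_iff, hμ.2 _ (ball_connected k o),
        hν.2 _ (ball_connected k o)]
    rw [← Finset.restrict₂_comp_restrict hk, ← map_map (by fun_prop) (by fun_prop),
      ← map_map (by fun_prop) (by fun_prop), h1]
  exact IsProjectiveLimit.unique (P := fun D : Finset V => ν.map D.restrict) key fun _ => rfl

theorem main {d : ℕ} (hd : 3 ≤ d) (hG : G.IsTree) (hreg : ∀ v, (G.neighborSet v).ncard = d)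
    (hθ : ((d : ℝ) - 1) * θ ^ 2 < 1) :
    (∃ μ, IsFreeIsing G θ μ) ∧ ∀ μ, IsFreeIsing G θ μ → IsFactorOfIID G μ := by
  have lf : G.LocallyFinite := fun v =>
    (Set.finite_of_ncard_ne_zero (by rw [hreg v]; omega)).fintype
  have := countable_of_tree hG
  have hd' : (3 : ℝ) ≤ d := by exact_mod_cast hd
  set a := ((d : ℝ) - 1) * θ ^ 2 with ha
  have a0 : 0 ≤ a := mul_nonneg (by linarith) (sq_nonneg _)
  have H : Par2 G θ d ((1 - a) / 4) ((3 + a) / 4) :=
    { tree := hG
      deg := fun v => by
        rw [← SimpleGraph.card_neighborFinset_eq_degree, SimpleGraph.neighborFinset_def,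
          ← Set.ncard_eq_toFinset_card', hreg]
      two := by omega
      half := by nlinarith [sq_nonneg θ]
      pos := by linarith
      le := by
        have : θ ^ 2 * (1 + (1 - a) / 4) * (1 + (1 - a) / 4) * ((d : ℝ) - 1) =
            a * (1 + (1 - a) / 4) ^ 2 := by rw [ha]; ring
        rw [this]; nlinarith [mul_nonneg a0 (sub_nonneg.2 hθ.le), sq_nonneg (1 - a)]
      lt := by linarith }
  set K := Kc d ((1 - a) / 4) ((3 + a) / 4) with hK
  have hK0 : 0 ≤ K := by
    have := H.pos
    have : 0 < 3 / (1 - (3 + a) / 4) := div_pos (by norm_num) (by linarith)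
    rw [hK]; unfold Kc; positivity
  let δ : I := ⟨1 / (4 * K + 2), by positivity, by rw [div_le_one (by positivity)]; linarith⟩
  have d0 : (0 : ℝ) < δ := by simp only [δ]; positivity
  have d1 : (δ : ℝ) ≤ 1 / 2 := one_div_le_one_div_of_le (by norm_num) (by linarith)
  have d2 : 4 * K * δ ≤ 1 := by
    simp only [δ]; rw [mul_one_div, div_le_one (by positivity)]; linarith
  obtain ⟨j, hj⟩ := pow_unbounded_of_one_lt (6 : ℝ) (show 1 < 1 + (1 - a) / 4 by linarith)
  have hI := isFreeIsing_Phi H d1 d2 hj.le d0
  refine ⟨⟨_, hI⟩, fun μ hμ => ?_⟩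
  obtain ⟨κ, hκ, e⟩ := exists_noise V
  have m : Measurable fun (U : V → I) j v => κ (U v) j := by fun_prop
  refine ⟨fun U => Phi G θ δ j (fun j v => κ (U v) j), (measurable_Phi j).comp m,
    fun g => ae_of_all _ fun U => Phi_map g j (fun j v => κ (U v) j), ?_⟩
  rw [isFreeIsing_unique hG hμ hI, ← e, map_map (measurable_Phi j) m]
  rfl

end Vale.Agent.P161
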