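import Vale.Agent.P161.Gibbs
import Vale.Agent.P161.Chan
import Vale.Agent.P161.Defs

/-! Messages, covariances and their recursions. -/

namespace Vale.Agent.P161

open Vale.Agent.P151 MeasureTheory
open scoped Classical unitInterval

variable {V : Type*} (G : SimpleGraph V) (θ : ℝ)

/-- part of the volume in a branch -/
noncomputable def Te (T : Finset V) (u v : V) : Finset V := T.filter (· ∈ Br G u v)

/-- posterior mean -/
noncomputable def mm (T : Finset V) (w : V) (h : V → ℝ) : ℝ := M G θ T h (spT T w)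

/-- message -/
noncomputable def xm (T : Finset V) (u v : V) (h : V → ℝ) : ℝ := mm G θ (Te G T u v) u h

/-- branch covariance -/
noncomputable def Cv (T : Finset V) (u v w : V) (h : V → ℝ) : ℝ :=
  M G θ (Te G T u v) h (fun s => spT (Te G T u v) u s * spT (Te G T u v) w s) -
    xm G θ T u v h * mm G θ (Te G T u v) w h

/-- normalised covariance -/
noncomputable def av (T : Finset V) (u v w : V) (h : V → ℝ) : ℝ :=
  Cv G θ T u v w h / (1 - xm G θ T u v h ^ 2)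

/-- incoming field -/
noncomputable def zz (T : Finset V) (u v : V) (h : V → ℝ) : ℝ :=
  if v = u then 0 else θ * xm G θ T v u h

/-- tilt coefficient -/
noncomputable def ze (T : Finset V) (u v : V) (h : V → ℝ) : ℝ :=
  zz G θ T u v h / (1 + zz G θ T u v h * xm G θ T u v h)

/-- edge gain -/
noncomputable def gg (x : ℝ) : ℝ := θ * (1 - x ^ 2) / (1 - θ ^ 2 * x ^ 2)

/-- one observation -/
noncomputable def stp (T : Finset V) (w : V) (y : I) (h : V → ℝ) : V → ℝ :=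
  if w ∈ T then Function.update h w
    (h w + Real.log ((2 + qf (mm G θ T w h) y) / (2 - qf (mm G θ T w h) y))) else h

variable {G θ} {T T0 : Finset V} {h : V → ℝ} {u v w c : V}

lemma abs_mm_lt (hθ : |θ| < 1) (T : Finset V) (w : V) (h : V → ℝ) : |mm G θ T w h| < 1 :=
  abs_M_spT_lt hθ T h w

lemma abs_xm_lt (hθ : |θ| < 1) (T : Finset V) (u v : V) (h : V → ℝ) : |xm G θ T u v h| < 1 :=
  abs_mm_lt hθ _ _ _

lemma Te_self (hG : G.IsTree) (T : Finset V) (u : V) : Te G T u u = T :=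
  Finset.filter_true_of_mem fun w _ => Br_self hG u w

lemma xm_self (hG : G.IsTree) : xm G θ T u u h = mm G θ T u h := by rw [xm, Te_self hG]

lemma mm_of_not_mem (hw : w ∉ T) : mm G θ T w h = 0 := by rw [mm, spT_of_not_mem hw, M_zero]

lemma M_stp (hθ : |θ| < 1) (hT : T0 ⊆ T) (w : V) (y : I) (F : Set V → ℝ) :
    M G θ T0 (stp G θ T w y h) F =
      (2 * M G θ T0 h F + qf (mm G θ T w h) y * M G θ T0 h (fun s => F s * spT T0 w s)) /
        (2 + mm G θ T0 w h * qf (mm G θ T w h) y) := by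
  unfold stp
  split_ifs with hw
  · exact M_update hθ (abs_qf_le (abs_mm_lt hθ T w h).le y) w F
  · have : w ∉ T0 := fun h => hw (hT h)
    rw [mm_of_not_mem this, spT_of_not_mem this]
    simp [M_zero]

lemma xm_stp (hθ : |θ| < 1) (y : I) :
    xm G θ T u v (stp G θ T w y h) = xm G θ T u v h +
      ph (qf (mm G θ T w h) y) (mm G θ (Te G T u v) w h) * Cv G θ T u v w h := by
  have h1 := one_le_den (abs_mm_lt (G := G) hθ (Te G T u v) w h).le
    (abs_qf_le (abs_mm_lt (G := G) hθ T w h).le y)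
  unfold Cv ph xm
  rw [mm, M_stp hθ (show Te G T u v ⊆ T from Finset.filter_subset _ _)]
  change (2 * mm G θ (Te G T u v) u h + _) / _ = _
  have : 2 + mm G θ (Te G T u v) w h * qf (mm G θ T w h) y ≠ 0 := by linarith
  have : 2 + qf (mm G θ T w h) y * mm G θ (Te G T u v) w h ≠ 0 := by linarith
  field_simp
  ring

lemma Cv_of_not_mem (hw : w ∉ Te G T u v) : Cv G θ T u v w h = 0 := by
  rw [Cv, mm_of_not_mem hw, spT_of_not_mem hw]; simp [M_zero]

lemma Cv_of_not_mem_root (hu : u ∉ T) : Cv G θ T u v w h = 0 := by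
  have : u ∉ Te G T u v := fun h => hu (Finset.mem_filter.1 h).1
  rw [Cv, xm, mm_of_not_mem this, spT_of_not_mem this]; simp [M_zero]

lemma one_sub_xm_pos (hθ : |θ| < 1) : 0 < 1 - xm G θ T u v h ^ 2 := by
  have := abs_xm_lt (G := G) hθ T u v h
  nlinarith [abs_nonneg (xm G θ T u v h), sq_abs (xm G θ T u v h)]

lemma Cv_eq (hθ : |θ| < 1) : Cv G θ T u v w h = av G θ T u v w h * (1 - xm G θ T u v h ^ 2) := by
  rw [av, div_mul_cancel₀ _ (one_sub_xm_pos hθ).ne']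

lemma av_root (hθ : |θ| < 1) (hu : u ∈ T) : av G θ T u v u h = 1 := by
  have : u ∈ Te G T u v := Finset.mem_filter.2 ⟨hu, self_mem_Br _ _⟩
  rw [av, div_eq_one_iff_eq (one_sub_xm_pos hθ).ne', Cv, spT_of_mem this]
  simp only [sp_sq]
  rw [M_one hθ, sq]; rfl

lemma abs_av_le (hθ : |θ| < 1) : |av G θ T u v w h| ≤ 1 := by
  by_cases hu : u ∈ T
  swap
  · rw [av, Cv_of_not_mem_root hu]; simp
  have hu' : u ∈ Te G T u v := Finset.mem_filter.2 ⟨hu, self_mem_Br _ _⟩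
  have hp := one_sub_xm_pos (G := G) (T := T) (u := u) (v := v) (h := h) hθ
  rw [av, abs_div, abs_of_pos hp, div_le_one hp]
  set x := xm G θ T u v h with hx
  have hx1 := abs_lt.1 (abs_xm_lt (G := G) hθ T u v h)
  have e1 : Cv G θ T u v w h = M G θ (Te G T u v) h (fun s =>
      1 * (spT (Te G T u v) u s * spT (Te G T u v) w s) + (-x) * spT (Te G T u v) w s) := by
    rw [M_lin, Cv, mm]; ring
  have e2 : 1 - x ^ 2 = M G θ (Te G T u v) h (fun s => 1 + (-x) * spT (Te G T u v) u s) := by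
    rw [M_aff hθ, hx, xm, mm]; ring
  rw [e1, e2]
  refine abs_M_le hθ fun s _ => ?_
  have e3 : 1 * (spT (Te G T u v) u s * spT (Te G T u v) w s) + (-x) * spT (Te G T u v) w s =
      (spT (Te G T u v) u s - x) * spT (Te G T u v) w s := by ring
  rw [e3, abs_mul]
  refine (mul_le_of_le_one_right (abs_nonneg _) (abs_spT_le _ _ _)).trans ?_
  rw [spT_of_mem hu']
  unfold sp
  split_ifs
  · rw [abs_of_nonneg (by linarith)]; linarith
  · rw [abs_of_nonpos (by linarith)]; linarith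

lemma abs_Cv_le (hθ : |θ| < 1) : |Cv G θ T u v w h| ≤ |av G θ T u v w h| := by
  rw [Cv_eq hθ, abs_mul, abs_of_pos (one_sub_xm_pos hθ)]
  exact mul_le_of_le_one_right (abs_nonneg _) (by linarith [sq_nonneg (xm G θ T u v h)])

lemma tilt (hG : G.IsTree) (hθ : |θ| < 1) (huv : Ok G u v) (hw : w ∈ Br G u v) :
    mm G θ T w h = mm G θ (Te G T u v) w h + ze G θ T u v h * Cv G θ T u v w h := by
  by_cases hvu : v = u
  · subst hvu; simp [ze, zz, Te_self hG]
  have hadj : G.Adj u v := huv.resolve_left hvu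
  have e2 : T.filter (· ∉ Br G u v) = Te G T v u :=
    Finset.filter_congr fun x _ => Br_compl hG hadj
  have := M_cut (T := T) (h := h) (F := spT T w) hG hθ hadj (F1 := spT (Te G T u v) w)
    (F2 := fun _ => 1) (fun s t _ ht => by rw [spT_union_left ht hw, mul_one]; rfl)
  rw [e2, M_one hθ] at this
  simp only [one_mul] at this
  have hd := cut_den_pos hθ (abs_xm_lt (G := G) hθ T u v h) (abs_xm_lt (G := G) hθ T v u h)
  have e3 : M G θ (Te G T u v) h (fun s => spT (Te G T u v) w s * spT (Te G T u v) u s) =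
      Cv G θ T u v w h + xm G θ T u v h * mm G θ (Te G T u v) w h := by
    rw [Cv, sub_add_cancel]; exact M_congr fun s _ => mul_comm _ _
  change mm G θ T w h = (mm G θ (Te G T u v) w h * 1 + θ * (M G θ (Te G T u v) h
    (fun s => spT (Te G T u v) w s * spT (Te G T u v) u s) * xm G θ T v u h)) /
    (1 + θ * (xm G θ T u v h * xm G θ T v u h)) at this
  rw [this, e3, ze, zz, if_neg hvu,
    show 1 + θ * xm G θ T v u h * xm G θ T u v h = 1 + θ * (xm G θ T u v h * xm G θ T v u h) by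
      ring]
  rw [div_mul_eq_mul_div, div_eq_iff hd.ne', add_mul (mm G θ (Te G T u v) w h), div_mul_cancel₀ _ hd.ne']
  ring

lemma rec_alg {x y n C k a b : ℝ} (hk : k = 1 + θ * (x * y)) (ha : a = 1 - x ^ 2)
    (hb : b = 1 - θ ^ 2 * x ^ 2) (k0 : k ≠ 0) (a0 : a ≠ 0) (b0 : b ≠ 0) :
    (n * y + θ * (C + x * n)) / k - (y + θ * x) / k * ((n + θ * ((C + x * n) * y)) / k) =
      θ * a / b * (C / a) * (1 - ((y + θ * x) / k) ^ 2) := by
  field_simp
  subst hk ha hb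
  ring

lemma av_rec (hG : G.IsTree) (hθ : |θ| < 1) (hu : u ∈ T) (hc : G.Adj u c) (hcv : c ≠ v)
    (hw : w ∈ Br G c u) :
    av G θ T u v w h = gg θ (xm G θ T c u h) * av G θ T c u w h := by
  have e1 : (Te G T u v).filter (· ∈ Br G c u) = Te G T c u := by
    ext x
    simp only [Te, Finset.mem_filter]
    exact ⟨fun h => ⟨h.1.1, h.2⟩, fun h => ⟨⟨h.1, Br_child_subset hG hc hcv h.2⟩, h.2⟩⟩
  have huR : u ∉ Br G c u := not_mem_Br hG hc.symm
  set T2 := (Te G T u v).filter (· ∉ Br G c u) with hT2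
  have hu2 : u ∈ T2 := Finset.mem_filter.2 ⟨Finset.mem_filter.2 ⟨hu, self_mem_Br _ _⟩, huR⟩
  have a1 := M_cut (T := Te G T u v) (h := h) (F := spT (Te G T u v) u) hG hθ hc.symm
    (F1 := fun _ => 1) (F2 := spT T2 u)
    (fun s t hs _ => by rw [spT_union_right hs huR, one_mul])
  have a2 := M_cut (T := Te G T u v) (h := h) (F := spT (Te G T u v) w) hG hθ hc.symm
    (F1 := spT (Te G T c u) w) (F2 := fun _ => 1)
    (fun s t _ ht => by rw [spT_union_left ht hw, mul_one, e1])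
  have a3 := M_cut (T := Te G T u v) (h := h)
    (F := fun s => spT (Te G T u v) u s * spT (Te G T u v) w s) hG hθ hc.symm
    (F1 := spT (Te G T c u) w) (F2 := spT T2 u)
    (fun s t hs ht => by rw [spT_union_left ht hw, spT_union_right hs huR, e1, mul_comm])
  have e3 : M G θ (Te G T c u) h (fun s => spT (Te G T c u) w s * spT (Te G T c u) c s) =
      Cv G θ T c u w h + xm G θ T c u h * mm G θ (Te G T c u) w h := by
    rw [Cv, sub_add_cancel]; exact M_congr fun s _ => mul_comm _ _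
  have e4 : M G θ T2 h (fun s => spT T2 u s * spT T2 u s) = 1 := by
    rw [spT_of_mem hu2]; simp only [sp_sq]; exact M_one hθ
  rw [e1, ← hT2] at a1 a2 a3
  simp only [one_mul, M_one hθ, e3, e4, mul_one] at a1 a2 a3
  have hy := abs_mm_lt (G := G) hθ T2 u h
  have hx := abs_xm_lt (G := G) hθ T c u h
  have hd := cut_den_pos hθ hx hy
  have p1 := one_sub_xm_pos (G := G) (T := T) (u := u) (v := v) (h := h) hθ
  have p2 := one_sub_xm_pos (G := G) (T := T) (u := c) (v := u) (h := h) hθ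
  have p3 : 0 < 1 - θ ^ 2 * xm G θ T c u h ^ 2 := by
    have : θ ^ 2 < 1 := by rwa [sq_lt_one_iff_abs_lt_one]
    nlinarith [sq_nonneg (xm G θ T c u h), sq_nonneg θ]
  change xm G θ T u v h = (mm G θ T2 u h + θ * xm G θ T c u h) /
    (1 + θ * (xm G θ T c u h * mm G θ T2 u h)) at a1
  change mm G θ (Te G T u v) w h = (mm G θ (Te G T c u) w h + θ * ((_ + _) * mm G θ T2 u h)) /
    (1 + θ * (xm G θ T c u h * mm G θ T2 u h)) at a2
  change _ = (mm G θ (Te G T c u) w h * mm G θ T2 u h + _) /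
    (1 + θ * (xm G θ T c u h * mm G θ T2 u h)) at a3
  rw [av, div_eq_iff p1.ne', av, gg, Cv, a3, a2, a1]
  exact rec_alg rfl rfl rfl hd.ne' p2.ne' p3.ne'

lemma gg_sq_le (hθ : |θ| < 1) {x : ℝ} (hx : |x| < 1) : gg θ x ^ 2 ≤ θ ^ 2 := by
  have a : θ ^ 2 < 1 := by rwa [sq_lt_one_iff_abs_lt_one]
  have b : x ^ 2 < 1 := by rwa [sq_lt_one_iff_abs_lt_one]
  have p3 : 0 < 1 - θ ^ 2 * x ^ 2 := by nlinarith [sq_nonneg x, sq_nonneg θ]
  rw [gg, mul_div_assoc, mul_pow]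
  refine mul_le_of_le_one_right (sq_nonneg _) (pow_le_one₀ (div_nonneg (by linarith) p3.le) ?_)
  rw [div_le_one p3]; nlinarith [sq_nonneg x]

lemma gg_lip (hθ : θ ^ 2 ≤ 1 / 2) {x x' : ℝ} (hx : |x| < 1) (hx' : |x'| < 1) :
    (gg θ x - gg θ x') ^ 2 ≤ 64 * (x - x') ^ 2 := by
  have b : x ^ 2 < 1 := by rwa [sq_lt_one_iff_abs_lt_one]
  have b' : x' ^ 2 < 1 := by rwa [sq_lt_one_iff_abs_lt_one]
  have p : 1 / 2 ≤ 1 - θ ^ 2 * x ^ 2 := by nlinarith [sq_nonneg x, sq_nonneg θ]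
  have p' : 1 / 2 ≤ 1 - θ ^ 2 * x' ^ 2 := by nlinarith [sq_nonneg x', sq_nonneg θ]
  have e : gg θ x - gg θ x' = -(θ * (1 - θ ^ 2) * (x + x')) * (x - x') /
      ((1 - θ ^ 2 * x ^ 2) * (1 - θ ^ 2 * x' ^ 2)) := by
    have : 1 - θ ^ 2 * x ^ 2 ≠ 0 := by linarith
    have : 1 - θ ^ 2 * x' ^ 2 ≠ 0 := by linarith
    have : 1 - x ^ 2 * θ ^ 2 ≠ 0 := by linarith
    have : 1 - x' ^ 2 * θ ^ 2 ≠ 0 := by linarith
    unfold gg; field_simp; ring
  have c : 1 / 4 ≤ (1 - θ ^ 2 * x ^ 2) * (1 - θ ^ 2 * x' ^ 2) := by nlinarith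
  rw [e, div_pow, div_le_iff₀ (by positivity), mul_pow, neg_sq, mul_pow, mul_pow]
  have c1 : (x + x') ^ 2 ≤ 4 := by nlinarith [sq_nonneg (x - x')]
  have c2 : (1 - θ ^ 2) ^ 2 ≤ 1 := by nlinarith [sq_nonneg θ]
  have c3 : θ ^ 2 * (1 - θ ^ 2) ^ 2 * (x + x') ^ 2 ≤ 1 * 1 * 4 := by gcongr; linarith
  have c4 : 1 / 16 ≤ ((1 - θ ^ 2 * x ^ 2) * (1 - θ ^ 2 * x' ^ 2)) ^ 2 := by nlinarith
  nlinarith [mul_le_mul_of_nonneg_right c3 (sq_nonneg (x - x')),
    mul_le_mul_of_nonneg_right c4 (sq_nonneg (x - x'))]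

lemma abs_zz_le (hθ : θ ^ 2 ≤ 1 / 2) : |zz G θ T u v h| ≤ 3 / 4 := by
  have h1 : |θ| ≤ 3 / 4 := by
    rw [← sq_le_sq₀ (abs_nonneg _) (by norm_num), sq_abs]; linarith
  unfold zz; split_ifs
  · norm_num
  · rw [abs_mul]
    exact (mul_le_of_le_one_right (abs_nonneg _) (abs_xm_lt (by linarith) _ _ _ _).le).trans h1

lemma zeta_alg {z x z' x' : ℝ} (hz : |z| ≤ 3 / 4) (hz' : |z'| ≤ 3 / 4) (hx : |x| < 1)
    (hx' : |x'| < 1) : |z / (1 + z * x)| ≤ 3 ∧
    (z / (1 + z * x) - z' / (1 + z' * x')) ^ 2 ≤ 512 * ((z - z') ^ 2 + (x - x') ^ 2) := by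
  have a : 1 / 4 ≤ 1 + z * x := by
    have : |z * x| ≤ 3 / 4 := by
      rw [abs_mul]; exact (mul_le_of_le_one_right (abs_nonneg _) hx.le).trans hz
    linarith [(abs_le.1 this).1]
  have a' : 1 / 4 ≤ 1 + z' * x' := by
    have : |z' * x'| ≤ 3 / 4 := by
      rw [abs_mul]; exact (mul_le_of_le_one_right (abs_nonneg _) hx'.le).trans hz'
    linarith [(abs_le.1 this).1]
  constructor
  · rw [abs_div, abs_of_pos (show 0 < 1 + z * x by linarith), div_le_iff₀ (by linarith)]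
    linarith
  have e : z / (1 + z * x) - z' / (1 + z' * x') =
      ((z - z') - z * z' * (x - x')) / ((1 + z * x) * (1 + z' * x')) := by
    have : 1 + z * x ≠ 0 := by linarith
    have : 1 + z' * x' ≠ 0 := by linarith
    field_simp; ring
  have c : 1 / 16 ≤ (1 + z * x) * (1 + z' * x') := by nlinarith
  rw [e, div_pow, div_le_iff₀ (by positivity)]
  have c4 : 1 / 256 ≤ ((1 + z * x) * (1 + z' * x')) ^ 2 := by nlinarith
  have c1 : (z * z') ^ 2 ≤ 1 := by
    rw [sq_le_one_iff_abs_le_one, abs_mul]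
    exact mul_le_one₀ (by linarith) (abs_nonneg _) (by linarith)
  have c2 := mul_le_mul_of_nonneg_right c1 (sq_nonneg (x - x'))
  have c3 := mul_le_mul_of_nonneg_right c4
    (add_nonneg (sq_nonneg (z - z')) (sq_nonneg (x - x')))
  nlinarith [sq_nonneg ((z - z') + z * z' * (x - x'))]

/-- difference of messages -/
noncomputable def dx (G : SimpleGraph V) (θ : ℝ) (T T' : Finset V) (u v : V)
    (p : (V → ℝ) × (V → ℝ)) : ℝ := (xm G θ T u v p.1 - xm G θ T' u v p.2) ^ 2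

/-- growth rate of the difference at an observation -/
noncomputable def gr (G : SimpleGraph V) (θ : ℝ) (T T' : Finset V) (u v w : V)
    (p : (V → ℝ) × (V → ℝ)) : ℝ :=
  60000 * ((av G θ T u v w p.1 - av G θ T' u v w p.2) ^ 2 +
    (av G θ T u v w p.1 ^ 2 + av G θ T' u v w p.2 ^ 2) *
      (dx G θ T T' u v p + dx G θ T T' v u p + dx G θ T T' w w p))

lemma dx_nonneg (T T' : Finset V) (u v : V) (p : (V → ℝ) × (V → ℝ)) : 0 ≤ dx G θ T T' u v p :=
  sq_nonneg _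

lemma gr_nonneg (T T' : Finset V) (u v w : V) (p : (V → ℝ) × (V → ℝ)) :
    0 ≤ gr G θ T T' u v w p := by
  have := dx_nonneg (G := G) (θ := θ) T T' u v p
  have := dx_nonneg (G := G) (θ := θ) T T' v u p
  have := dx_nonneg (G := G) (θ := θ) T T' w w p
  unfold gr; positivity

lemma abs_lt_of_sq (hθ : θ ^ 2 ≤ 1 / 2) : |θ| < 1 := by
  rw [← sq_lt_one_iff_abs_lt_one]; linarith

lemma gr_alg {a a' x x' dz d2 dm : ℝ} (hx : |x| < 1) (hx' : |x'| < 1) (hd2 : 0 ≤ d2)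
    (hdz : dz ≤ 512 * (d2 + (x - x') ^ 2)) (hdm : 0 ≤ dm) :
    100 * ((a * (1 - x ^ 2) - a' * (1 - x' ^ 2)) ^ 2 + ((a * (1 - x ^ 2)) ^ 2 +
      (a' * (1 - x' ^ 2)) ^ 2) * ((x - x') ^ 2 + dz + dm)) ≤
      60000 * ((a - a') ^ 2 + (a ^ 2 + a' ^ 2) * ((x - x') ^ 2 + d2 + dm)) := by
  have b : x ^ 2 < 1 := by rwa [sq_lt_one_iff_abs_lt_one]
  have b' : x' ^ 2 < 1 := by rwa [sq_lt_one_iff_abs_lt_one]
  have c1 : (1 - x ^ 2) ^ 2 ≤ 1 := by nlinarith [sq_nonneg x]
  have c1' : (1 - x' ^ 2) ^ 2 ≤ 1 := by nlinarith [sq_nonneg x']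
  have c2 : (x + x') ^ 2 ≤ 4 := by nlinarith [sq_nonneg (x - x')]
  have e : a * (1 - x ^ 2) - a' * (1 - x' ^ 2) =
      (a - a') * (1 - x ^ 2) - a' * (x - x') * (x + x') := by ring
  have d1 : ((a - a') * (1 - x ^ 2)) ^ 2 ≤ (a - a') ^ 2 := by
    rw [mul_pow]; exact mul_le_of_le_one_right (sq_nonneg _) c1
  have d3 : (a' * (x - x') * (x + x')) ^ 2 ≤ (a' * (x - x')) ^ 2 * 4 := by
    rw [mul_pow]; gcongr
  have d4 : (a * (1 - x ^ 2) - a' * (1 - x' ^ 2)) ^ 2 ≤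
      2 * (a - a') ^ 2 + 8 * (a' ^ 2 * (x - x') ^ 2) := by
    rw [e]; nlinarith [sq_nonneg ((a - a') * (1 - x ^ 2) + a' * (x - x') * (x + x'))]
  have d5 : (a * (1 - x ^ 2)) ^ 2 + (a' * (1 - x' ^ 2)) ^ 2 ≤ a ^ 2 + a' ^ 2 := by
    rw [mul_pow, mul_pow]
    exact add_le_add (mul_le_of_le_one_right (sq_nonneg _) c1)
      (mul_le_of_le_one_right (sq_nonneg _) c1')
  have d6 : ((a * (1 - x ^ 2)) ^ 2 + (a' * (1 - x' ^ 2)) ^ 2) * ((x - x') ^ 2 + dz + dm) ≤
      (a ^ 2 + a' ^ 2) * (513 * ((x - x') ^ 2 + d2 + dm)) :=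
    (mul_le_mul_of_nonneg_left (by linarith) (by positivity)).trans
      (mul_le_mul_of_nonneg_right d5 (by positivity))
  have r1 : 0 ≤ a ^ 2 * (x - x') ^ 2 := by positivity
  have r2 : 0 ≤ a' ^ 2 * (x - x') ^ 2 := by positivity
  have r3 : 0 ≤ (a ^ 2 + a' ^ 2) * (d2 + dm) := by positivity
  have r4 := sq_nonneg (a - a')
  linarith

lemma continuous_xm_stp (hθ : |θ| < 1) : Continuous fun y : I => xm G θ T u v (stp G θ T w y h) := by
  simp only [xm_stp hθ]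
  exact continuous_const.add ((continuous_ph (abs_mm_lt hθ _ _ _).le
    (abs_mm_lt hθ _ _ _).le).mul continuous_const)

lemma dx_step (hG : G.IsTree) (hθ : θ ^ 2 ≤ 1 / 2) (huv : Ok G u v) (T T' : Finset V) (w : V)
    (p : (V → ℝ) × (V → ℝ)) :
    ∫ y : I, dx G θ T T' u v (stp G θ T w y p.1, stp G θ T' w y p.2) ≤
      dx G θ T T' u v p + gr G θ T T' u v w p := by
  have hθ1 := abs_lt_of_sq hθ
  by_cases hw : w ∈ Br G u v
  swap
  · have h1 : ∀ T, w ∉ Te G T u v := fun T h => hw (Finset.mem_filter.1 h).2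
    simp only [dx, xm_stp hθ1, Cv_of_not_mem (h1 _), mul_zero, add_zero]
    simpa using gr_nonneg T T' u v w p
  have z1 := zeta_alg (abs_zz_le (G := G) (T := T) (u := u) (v := v) (h := p.1) hθ)
    (abs_zz_le (G := G) (T := T') (u := u) (v := v) (h := p.2) hθ)
    (abs_xm_lt (G := G) hθ1 T u v p.1) (abs_xm_lt (G := G) hθ1 T' u v p.2)
  have key := step_bound (D := xm G θ T u v p.1 - xm G θ T' u v p.2)
    ((abs_Cv_le hθ1).trans (abs_av_le hθ1)) z1.1 (abs_mm_lt hθ1 _ _ _).le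
    (abs_mm_lt hθ1 _ _ _).le (abs_mm_lt hθ1 _ _ _).le (abs_mm_lt hθ1 _ _ _).le
    (tilt (T := T) (h := p.1) hG hθ1 huv hw) (tilt (T := T') (h := p.2) hG hθ1 huv hw)
  refine le_trans (le_of_eq ?_) (key.trans ?_)
  · congr 1; funext y
    simp only [dx, xm_stp hθ1]; ring
  · refine add_le_add le_rfl ?_
    rw [Cv_eq hθ1, Cv_eq hθ1]
    unfold gr dx
    rw [xm_self hG, xm_self hG]
    refine gr_alg (abs_xm_lt hθ1 _ _ _ _) (abs_xm_lt hθ1 _ _ _ _) (sq_nonneg _)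
      (z1.2.trans ?_) (sq_nonneg _)
    refine mul_le_mul_of_nonneg_left (add_le_add ?_ le_rfl) (by norm_num)
    unfold zz
    split_ifs
    · simpa using sq_nonneg _
    · rw [← mul_sub, mul_pow]
      exact mul_le_of_le_one_left (sq_nonneg _) (by linarith)

end Vale.Agent.P161
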