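import Vale.Agent.P161.Rate

/-! Comparison of the covariances of two coupled states: probabilistic part. -/

namespace Vale.Agent.P161

open Vale.Agent.P151 MeasureTheory Measure Filter Topology Function
open scoped Classical ENNReal

variable {V : Type*} {G : SimpleGraph V} [G.LocallyFinite] {θ : ℝ} {d : ℕ} {a b c o u v w : V}
  {r N M : ℕ}

/-- an invariant coupling of two copies of the field -/
structure St (G : SimpleGraph V) [G.LocallyFinite] (θ : ℝ) (d : ℕ) {Ω Ω' : Type*}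
    [MeasurableSpace Ω] [MeasurableSpace Ω'] (P : Measure Ω) (σ : Ω → V → Bool) (k : Ω → V → ℝ)
    (H p : ℝ) (π : Measure Ω') (h h' : Ω' → V → ℝ) : Prop extends Pt G θ d P σ k H p where
  probπ : IsProbabilityMeasure π
  m1 : Measurable h
  m2 : Measurable h'
  b1 : ∀ ω v, |h ω v| ≤ H
  b2 : ∀ ω v, |h' ω v| ≤ H
  law1 : π.map h = P.map k
  law2 : π.map h' = P.map k
  inv : ∀ g : G ≃g G, π.map (fun ω => (fun v => h ω (g v), fun v => h' ω (g v))) =
    π.map fun ω => (h ω, h' ω)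
  p0 : 0 < p
  p1 : p ≤ 1

/-- exponential scale -/
noncomputable def ll (θ : ℝ) (d : ℕ) (p : ℝ) (j : ℕ) : ℝ := eta θ p / 24 * (d - 1) ^ (j + 1)

/-- truncation level -/
noncomputable def xx (θ p : ℝ) (j : ℕ) : ℝ := 2 + 2 * (j + 24 / eta θ p)

variable (G θ) in
/-- covariance with the root -/
noncomputable def Cw (x : V → V → ℝ) (r : ℕ) (o w : V) : ℝ := ap G θ x r o w * (1 - x o o ^ 2)

lemma XX_comp (g : G ≃g G) (h : V → ℝ) :
    XX G θ (fun v => h (g v)) = fun a b => XX G θ h (g a) (g b) := by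
  funext a b
  simpa using XX_map (θ := θ) (h := h) (u := g a) (v := g b) g.symm

namespace St

variable {Ω Ω' : Type*} [MeasurableSpace Ω] [MeasurableSpace Ω'] {P : Measure Ω} {σ : Ω → V → Bool}
  {k : Ω → V → ℝ} {H p : ℝ} {π : Measure Ω'} {h h' : Ω' → V → ℝ} (S : St G θ d P σ k H p π h h')
include S

lemma symm : St G θ d P σ k H p π h' h :=
  ⟨S.toPt, S.probπ, S.m2, S.m1, S.b2, S.b1, S.law2, S.law1, fun g => by
    have := S.m1; have := S.m2
    have := congrArg (Measure.map Prod.swap) (S.inv g)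
    rwa [map_map (by fun_prop) (by fun_prop), map_map (by fun_prop) (by fun_prop)] at this,
    S.p0, S.p1⟩

lemma tr {f : (V → ℝ) → ℝ} (hf : Measurable f) : ∫ ω, f (h ω) ∂π = ∫ ω, f (k ω) ∂P := by
  rw [← integral_map S.m1.aemeasurable hf.aestronglyMeasurable, S.law1,
    integral_map S.mh.aemeasurable hf.aestronglyMeasurable]

lemma conv1 : ∀ᵐ ω ∂π, Conv G θ (h ω) := by
  have := countable_of_tree S.tree
  rw [← ae_map_iff S.m1.aemeasurable measurableSet_Conv, S.law1,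
    ae_map_iff S.mh.aemeasurable measurableSet_Conv]
  exact S.conv

lemma invX (g : G ≃g G) {F : (V → V → ℝ) → (V → V → ℝ) → ℝ}
    (hF : Measurable fun q : (V → V → ℝ) × (V → V → ℝ) => F q.1 q.2) :
    ∫ ω, F (XX G θ (h ω)) (XX G θ (h' ω)) ∂π = ∫ ω, F (fun a b => XX G θ (h ω) (g a) (g b))
      (fun a b => XX G θ (h' ω) (g a) (g b)) ∂π := by
  have := S.m1; have := S.m2
  have m : Measurable fun q : (V → ℝ) × (V → ℝ) => F (XX G θ q.1) (XX G θ q.2) :=
    hF.comp (f := fun q : (V → ℝ) × (V → ℝ) => (XX G θ q.1, XX G θ q.2)) (by fun_prop)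
  have := integral_map (μ := π) (φ := fun ω => (h ω, h' ω)) (by fun_prop) m.aestronglyMeasurable
  rw [← S.inv g, integral_map (by fun_prop) m.aestronglyMeasurable] at this
  simpa only [XX_comp] using this.symm

lemma X1 (ω : Ω') (u v : V) : |XX G θ (h ω) u v| < 1 := S.abs_XX_lt (S.b1 ω) u v

lemma dm_eq (o u : V) : ∫ ω, (XX G θ (h ω) u u - XX G θ (h' ω) u u) ^ 2 ∂π =
    ∫ ω, (XX G θ (h ω) o o - XX G θ (h' ω) o o) ^ 2 ∂π := by
  obtain ⟨g, h1, -⟩ := exists_swap S.tree S.reg o u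
  simpa only [h1] using (S.invX g (F := fun x x' => (x o o - x' o o) ^ 2) (by fun_prop)).symm

lemma sq_le (ω : Ω') (u v : V) : (XX G θ (h ω) u v - XX G θ (h' ω) u v) ^ 2 ≤ 4 := by
  have a := abs_lt.1 (S.X1 ω u v)
  have b := abs_lt.1 (S.symm.X1 ω u v)
  nlinarith

lemma tr_lam (j N : ℕ) (u v : V) {D : Ω' → ℝ} (hD : BM D) (D0 : ∀ ω, 0 ≤ D ω) (D4 : ∀ ω, D ω ≤ 4) :
    ∫ ω, Lam G θ (XX G θ (h ω)) N u v * D ω ∂π ≤
      xx θ p j * (∫ ω, D ω ∂π + 4 * Real.exp (-ll θ d p j)) ∧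
    ∫ ω, Lam G θ (XX G θ (h ω)) N u v ^ 2 * D ω ∂π ≤
      xx θ p j ^ 2 * (∫ ω, D ω ∂π + 4 * Real.exp (-ll θ d p j)) := by
  have := S.probπ; have := S.fact; have := S.m1
  have e0 := S.eta_pos S.p0
  have x0 : 0 < xx θ p j := by unfold xx; positivity
  have h3 : (3 : ℝ) ≤ d := by exact_mod_cast S.three
  have h4 : 2 ≤ ll θ d p j * xx θ p j := by
    have a : (1 : ℝ) ≤ (d - 1) ^ (j + 1) := one_le_pow₀ (by linarith)
    have b : 2 * (24 / eta θ p) ≤ xx θ p j := by unfold xx; linarith [(Nat.cast_nonneg j : (0 : ℝ) ≤ _)]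
    calc (2 : ℝ) = eta θ p / 24 * 1 * (2 * (24 / eta θ p)) := by field_simp
      _ ≤ _ := by unfold ll; gcongr
  have key : ∀ y, 0 ≤ y → ∫ ω, y * (D ω + 4 * Real.exp (ll θ d p j *
      (Lam G θ (XX G θ (h ω)) N u v - xx θ p j))) ∂π ≤ y * (∫ ω, D ω ∂π + 4 * Real.exp (-ll θ d p j)) := by
    intro y hy
    rw [integral_const_mul, BM.iadd hD (by fun_prop), integral_const_mul, S.tr (f := fun x =>
      Real.exp (ll θ d p j * (Lam G θ (XX G θ x) N u v - xx θ p j))) (by fun_prop)]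
    gcongr
    exact S.lam_tail S.p0 S.p1 j N u v
  have t := fun ω => trunc (zero_le_one.trans (S.one_le_Lam (S.X1 ω) N u v)) x0 h4
  refine ⟨le_trans (BM.imono (by fun_prop) (by fun_prop) fun ω => ?_) (key _ x0.le),
    le_trans (BM.imono (by fun_prop) (by fun_prop) fun ω => ?_) (key _ (sq_nonneg _))⟩
  · nlinarith [mul_le_mul_of_nonneg_right (t ω).1 (D0 ω), mul_le_mul_of_nonneg_left (D4 ω)
      (mul_pos x0 (Real.exp_pos (ll θ d p j * (Lam G θ (XX G θ (h ω)) N u v - xx θ p j)))).le]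
  · nlinarith [mul_le_mul_of_nonneg_right (t ω).2 (D0 ω), mul_le_mul_of_nonneg_left (D4 ω)
      (mul_pos (pow_pos x0 2) (Real.exp_pos (ll θ d p j *
        (Lam G θ (XX G θ (h ω)) N u v - xx θ p j)))).le]

lemma rate (j N : ℕ) (o : V) {a : ℝ} (a1 : a ^ 2 ≤ 1) :
    ∑ r ∈ Finset.range N, ∑ w ∈ desc G r o o, ∫ ω, (2 * a ^ 2 * (Cw G θ (XX G θ (h ω)) r o w -
      Cw G θ (XX G θ (h' ω)) r o w) ^ 2 + 8 * a ^ 4 * (Cw G θ (XX G θ (h' ω)) r o w ^ 2 *
        (XX G θ (h ω) w w - XX G θ (h' ω) w w) ^ 2)) ∂π ≤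
      4 * a ^ 2 * ∫ ω, DA G θ (XX G θ (h ω)) (XX G θ (h' ω)) N o o ∂π + 24 * a ^ 2 * (xx θ p j *
        (∫ ω, (XX G θ (h ω) o o - XX G θ (h' ω) o o) ^ 2 ∂π + 4 * Real.exp (-ll θ d p j))) := by
  have := S.probπ; have := S.fact; have := S.m1; have := S.m2
  have k1 : ∀ r, ∀ w ∈ desc G r o o, ∫ ω, Cw G θ (XX G θ (h' ω)) r o w ^ 2 *
      (XX G θ (h ω) w w - XX G θ (h' ω) w w) ^ 2 ∂π ≤ ∫ ω, ap G θ (XX G θ (h' ω)) r o w ^ 2 *
      (XX G θ (h ω) o o - XX G θ (h' ω) o o) ^ 2 ∂π := by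
    intro r w hw
    obtain ⟨g, h1, h2⟩ := exists_swap S.tree S.reg o w
    have := S.invX g (F := fun x x' => ap G θ x' r o w ^ 2 * (x o o - x' o o) ^ 2) (by fun_prop)
    simp only [← ap_map S.tree g hw, h1, h2] at this
    rw [this]
    refine BM.imono' (by unfold Cw; fun_prop) (by fun_prop) ?_
    filter_upwards [S.symm.conv1] with ω hω
    rw [Cw, S.ap_symm hω (S.b2 ω) hw, mul_pow]
    refine mul_le_mul_of_nonneg_right (mul_le_of_le_one_right (sq_nonneg _) ?_) (sq_nonneg _)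
    have := (sq_lt_one_iff_abs_lt_one _).2 (S.symm.X1 ω w w)
    nlinarith [sq_nonneg (XX G θ (h' ω) w w)]
  refine (Finset.sum_le_sum fun r _ => Finset.sum_le_sum (g := fun w => ∫ ω, (4 * a ^ 2 *
    (ap G θ (XX G θ (h ω)) r o w - ap G θ (XX G θ (h' ω)) r o w) ^ 2 + 24 * a ^ 2 *
    (ap G θ (XX G θ (h' ω)) r o w ^ 2 * (XX G θ (h ω) o o - XX G θ (h' ω) o o) ^ 2)) ∂π)
    fun w hw => ?_).trans ?_
  · have a2 := mul_le_mul_of_nonneg_left (k1 r w hw) (show 0 ≤ 8 * a ^ 4 by positivity)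
    rw [BM.iadd (by unfold Cw; fun_prop) (by unfold Cw; fun_prop), integral_const_mul (8 * a ^ 4)]
    refine (add_le_add_right a2 _).trans ?_
    rw [← integral_const_mul, ← BM.iadd (by unfold Cw; fun_prop) (by fun_prop)]
    refine BM.imono (by unfold Cw; fun_prop) (by fun_prop) fun ω => ?_
    have b := abs_lt.1 (S.X1 ω o o)
    have b' := abs_lt.1 (S.symm.X1 ω o o)
    unfold Cw
    generalize ap G θ (XX G θ (h ω)) r o w = A, ap G θ (XX G θ (h' ω)) r o w = A',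
      XX G θ (h ω) o o = m at *
    generalize XX G θ (h' ω) o o = m' at *
    have c0 : m ^ 2 < 1 := by nlinarith only [b.1, b.2]
    have c1 : (1 - m ^ 2) ^ 2 ≤ 1 := by nlinarith only [sq_nonneg m, c0]
    have c2 : (m + m') ^ 2 ≤ 4 := by nlinarith
    have c3 : (A * (1 - m ^ 2) - A' * (1 - m' ^ 2)) ^ 2 ≤
        2 * (A - A') ^ 2 + 8 * (A' ^ 2 * (m - m') ^ 2) := by
      nlinarith [sq_nonneg ((A - A') * (1 - m ^ 2) + A' * (m - m') * (m + m')),
        mul_le_mul_of_nonneg_left c1 (sq_nonneg (A - A')),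
        mul_le_mul_of_nonneg_left c2 (show 0 ≤ A' ^ 2 * (m - m') ^ 2 by positivity)]
    nlinarith [mul_le_mul_of_nonneg_left c3 (sq_nonneg a), mul_le_mul_of_nonneg_left a1
      (show 0 ≤ a ^ 2 * (A' ^ 2 * (m - m') ^ 2) by positivity)]
  · have t := (S.symm.tr_lam j N o o (D := fun ω => (XX G θ (h ω) o o - XX G θ (h' ω) o o) ^ 2)
      (by fun_prop) (fun _ => sq_nonneg _) fun ω => S.sq_le ω o o).1
    refine le_trans ?_ (add_le_add_right (mul_le_mul_of_nonneg_left t (by positivity)) _)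
    rw [← Finset.sum_congr rfl fun r _ => BM.isum _ fun w _ => by fun_prop,
      ← BM.isum _ fun r _ => by fun_prop, ← integral_const_mul, ← integral_const_mul,
      ← BM.iadd (by unfold DA; fun_prop) (by fun_prop)]
    refine BM.imono (by fun_prop) (by unfold DA; fun_prop) fun ω => ?_
    simp only [Finset.sum_add_distrib, ← Finset.mul_sum, ← Finset.sum_mul, DA]
    gcongr
    exact S.sq_lev_le (S.symm.X1 ω) (by omega) o o

variable {ρ : ℝ} (hρ : rho θ d H ≤ ρ) (ρ1 : ρ < 1)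
include hρ ρ1

lemma dx_exp (o : V) (huv : G.Adj u v) : ∫ ω, (XX G θ (h ω) u v - XX G θ (h' ω) u v) ^ 2 ∂π ≤
    64 / (1 - ρ ^ 2) ^ 2 * ∫ ω, (XX G θ (h ω) o o - XX G θ (h' ω) o o) ^ 2 ∂π := by
  have := S.probπ; have := S.fact; have := S.m1; have := S.m2
  refine (BM.imono' (g := fun ω => 32 / (1 - ρ ^ 2) ^ 2 * ((XX G θ (h ω) u u - XX G θ (h' ω) u u) ^ 2
    + (XX G θ (h ω) v v - XX G θ (h' ω) v v) ^ 2)) (by fun_prop) (by fun_prop) (by
    filter_upwards [S.conv1, S.symm.conv1] with ω h1 h2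
    exact S.dx_le h1 h2 (S.b1 ω) (S.b2 ω) hρ ρ1 huv)).trans_eq ?_
  rw [integral_const_mul, BM.iadd (by fun_prop) (by fun_prop), S.dm_eq o u, S.dm_eq o v]; ring

lemma DA2 (j N : ℕ) (o : V) : ∫ ω, DA G θ (XX G θ (h ω)) (XX G θ (h' ω)) N o o ∂π ≤
    32768 * d / (θ ^ 2 * (1 - ρ ^ 2) ^ 4) * xx θ p j ^ 2 *
      (∫ ω, (XX G θ (h ω) o o - XX G θ (h' ω) o o) ^ 2 ∂π + Real.exp (-ll θ d p j)) := by
  have := S.probπ; have := S.fact; have := S.m1; have := S.m2
  have θ0 := S.pos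
  obtain ⟨ω0⟩ := nonempty_of_isProbabilityMeasure π
  have ρ0 : 0 ≤ ρ := (abs_nonneg _).trans ((S.abs_XX_le (S.b1 ω0) o o).trans hρ)
  have γ0 : 0 < 1 - ρ ^ 2 := by nlinarith
  have γ1 : 1 - ρ ^ 2 ≤ 1 := by nlinarith
  have S0 : ∀ ω y, 0 ≤ SS G θ (XX G θ (h ω)) (XX G θ (h' ω)) N y := fun ω y =>
    Finset.sum_nonneg fun c _ => mul_nonneg (sq_nonneg _)
      (by linarith [S.one_le_Lam (S.X1 ω) N c y, S.one_le_Lam (S.symm.X1 ω) N c y])
  have k1 : ∀ r, ∀ y ∈ desc G r o o, ∫ ω, ap G θ (XX G θ (h ω)) r o y *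
      SS G θ (XX G θ (h ω)) (XX G θ (h' ω)) N y ∂π ≤ ∫ ω, ap G θ (XX G θ (h ω)) r o y *
      (SS G θ (XX G θ (h ω)) (XX G θ (h' ω)) N o / (1 - ρ ^ 2)) ∂π := by
    intro r y hy
    obtain ⟨g, h1, h2⟩ := exists_swap S.tree S.reg o y
    have := S.invX g (F := fun x x' => ap G θ x r o y * SS G θ x x' N y) (by unfold SS; fun_prop)
    have e : ∀ x x' : V → V → ℝ, SS G θ (fun a b => x (g a) (g b)) (fun a b => x' (g a) (g b)) N y =
        SS G θ x x' N o := fun x x' => by simp only [SS, Lam_map, ← h2, sum_ch_map]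
    simp only [← ap_map S.tree g hy, h1, h2, e] at this
    rw [this]
    refine BM.imono' (by unfold SS; fun_prop) (by unfold SS; fun_prop) ?_
    filter_upwards [S.conv1] with ω hω
    rw [mul_div_assoc', le_div_iff₀ γ0, mul_right_comm]
    refine mul_le_mul_of_nonneg_right ?_ (S0 ω o)
    have a1 := S.ap_symm hω (S.b1 ω) hy
    have a2 := (S.ap_bound (S.X1 ω) hy).1
    have a3 := (S.ap_bound (S.X1 ω) (desc_symm S.tree S.reg hy)).1
    have a4 := abs_le.1 ((S.abs_XX_le (S.b1 ω) y y).trans hρ)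
    have a5 : XX G θ (h ω) y y ^ 2 ≤ ρ ^ 2 := sq_le_sq' a4.1 a4.2
    nlinarith [mul_le_mul_of_nonneg_left a5 a3.le, mul_nonneg a2.le (sq_nonneg (XX G θ (h ω) o o))]
  have k2 : ∀ {h : Ω' → V → ℝ}, (∀ ω v, |h ω v| ≤ H) → ∀ ω, ∀ c ∈ ch G o o,
      θ ^ 2 * (1 - ρ ^ 2) * Lam G θ (XX G θ (h ω)) N c o ≤ Lam G θ (XX G θ (h ω)) (N + 1) o o := by
    intro h hb ω c hc
    have l := S.one_le_Lam (S.abs_XX_lt (hb ω)) N
    rw [Lam]
    refine le_trans ?_ (le_add_of_nonneg_of_le zero_le_one (Finset.single_le_sum (fun c _ =>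
      mul_nonneg (mul_nonneg θ0.le (gg_nonneg θ0.le S.lt_one.le (S.abs_XX_lt (hb ω) _ _)))
        (zero_le_one.trans (l _ _))) hc))
    refine mul_le_mul_of_nonneg_right ?_ (zero_le_one.trans (l _ _))
    rw [sq, mul_assoc]
    exact mul_le_mul_of_nonneg_left (gg_ge θ0.le S.half ρ1 ((S.abs_XX_le (hb ω) _ _).trans hρ)) θ0.le
  calc _ ≤ ∫ ω, 128 * ∑ r ∈ Finset.range N, θ ^ r * ∑ y ∈ desc G r o o, ap G θ (XX G θ (h ω)) r o y *
        SS G θ (XX G θ (h ω)) (XX G θ (h' ω)) N y ∂π :=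
        BM.imono (by unfold DA; fun_prop) (by unfold SS; fun_prop) fun ω =>
          S.DA_le (S.X1 ω) (S.symm.X1 ω) (by omega) o o
    _ ≤ ∫ ω, 128 * ∑ r ∈ Finset.range N, θ ^ r * ∑ y ∈ desc G r o o, ap G θ (XX G θ (h ω)) r o y *
        (SS G θ (XX G θ (h ω)) (XX G θ (h' ω)) N o / (1 - ρ ^ 2)) ∂π := by
        rw [integral_const_mul, integral_const_mul, BM.isum _ fun _ _ => by unfold SS; fun_prop,
          BM.isum _ fun _ _ => by unfold SS; fun_prop]
        refine mul_le_mul_of_nonneg_left (Finset.sum_le_sum fun r _ => ?_) (by norm_num)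
        rw [integral_const_mul, integral_const_mul, BM.isum _ fun _ _ => by unfold SS; fun_prop,
          BM.isum _ fun _ _ => by unfold SS; fun_prop]
        exact mul_le_mul_of_nonneg_left (Finset.sum_le_sum (k1 r)) (by positivity)
    _ ≤ ∫ ω, ∑ c ∈ ch G o o, 256 / (θ ^ 2 * (1 - ρ ^ 2) ^ 2) *
        (Lam G θ (XX G θ (h ω)) (N + 1) o o ^ 2 * (XX G θ (h ω) c o - XX G θ (h' ω) c o) ^ 2 +
        Lam G θ (XX G θ (h' ω)) (N + 1) o o ^ 2 * (XX G θ (h ω) c o - XX G θ (h' ω) c o) ^ 2) ∂π := by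
        refine BM.imono (by unfold SS; fun_prop) (by fun_prop) fun ω => ?_
        simp only [← Finset.sum_mul, ← mul_assoc]
        refine (mul_le_mul_of_nonneg_right (mul_le_mul_of_nonneg_left (S.lev_le (S.X1 ω)
          (M := N + 1) (by omega) o o) (by norm_num)) (div_nonneg (S0 ω o) γ0.le)).trans ?_
        rw [SS, Finset.sum_div, Finset.mul_sum]
        refine Finset.sum_le_sum fun c hc => ?_
        have a1 := k2 S.b1 ω c hc
        have a2 := k2 S.b2 ω c hc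
        have a3 := S.one_le_Lam (S.X1 ω) (N + 1) o o
        generalize Lam G θ (XX G θ (h ω)) (N + 1) o o = A at *
        generalize Lam G θ (XX G θ (h' ω)) (N + 1) o o = A' at *
        rw [← add_mul, mul_div_assoc', div_le_iff₀ γ0, div_mul_eq_mul_div, div_mul_eq_mul_div,
          le_div_iff₀ (by positivity)]
        have a4 := mul_le_mul_of_nonneg_left (add_le_add a1 a2) (show 0 ≤ A by linarith)
        have a5 : A * (A + A') ≤ 2 * (A ^ 2 + A' ^ 2) := by nlinarith [sq_nonneg (A - A')]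
        nlinarith [mul_le_mul_of_nonneg_left (a4.trans a5)
          (mul_nonneg (sq_nonneg (XX G θ (h ω) c o - XX G θ (h' ω) c o)) γ0.le)]
    _ ≤ ∑ c ∈ ch G o o, 256 / (θ ^ 2 * (1 - ρ ^ 2) ^ 2) * (2 * (xx θ p j ^ 2 * (64 / (1 - ρ ^ 2) ^ 2 *
        (∫ ω, (XX G θ (h ω) o o - XX G θ (h' ω) o o) ^ 2 ∂π + Real.exp (-ll θ d p j))))) := by
        rw [BM.isum _ fun _ _ => by fun_prop]
        refine Finset.sum_le_sum fun c hc => ?_
        rw [integral_const_mul, BM.iadd (by fun_prop) (by fun_prop)]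
        refine mul_le_mul_of_nonneg_left ?_ (by positivity)
        have t1 := (S.tr_lam j (N + 1) o o (D := fun ω => (XX G θ (h ω) c o - XX G θ (h' ω) c o) ^ 2)
          (by fun_prop) (fun _ => sq_nonneg _) fun ω => S.sq_le ω c o).2
        have t2 := (S.symm.tr_lam j (N + 1) o o
          (D := fun ω => (XX G θ (h ω) c o - XX G θ (h' ω) c o) ^ 2)
          (by fun_prop) (fun _ => sq_nonneg _) fun ω => S.sq_le ω c o).2
        have t3 := S.dx_exp hρ ρ1 o (mem_ch.1 hc).1.symm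
        have t4 : 4 ≤ 64 / (1 - ρ ^ 2) ^ 2 := by rw [le_div_iff₀ (by positivity)]; nlinarith
        have t5 := mul_le_mul_of_nonneg_left (add_le_add t3 (mul_le_mul_of_nonneg_right t4
          (Real.exp_pos (-ll θ d p j)).le)) (sq_nonneg (xx θ p j))
        linarith
    _ ≤ _ := by
        have : ((ch G o o).card : ℝ) ≤ d := by exact_mod_cast card_ch_le (fun v => (S.reg v).le) o o
        have c0 : 0 ≤ ∫ ω, (XX G θ (h ω) o o - XX G θ (h' ω) o o) ^ 2 ∂π :=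
          integral_nonneg fun _ => sq_nonneg _
        rw [Finset.sum_const, nsmul_eq_mul]
        refine (mul_le_mul_of_nonneg_right this (by positivity)).trans_eq ?_
        field_simp; ring

end St

end Vale.Agent.P161
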