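import Vale.Agent.P161.Isi

/-! Noisy observations of the spins and the posterior means. -/

namespace Vale.Agent.P161

open Vale.Agent.P151 MeasureTheory Measure Filter Topology Function
open scoped Classical ENNReal

/-- the unit interval -/
abbrev II : Type := unitInterval

/-- observation indices -/
abbrev JJ (V : Type*) := V × ℤ

/-- spins and channel noise -/
abbrev OO (V : Type*) := (V → Bool) × (JJ V → II)

/-- signal strength at a scale -/
noncomputable def aa (k : ℤ) : ℝ := min 1 (16 ^ k)

lemma aa_pos (k : ℤ) : 0 < aa k := lt_min one_pos (by positivity)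

lemma aa_le (k : ℤ) : aa k ≤ 1 := min_le_left _ _

lemma abs_aa (k : ℤ) : |aa k| ≤ 1 := by rw [abs_of_pos (aa_pos k)]; exact aa_le k

lemma qf_symm {m : ℝ} (hm : |m| ≤ 1) (t : II) : qf (-m) (unitInterval.symm t) = -qf m t := by
  obtain ⟨y, hy, e⟩ := exists_Fc m t
  have : (unitInterval.symm t : ℝ) = Fc (-m) (-y) := by
    rw [unitInterval.coe_symm_eq, ← e]; unfold Fc; ring
  rw [this, qf_Fc (by rwa [abs_neg]) (by rwa [abs_neg]), ← e, qf_Fc hm hy]

@[fun_prop] lemma measurable_qf {α : Type*} [MeasurableSpace α] {f g : α → ℝ} (hf : Measurable f)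
    (hg : Measurable g) : Measurable fun x => qf (f x) (g x) :=
  continuous_qf.measurable.comp (hf.prodMk hg)

@[fun_prop] lemma BM.qf0 {α : Type*} [MeasurableSpace α] {g : α → II} (hg : Measurable g) :
    BM fun x => qf 0 (g x) := ⟨by fun_prop, 1, fun x => abs_qf_le (by simp) _⟩

lemma dens {m : ℝ} (hm : |m| ≤ 1) {g : ℝ → ℝ} (hg : Measurable g) :
    ∫ t : II, g (qf m t) = ∫ t : II, g (qf 0 t) * (1 + m * qf 0 t / 2) := by
  have h0 : ∀ t : II, 0 ≤ 1 + m * qf 0 t / 2 := fun t => by
    linarith [one_le_den hm (abs_qf_le (m := 0) (by simp) t)]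
  have key : ∀ {g : ℝ → ℝ}, Measurable g → ∫ y, g y ∂(((volume : Measure II).withDensity fun t =>
      ENNReal.ofReal (1 + m * qf 0 t / 2)).map fun t : II => qf 0 t) =
      ∫ t : II, g (qf 0 t) * (1 + m * qf 0 t / 2) := by
    intro g hg
    rw [integral_map (by fun_prop) hg.aestronglyMeasurable,
      integral_withDensity_eq_integral_toReal_smul (by fun_prop) (by simp)]
    simp only [ENNReal.toReal_ofReal (h0 _), smul_eq_mul, mul_comm]
  have : IsFiniteMeasure ((volume : Measure II).withDensity fun t =>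
      ENNReal.ofReal (1 + m * qf 0 t / 2)) :=
    isFiniteMeasure_withDensity_ofReal (BM.int (by fun_prop)).2
  rw [← key hg, ← integral_map (by fun_prop) hg.aestronglyMeasurable]
  congr 1
  refine ext_of_forall_integral_eq_of_IsFiniteMeasure fun f => ?_
  rw [key f.continuous.measurable, integral_map (by fun_prop) f.continuous.aestronglyMeasurable,
    integral_qf hm f.continuous.continuousOn,
    integral_qf (m := 0) (by simp) (g := fun y => f y * (1 + m * y / 2)) (by fun_prop)]
  congr 1; funext y; ring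

lemma dens_spin {m : ℝ} (hm : |m| ≤ 1) (s : Bool) {g : ℝ → ℝ} (hg : Measurable g) :
    ∫ t : II, g (spin s * qf m t) = ∫ t : II, g (qf 0 t) * (1 + m * spin s * qf 0 t / 2) := by
  cases s
  · have := unitInterval.measurePreserving_symm.integral_comp'
      (f := unitInterval.symmMeasurableEquiv) fun t : II => g (qf (-m) t)
    simp only [spin, Bool.false_eq_true, if_false, neg_mul, one_mul, ← qf_symm hm, mul_neg, mul_one]
    exact this.trans ((dens (by rwa [abs_neg]) hg).trans (by simp))
  · simpa [spin] using dens hm hg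

variable {V : Type*} {G : SimpleGraph V} {θ : ℝ} {μ : Measure (V → Bool)} {T : Finset V}
  {B S : Set (JJ V)} {K : ℤ} {j : JJ V} {z : JJ V → ℝ} {o u v : V}

/-- raw observation -/
noncomputable def yy (O : OO V) (j : JJ V) : ℝ := spin (O.1 j.1) * qf (aa j.2) (O.2 j)

/-- masked observations -/
noncomputable def zB (B : Set (JJ V)) (O : OO V) : JJ V → ℝ :=
  fun j => if j ∈ B then aa j.2 * yy O j else 0

/-- field created by observations -/
noncomputable def hh (z : JJ V → ℝ) (v : V) : ℝ := ∑' k, ell (z (v, k))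

/-- restriction of data -/
noncomputable def msk {ι : Type*} (B : Set ι) (z : ι → ℝ) : ι → ℝ := fun j => if j ∈ B then z j else 0

/-- geometric majorant -/
noncomputable def bb (K k : ℤ) : ℝ := if k ≤ K then 16 ^ k else 0

/-- scales bounded by `K` -/
def Sc (K : ℤ) (B : Set (JJ V)) : Prop := ∀ j ∈ B, j.2 ≤ K

/-- law of spins and noise -/
noncomputable abbrev PO (μ : Measure (V → Bool)) : Measure (OO V) := μ.prod (iid (JJ V))

lemma abs_yy (O : OO V) (j : JJ V) : |yy O j| ≤ 1 := by
  rw [yy, abs_mul, abs_spin, one_mul]; exact abs_qf_le (abs_aa _) _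

@[fun_prop] lemma BM.yy {α : Type*} [MeasurableSpace α] {f : α → OO V} (hf : Measurable f)
    (j : JJ V) : BM fun x => yy (f x) j :=
  ⟨by unfold P161.yy; fun_prop, 1, fun _ => abs_yy _ _⟩

lemma measurable_zB' {α : Type*} [MeasurableSpace α] {B : α → Set (JJ V)} {f : α → OO V}
    (hB : ∀ j, Measurable fun x => j ∈ B x) (hf : Measurable f) :
    Measurable fun x => zB (B x) (f x) :=
  measurable_pi_lambda _ fun j => Measurable.ite (measurableSet_setOfPred.2 (hB j))
    (by fun_prop) measurable_const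

@[fun_prop] lemma measurable_zB (B : Set (JJ V)) : Measurable (zB B) :=
  measurable_zB' (fun _ => measurable_const) measurable_id

@[fun_prop] lemma measurable_hh : Measurable (hh (V := V)) :=
  measurable_pi_lambda _ fun v => by
    have := measurable_ell
    unfold hh; fun_prop

@[fun_prop] lemma measurable_mk {ι : Type*} (B : Set ι) : Measurable (msk B) :=
  measurable_pi_lambda _ fun j => by unfold msk; split_ifs <;> fun_prop

lemma mk_zB (h : S ⊆ B) (O : OO V) : msk S (zB B O) = zB S O := by
  funext j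
  by_cases e : j ∈ S
  · simp [msk, zB, e, h e]
  · simp [msk, zB, e]

lemma abs_zB_le_aa (B : Set (JJ V)) (O : OO V) (j : JJ V) : |zB B O j| ≤ aa j.2 := by
  unfold zB; split_ifs
  · rw [abs_mul, abs_of_pos (aa_pos _)]
    exact mul_le_of_le_one_right (aa_pos _).le (abs_yy _ _)
  · simpa using (aa_pos _).le

lemma abs_ell_zB (hB : Sc K B) (O : OO V) (v : V) (k : ℤ) : |ell (zB B O (v, k))| ≤ 2 * bb K k := by
  by_cases e : (v, k) ∈ B
  · have := abs_zB_le_aa B O (v, k)
    rw [bb, if_pos (hB _ e)]
    exact (abs_ell_le (this.trans (aa_le _))).trans (by linarith [min_le_right 1 ((16 : ℝ) ^ k), this.trans (min_le_right _ _)])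
  · simp only [zB, e, if_false, ell_zero, abs_zero, bb]
    split_ifs <;> positivity

lemma hasSum_bb (K : ℤ) : HasSum (fun k => 2 * bb K k) (2 * (16 ^ K * (16 / 15))) := by
  refine HasSum.mul_left 2 ?_
  have hi : Injective fun n : ℕ => K - n := fun a b h => by simpa using h
  rw [← hi.hasSum_iff (f := bb K) fun k hk => if_neg fun h => hk ⟨(K - k).toNat, by simp only; omega⟩]
  have := (hasSum_geometric_of_lt_one (r := (1 / 16 : ℝ)) (by norm_num) (by norm_num)).mul_left
    ((16 : ℝ) ^ K)
  rw [show (16 / 15 : ℝ) = (1 - 1 / 16)⁻¹ by norm_num]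
  refine (congrArg (HasSum · _) ?_).mpr this
  funext n
  simp [bb, zpow_sub₀, div_eq_mul_inv]

lemma summable_zB (hB : Sc K B) (O : OO V) (v : V) : Summable fun k => ell (zB B O (v, k)) :=
  Summable.of_norm_bounded (hasSum_bb K).summable (abs_ell_zB hB O v)

lemma abs_hh_le (hB : Sc K B) (O : OO V) (v : V) : |hh (zB B O) v| ≤ 4 * 16 ^ K :=
  le_trans (b := 2 * (16 ^ K * (16 / 15)))
    (tsum_of_norm_bounded (f := fun k => ell (zB B O (v, k))) (hasSum_bb K) (abs_ell_zB hB O v))
    (by linarith [zpow_pos (show (0 : ℝ) < 16 by norm_num) K])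

lemma zB_insert (hj : j ∉ S) (O : OO V) :
    zB (insert j S) O = update (zB S O) j (aa j.2 * yy O j) := by
  funext i
  by_cases e : i = j
  · subst e; simp [zB]
  · simp [zB, e]

lemma zB_update (hj : j ∉ S) (O : OO V) (t : II) : zB S (O.1, update O.2 j t) = zB S O := by
  funext i
  by_cases e : i ∈ S
  · have : i ≠ j := fun h => hj (h ▸ e)
    simp [zB, e, yy, this]
  · simp [zB, e]

lemma hh_update (hS : Sc K S) (hj : j ∉ S) (O : OO V) (t : ℝ) :
    hh (update (zB S O) j t) = update (hh (zB S O)) j.1 (hh (zB S O) j.1 + ell t) := by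
  funext v
  by_cases e : v = j.1
  · subst e
    have := ((summable_zB hS O j.1).hasSum.update j.2 (ell t)).tsum_eq
    rw [update_self, hh, hh, add_comm, ← sub_zero (ell t), ← ell_zero,
      show (0 : ℝ) = zB S O (j.1, j.2) by simp [zB, hj], ← this]
    congr 1; funext k
    by_cases e : k = j.2
    · subst e; simp
    · rw [update_of_ne e, update_of_ne fun h => e (congrArg Prod.snd h)]
  · rw [update_of_ne e, hh, hh]
    congr 1; funext k
    rw [update_of_ne fun h => e (congrArg Prod.fst h)]

lemma hh_inter (R : Set V) (O : OO V) : hh (zB (B ∩ Prod.fst ⁻¹' R) O) = msk R (hh (zB B O)) := by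
  funext v
  by_cases e : v ∈ R <;> simp [hh, msk, zB, e]

lemma Sc.mono (h : Sc K B) (e : S ⊆ B) : Sc K S := fun j hj => h j (e hj)

lemma resample [IsProbabilityMeasure μ] (j : JJ V) {F : OO V → ℝ → ℝ}
    (hF : BM fun p : OO V × ℝ => F p.1 p.2) (hj : ∀ O t y, F (O.1, update O.2 j t) y = F O y) :
    ∫ O, F O (yy O j) ∂PO μ =
      ∫ t : II, ∫ O, F O (qf 0 t) * (1 + aa j.2 * spin (O.1 j.1) * qf 0 t / 2) ∂PO μ := by
  rw [← BM.swap (by fun_prop), BM.fub (by fun_prop), BM.fub (by fun_prop)]
  congr 1; funext σ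
  rw [iid, BM.upd j (by fun_prop)]
  congr 1; funext ξ
  have : ∀ t y, F (σ, update ξ j t) y = F (σ, ξ) y := hj (σ, ξ)
  simp only [this, yy, update_self]
  exact dens_spin (abs_aa _) _ (g := F (σ, ξ)) (by fun_prop)

lemma BM.M (hθ : |θ| < 1) (T : Finset V) (F : Set V → ℝ) : BM fun h => M G θ T h F := by
  obtain ⟨C, hC⟩ := (T.powerset.image fun s : Finset V => |F s|).bddAbove
  refine ⟨measurable_M T F, C, fun h => (abs_M_le hθ fun s _ => le_rfl).trans
    (M_le hθ fun s hs => ?_)⟩
  lift s to Finset V using T.finite_toSet.subset hs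
  exact hC (Finset.mem_image_of_mem _ (Finset.mem_powerset.2 (by exact_mod_cast hs)))

lemma bayes_fin [IsProbabilityMeasure μ] (hθ : |θ| < 1) (hT : GV G θ μ T) (S : Finset (JJ V))
    (hS : Sc K (S : Set (JJ V))) (hST : ∀ j ∈ S, j.1 ∈ T) {f : (JJ V → ℝ) → ℝ} (hf : BM f)
    (F : Set V → ℝ) :
    ∫ O, f (zB S O) * F (sg T O.1) ∂PO μ = ∫ O, f (zB S O) * M G θ T (hh (zB S O)) F ∂PO μ := by
  induction S using Finset.induction_on generalizing f F with
  | empty =>
    have e : ∀ O : OO V, zB ((∅ : Finset (JJ V)) : Set (JJ V)) O = 0 := fun O => by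
      funext j; simp [zB]
    have e' : hh (0 : JJ V → ℝ) = 0 := by funext v; simp [hh]
    simp only [e, e', integral_const_mul]
    rw [BM.mp measurePreserving_fst (BM.sg T F) |>.symm, hT]
    simp
  | insert j S hj ih =>
    have hS' : Sc K (S : Set (JJ V)) := hS.mono (by simp)
    have ih' := fun {f} hf F => ih hS' (fun i hi => hST i (Finset.mem_insert_of_mem hi)) (f := f) hf F
    have hw := hST j (Finset.mem_insert_self _ _)
    have b1 := BM.sg T F
    have b2 := BM.M (G := G) hθ T F
    have hj' : j ∉ (S : Set (JJ V)) := hj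
    simp only [Finset.coe_insert, zB_insert hj']
    rw [resample j (F := fun O y => f (update (zB S O) j (aa j.2 * y)) * F (sg T O.1))
      (BM.mul (by fun_prop) (b1.comp (g := fun p : OO V × ℝ => p.1.1) (by fun_prop)))
      (fun O t y => by rw [zB_update hj']),
      resample j (F := fun O y => f (update (zB S O) j (aa j.2 * y)) *
        M G θ T (hh (update (zB S O) j (aa j.2 * y))) F) (by fun_prop)
        (fun O t y => by rw [zB_update hj'])]
    congr 1; funext t
    set y := aa j.2 * qf 0 t with hy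
    have y1 : |y| ≤ 1 := by
      rw [hy, abs_mul]; exact mul_le_one₀ (abs_aa _) (abs_nonneg _) (abs_qf_le (by simp) _)
    have h1 := ih' (f := fun z => f (update z j y)) (by fun_prop)
      fun s => 1 * F s + y / 2 * (F s * spT T j.1 s)
    have h2 := ih' (f := fun z => f (update z j y) * M G θ T (hh (update z j y)) F) (by fun_prop)
      fun s => 1 + y / 2 * spT T j.1 s
    simp only [spT_sg hw, M_lin, M_aff hθ] at h1 h2
    refine (Eq.trans ?_ h1).trans (Eq.trans ?_ (h2.symm.trans ?_))
    · congr 1; funext O; rw [hy]; ring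
    · congr 1; funext O
      have := one_le_den (abs_M_spT_lt (G := G) hθ T (hh (zB S O)) j.1).le y1
      rw [hh_update hS' hj', ell, M_update hθ y1]
      have : 2 + y * M G θ T (hh (zB S O)) (spT T j.1) ≠ 0 := by linarith
      field_simp
    · congr 1; funext O; rw [hy]; ring

end Vale.Agent.P161
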