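import Vale.Agent.P161.Plant

/-! Infinite volume posterior means. -/

namespace Vale.Agent.P161

open Vale.Agent.P151 MeasureTheory Measure Filter Topology Function
open scoped Classical ENNReal

variable {V : Type*} {G : SimpleGraph V} {θ : ℝ} {μ : Measure (V → Bool)} {T : Finset V}
  {B S : Set (JJ V)} {K : ℤ} {j : JJ V} {z : JJ V → ℝ} {o u v : V} {h : V → ℝ}

/-- information carried by the observations in `B` -/
@[reducible] noncomputable def Fm (B : Set (JJ V)) : MeasurableSpace (OO V) :=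
  MeasurableSpace.comap (zB B) inferInstance

lemma Fm_le (B : Set (JJ V)) : Fm B ≤ (inferInstance : MeasurableSpace (OO V)) :=
  (measurable_zB B).comap_le

lemma meas_Fm (B : Set (JJ V)) : Measurable[Fm B] (zB B) := comap_measurable _

lemma Fm_mono (h : S ⊆ B) : Fm S ≤ Fm B := by
  refine Measurable.comap_le ?_
  simp only [← funext (mk_zB h)]
  exact (measurable_mk S).comp (meas_Fm B)

/-- conditional mean of a spin -/
noncomputable def CE (μ : Measure (V → Bool)) (B : Set (JJ V)) (u : V) : OO V → ℝ :=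
  (PO μ)[fun O => spin (O.1 u) | Fm B]

variable [IsProbabilityMeasure μ]

lemma levy {S : ℕ → Set (JJ V)} (hm : Monotone S) (hU : ∀ j, j ∈ B ↔ ∃ n, j ∈ S n)
    {g : ℕ → OO V → ℝ} (n0 : ℕ) (hg : ∀ n, n0 ≤ n → g n =ᵐ[PO μ] CE μ (S n) u) :
    ∀ᵐ O ∂PO μ, Tendsto (fun n => g n O) atTop (𝓝 (CE μ B u O)) := by
  let ℱ : Filtration ℕ (inferInstance : MeasurableSpace (OO V)) :=
    ⟨fun n => Fm (S n), fun _ _ h => Fm_mono (hm h), fun n => Fm_le _⟩
  have e : ⨆ n, ℱ n = Fm B := by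
    refine le_antisymm (iSup_le fun n => Fm_mono fun j hj => (hU j).2 ⟨n, hj⟩)
      (Measurable.comap_le ?_)
    refine @measurable_pi_lambda _ _ _ (⨆ n, ℱ n) _ _ fun j => ?_
    by_cases hj : j ∈ B
    · obtain ⟨n, hn⟩ := (hU j).1 hj
      have : (fun O => zB B O j) = fun O => zB (S n) O j := by funext O; simp [zB, hj, hn]
      rw [this]
      exact ((measurable_pi_apply j).comp (meas_Fm (S n))).mono (le_iSup (fun n => ℱ n) n) le_rfl
    · simp [zB, hj]
  have h1 := tendsto_ae_condExp (μ := PO μ) (ℱ := ℱ) fun O => spin (O.1 u)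
  rw [e] at h1
  have h2 : ∀ᵐ O ∂PO μ, ∀ n, n0 ≤ n → g n O = CE μ (S n) u O :=
    ae_all_iff.2 fun n => by
      by_cases hn : n0 ≤ n
      · filter_upwards [hg n hn] with O hO _ using hO
      · simp [hn]
  filter_upwards [h1, h2] with O h1 h2
  refine h1.congr' ?_
  filter_upwards [eventually_ge_atTop n0] with n hn using (h2 n hn).symm

lemma ce_of {g : (JJ V → ℝ) → ℝ} (hg : BM g) (e : ∀ f : (JJ V → ℝ) → ℝ, BM f →
    ∫ O, f (zB B O) * spin (O.1 u) ∂PO μ = ∫ O, f (zB B O) * g (zB B O) ∂PO μ) :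
    (fun O => g (zB B O)) =ᵐ[PO μ] CE μ B u := by
  refine ae_eq_condExp_of_forall_setIntegral_eq (Fm_le B) (BM.int (by fun_prop))
    (fun _ _ _ => (BM.int (by fun_prop)).integrableOn) ?_
    (hg.meas.comp (meas_Fm B)).aestronglyMeasurable
  rintro _ ⟨A, hA, rfl⟩ -
  have := e (fun z => ind (z ∈ A)) (BM.ind (measurable_mem.2 hA))
  rw [← integral_indicator (measurable_zB B hA), ← integral_indicator (measurable_zB B hA)]
  refine Eq.trans ?_ (this.symm.trans ?_) <;>
  · congr 1; funext O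
    by_cases h : zB B O ∈ A <;> simp [Set.indicator, ind, h]

lemma of_ce {g : OO V → ℝ} (e : g =ᵐ[PO μ] CE μ B u) {f : (JJ V → ℝ) → ℝ} (hf : Measurable f)
    (hb : BM fun O => f (zB B O)) :
    ∫ O, f (zB B O) * spin (O.1 u) ∂PO μ = ∫ O, f (zB B O) * g O ∂PO μ := by
  have h1 := condExp_mul_of_stronglyMeasurable_left (μ := PO μ) (m := Fm B)
    (f := fun O => f (zB B O)) (g := fun O => spin (O.1 u))
    (hf.comp (meas_Fm B)).stronglyMeasurable (hb.mul (by fun_prop)).int (BM.int (by fun_prop))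
  rw [← integral_condExp (Fm_le B)]
  refine integral_congr_ae ?_
  filter_upwards [h1, e] with O h1 e
  rw [e]; exact h1

omit [IsProbabilityMeasure μ] in
lemma continuous_M (hθ : |θ| < 1) (T : Finset V) (F : Set V → ℝ) :
    Continuous fun h => M G θ T h F := by
  have key : ∀ F : Set V → ℝ, Continuous fun h => Z G θ T h F := by
    intro F
    unfold Z Ex W
    refine continuous_finsetSum _ fun s _ => Continuous.const_mul (Continuous.mul_const
      (Continuous.const_mul (continuous_finsetProd _ fun w _ => ?_) _) _) _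
    split_ifs <;> fun_prop
  exact (key F).div (key _) fun h => (Z_one_pos hθ).ne'

omit [IsProbabilityMeasure μ] in
lemma tendsto_hh {S : ℕ → Set (JJ V)} (hB : Sc K B) (hm : Monotone S)
    (hU : ∀ j, j ∈ B ↔ ∃ n, j ∈ S n) (O : OO V) :
    Tendsto (fun n => hh (zB (S n) O)) atTop (𝓝 (hh (zB B O))) := by
  refine tendsto_pi_nhds.2 fun v => tendsto_tsum_of_dominated_convergence (hasSum_bb K).summable
    (fun k => ?_) (Eventually.of_forall fun n k =>
      abs_ell_zB (hB.mono fun j hj => (hU j).2 ⟨n, hj⟩) O v k)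
  refine tendsto_const_nhds.congr' ?_
  by_cases hj : (v, k) ∈ B
  · obtain ⟨n, hn⟩ := (hU _).1 hj
    filter_upwards [eventually_ge_atTop n] with m hm' using by simp [zB, hj, hm hm' hn]
  · exact Eventually.of_forall fun n => by simp [zB, hj, show (v, k) ∉ S n from
      fun h => hj ((hU _).2 ⟨n, h⟩)]

lemma ce_vol (hθ : |θ| < 1) (hT : GV G θ μ T) (hB : Sc K B) (hu : u ∈ T) :
    (fun O => mm G θ T u (hh (zB B O))) =ᵐ[PO μ] CE μ (B ∩ Prod.fst ⁻¹' T) u := by
  let S : ℕ → Finset (JJ V) := fun n => (T ×ˢ Finset.Icc (-(n : ℤ)) K).filter (· ∈ B)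
  have hm : Monotone fun n => (S n : Set (JJ V)) := fun a b hab j hj => by
    simp only [S, Finset.coe_filter, Finset.mem_product, Finset.mem_Icc, Set.mem_ofPred_eq] at hj ⊢
    exact ⟨⟨hj.1.1, by omega, hj.1.2.2⟩, hj.2⟩
  have hU : ∀ j, j ∈ B ∩ Prod.fst ⁻¹' T ↔ ∃ n, j ∈ (S n : Set (JJ V)) := fun j => by
    simp only [S, Finset.coe_filter, Finset.mem_product, Finset.mem_Icc, Set.mem_ofPred_eq]
    exact ⟨fun h => ⟨j.2.natAbs, ⟨h.2, by omega, hB j h.1⟩, h.1⟩, fun ⟨_, h⟩ => ⟨h.2, h.1.1⟩⟩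
  have hS : Sc K (B ∩ Prod.fst ⁻¹' T) := hB.mono Set.inter_subset_left
  have b := BM.M (G := G) hθ T (spT T u)
  filter_upwards [levy (μ := μ) (u := u) hm hU (g := fun n O => mm G θ T u (hh (zB (S n) O))) 0
    fun n _ => ce_of (g := fun z => mm G θ T u (hh z)) (b.comp measurable_hh) fun f hf => by
      simpa only [spT_sg hu, mm] using bayes_fin hθ hT (S n) (hS.mono fun j hj => (hU j).2 ⟨n, hj⟩)
        (fun j hj => ((hU j).2 ⟨n, hj⟩).2) hf (spT T u)] with O hO
  refine tendsto_nhds_unique ?_ hO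
  have := ((continuous_M (G := G) hθ T (spT T u)).tendsto _).comp (tendsto_hh hS hm hU O)
  rw [hh_inter, M_congr_h (h' := hh (zB B O)) fun w hw => by simp [msk, hw]] at this
  exact this

omit [IsProbabilityMeasure μ] in
lemma xm_mk (hG : G.IsTree) (hθ : |θ| < 1) (huv : Ok G u v) :
    mm G θ T u (msk (Br G u v) h) = xm G θ T u v h := by
  have e : zz G θ T u v (msk (Br G u v) h) = 0 := by
    unfold zz; split_ifs with e
    · rfl
    · rw [xm, mm, M_congr_h (h' := 0) fun w hw => by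
        simp [msk, (Br_compl hG (huv.resolve_left e)).2 (Finset.mem_filter.1 hw).2]]
      exact mul_eq_zero_of_right _ (mm_zero _ _)
  rw [tilt hG hθ huv (self_mem_Br u v), ze, e, zero_div, zero_mul, add_zero]
  exact M_congr_h fun w hw => by simp [msk, (Finset.mem_filter.1 hw).2]

variable [G.LocallyFinite] {d : ℕ}

variable (G θ) in
/-- posterior mean given the data -/
noncomputable def ms (z : JJ V → ℝ) (u : V) : ℝ := XX G θ (hh z) u u

omit [IsProbabilityMeasure μ] in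
lemma abs_XX_le_one (hθ : |θ| < 1) (h : V → ℝ) (u v : V) : |XX G θ h u v| ≤ 1 :=
  abs_lim0_le fun _ => (abs_xm_lt hθ _ _ _ _).le

omit [IsProbabilityMeasure μ] in
@[fun_prop] lemma BM.XX [hθ : Fact (|θ| < 1)] {α : Type*} [MeasurableSpace α] {f : α → V → ℝ}
    (hf : Measurable f) (u v : V) : BM fun x => XX G θ (f x) u v :=
  ⟨(measurable_XX u v).comp hf, 1, fun _ => abs_XX_le_one hθ.out _ _ _⟩

omit [IsProbabilityMeasure μ] in
@[fun_prop] lemma BM.ms [Fact (|θ| < 1)] {α : Type*} [MeasurableSpace α] {f : α → JJ V → ℝ}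
    (hf : Measurable f) (u : V) : BM fun x => ms G θ (f x) u := by unfold P161.ms; fun_prop

namespace Cr

variable (C : Cr G θ d)
include C

omit [IsProbabilityMeasure μ] in
lemma XX_mk (huv : Ok G u v) : XX G θ (msk (Br G u v) h) u u = XX G θ h u v := by
  simp only [XX, Xo, xm_self C.tree, xm_mk C.tree C.abs_lt huv]

omit [IsProbabilityMeasure μ] in
lemma XX_single : XX G θ (msk {u} h) u u = th (h u) := by
  refine lim0_eq (tendsto_const_nhds.congr fun n => ?_)
  rw [← th_lr (abs_xm_lt C.abs_lt _ _ _ _), lr_xm C.tree C.pos.le C.lt_one (self_mem_ball n u),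
    Finset.sum_eq_zero, add_zero]
  · simp [msk]
  intro c hc
  rw [xm, mm, M_congr_h (h' := 0) fun w hw => by
    have : w ≠ u := fun e => not_mem_Br C.tree (mem_ch.1 hc).1.symm (e ▸ (Finset.mem_filter.1 hw).2)
    simp [msk, this]]
  have := mm_zero (G := G) (θ := θ) (Te G (ball G n u) c u) c
  unfold mm at this
  simp [this]

variable (hμ : IsFreeIsing G θ μ) (hB : Sc K B)
include hμ hB

lemma ce_lim (o u : V) : ∀ᵐ O ∂PO μ,
    Tendsto (fun n => mm G θ (ball G n o) u (hh (zB B O))) atTop (𝓝 (CE μ B u O)) := by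
  obtain ⟨k, hk⟩ := exists_ball_of_reachable (C.tree.connected o u)
  refine levy (S := fun n => B ∩ Prod.fst ⁻¹' ball G n o)
    (fun a b hab j hj => ⟨hj.1, ball_mono hab hj.2⟩) (fun j => ⟨fun h => ?_, fun ⟨_, h⟩ => h.1⟩) k
    fun n hn => ce_vol C.abs_lt (gv_ball C.tree C.abs_lt hμ n o) hB (ball_mono hn hk)
  obtain ⟨n, hn⟩ := exists_ball_of_reachable (C.tree.connected o j.1)
  exact ⟨n, h, hn⟩

lemma ms_ce (u : V) : (fun O => ms G θ (zB B O) u) =ᵐ[PO μ] CE μ B u := by
  filter_upwards [C.ce_lim hμ hB u u] with O hO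
  simp only [ms, XX, Xo, xm_self C.tree]
  exact lim0_eq hO

lemma post {f : (JJ V → ℝ) → ℝ} (hf : Measurable f) (hb : BM fun O => f (zB B O)) (u : V) :
    ∫ O, f (zB B O) * spin (O.1 u) ∂PO μ = ∫ O, f (zB B O) * ms G θ (zB B O) u ∂PO μ :=
  of_ce (C.ms_ce hμ hB u) hf hb

lemma ae_conv : ∀ᵐ O ∂PO μ, Conv G θ (hh (zB B O)) := by
  have := countable_of_tree C.tree
  refine ae_all_iff.2 fun o => ae_all_iff.2 fun u => ae_all_iff.2 fun v => ?_
  by_cases huv : Ok G u v
  swap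
  · simp [huv]
  have hS : Sc K (B ∩ Prod.fst ⁻¹' Br G u v) := hB.mono Set.inter_subset_left
  filter_upwards [C.ce_lim hμ hS o u, C.ms_ce hμ hS u] with O h1 h2 _
  simp only [ms, hh_inter, xm_mk C.tree C.abs_lt huv, C.XX_mk huv] at h1 h2
  rwa [h2]

lemma post_mk (R : Set V) {f : (V → ℝ) → ℝ} (hf : Measurable f) (hR : DependsOn f R)
    (hb : BM fun O => f (hh (zB B O))) (u : V) :
    ∫ O, f (hh (zB B O)) * spin (O.1 u) ∂PO μ =
      ∫ O, f (hh (zB B O)) * XX G θ (msk R (hh (zB B O))) u u ∂PO μ := by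
  have e : ∀ h, f (msk R h) = f h := fun h => hR fun i hi => by simp [msk, hi]
  have := C.post hμ (hB.mono (Set.inter_subset_left (t := Prod.fst ⁻¹' R))) (f := fun z => f (hh z))
    (by fun_prop) (by simpa only [hh_inter, e] using hb) u
  simpa only [ms, hh_inter, e] using this

lemma tendsto_ms {S : ℕ → Set (JJ V)} (hm : Monotone S) (hU : ∀ j, j ∈ B ↔ ∃ n, j ∈ S n) (u : V) :
    ∀ᵐ O ∂PO μ, Tendsto (fun n => ms G θ (zB (S n) O) u) atTop (𝓝 (ms G θ (zB B O) u)) := by
  filter_upwards [levy hm hU 0 fun n _ => C.ms_ce hμ (hB.mono fun j hj => (hU j).2 ⟨n, hj⟩) u,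
    C.ms_ce hμ hB u] with O h1 h2
  rwa [h2]

end Cr

end Vale.Agent.P161
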