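import Vale.Agent.P161.Tele

/-! The discrepancy vanishes. -/

namespace Vale.Agent.P161

open Vale.Agent.P151 MeasureTheory Measure Filter Topology Function ProbabilityTheory
open scoped Classical ENNReal

lemma alg1 {γ B D K J : ℝ} (γ0 : 0 < γ) (B0 : 0 ≤ B) (D0 : 0 ≤ D) (K0 : 0 ≤ K) (J0 : 0 ≤ J) :
    ∃ C, 4 ≤ C ∧ ∀ a ε η M R x c E e1 e2 e3 e4 : ℝ, 0 ≤ a → 0 < η → 1 ≤ M → 0 ≤ R → a * R ≤ K * M →
      a ^ 2 ≤ K * η → 0 ≤ x → a ^ 2 * x ≤ ε ^ 2 * (J * M) → ε ^ 2 ≤ 1 → 0 ≤ c → 0 ≤ E → e1 ≤ E →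
      e2 ≤ B * E → e3 ≤ E → e4 ≤ E →
      4 * a ^ 2 * (2 * R ^ 2 * ((1 + 2 * M) * ((64 * (M * ε) ^ 2 * (64 / γ ^ 2 * c) +
        512 * (D * e1)) / γ ^ 2) + e2) + 4 * (e3 / η)) + 24 * a ^ 2 * (x * (c + 4 * e4)) ≤
      C * (M ^ 5 * ε ^ 2 * c + M ^ 3 * E) := by
  refine ⟨4 + (3 * K ^ 2 * (32768 / γ ^ 4) + 3 * K ^ 2 * (4096 * D / γ ^ 2) + K ^ 2 * (8 * B) +
    16 * K + 24 * J + 96 * J), le_add_of_nonneg_right (by positivity), ?_⟩
  intro a ε η M R x c E e1 e2 e3 e4 a0 η0 M1 R0 hR ha x0 hx ε1 c0 E0 h1 h2 h3 h4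
  have M0 : 0 ≤ M := by linarith
  have b1 : (a * R) ^ 2 ≤ (K * M) ^ 2 := by gcongr
  have b2 : (a * R) ^ 2 * (1 + 2 * M) ≤ (K * M) ^ 2 * (3 * M) := by gcongr; linarith
  have m2 : M ^ 2 ≤ M ^ 3 := pow_le_pow_right₀ M1 (by norm_num)
  have m1 : M ≤ M ^ 3 := le_self_pow₀ M1 (by norm_num)
  have m5 : M ≤ M ^ 5 := le_self_pow₀ M1 (by norm_num)
  have u0 : 0 ≤ M ^ 5 * ε ^ 2 * c := by positivity
  have v0 : 0 ≤ M ^ 3 * E := by positivity
  have t1 : (a * R) ^ 2 * (1 + 2 * M) * (32768 / γ ^ 4 * (M ^ 2 * ε ^ 2 * c)) ≤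
      3 * K ^ 2 * (32768 / γ ^ 4) * (M ^ 5 * ε ^ 2 * c) :=
    (mul_le_mul_of_nonneg_right b2 (by positivity)).trans_eq (by ring)
  have t2 : (a * R) ^ 2 * (1 + 2 * M) * (4096 * D / γ ^ 2 * e1) ≤
      3 * K ^ 2 * (4096 * D / γ ^ 2) * (M ^ 3 * E) :=
    calc _ ≤ (a * R) ^ 2 * (1 + 2 * M) * (4096 * D / γ ^ 2 * E) := by gcongr
      _ ≤ (K * M) ^ 2 * (3 * M) * (4096 * D / γ ^ 2 * E) := by gcongr
      _ = _ := by ring
  have t3 : (a * R) ^ 2 * (8 * e2) ≤ K ^ 2 * (8 * B) * (M ^ 3 * E) :=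
    calc _ ≤ (a * R) ^ 2 * (8 * (B * E)) := by gcongr
      _ ≤ (K * M) ^ 2 * (8 * (B * E)) := by gcongr
      _ = K ^ 2 * (8 * B) * (M ^ 2 * E) := by ring
      _ ≤ _ := by gcongr
  have t4 : a ^ 2 / η * (16 * e3) ≤ 16 * K * (M ^ 3 * E) :=
    calc _ ≤ a ^ 2 / η * (16 * E) := by gcongr
      _ ≤ K * (16 * E) := by gcongr; rwa [div_le_iff₀ η0]
      _ = 16 * K * (1 * E) := by ring
      _ ≤ _ := by gcongr; linarith
  have t5 : a ^ 2 * x * (24 * c) ≤ 24 * J * (M ^ 5 * ε ^ 2 * c) :=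
    calc _ ≤ ε ^ 2 * (J * M ^ 5) * (24 * c) := by gcongr ?_ * _; exact hx.trans (by gcongr)
      _ = _ := by ring
  have t6 : a ^ 2 * x * (96 * e4) ≤ 96 * J * (M ^ 3 * E) :=
    calc _ ≤ a ^ 2 * x * (96 * E) := by gcongr
      _ ≤ 1 * (J * M ^ 3) * (96 * E) := by gcongr ?_ * _; exact hx.trans (by gcongr)
      _ = _ := by ring
  refine le_trans (le_of_eq ?_) ((add_le_add (add_le_add (add_le_add (add_le_add (add_le_add t1 t2)
    t3) t4) t5) t6).trans ?_)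
  · field_simp; ring
  generalize M ^ 5 * ε ^ 2 * c = u, M ^ 3 * E = v at *
  have p1 : 0 ≤ 3 * K ^ 2 * (32768 / γ ^ 4) := by positivity
  have p2 : 0 ≤ 3 * K ^ 2 * (4096 * D / γ ^ 2) := by positivity
  have p3 : 0 ≤ K ^ 2 * (8 * B) := by positivity
  generalize 3 * K ^ 2 * (32768 / γ ^ 4) = q1, 3 * K ^ 2 * (4096 * D / γ ^ 2) = q2,
    K ^ 2 * (8 * B) = q3 at *
  nlinarith only [u0, v0, mul_nonneg p1 v0, mul_nonneg p2 u0, mul_nonneg p3 u0, mul_nonneg K0 u0,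
    mul_nonneg J0 u0, mul_nonneg J0 v0]

lemma chain1 {c : ℕ → ℝ} {δ : ℝ} (δ0 : 0 ≤ δ) (n : ℕ) (h : ∀ m, n ≤ m → c m ≤
    Real.exp (2 * (1 / 2) ^ (m + 1)) * (c (m + 1) + δ * (1 / 2) ^ (m + 1)))
    (hc : Tendsto c atTop (𝓝 0)) : c n ≤ Real.exp 2 * (δ * (1 / 2) ^ n) := by
  have key : ∀ m, n ≤ m → c n ≤ Real.exp (2 * ((1 / 2) ^ n - (1 / 2) ^ m)) *
      (c m + δ * ((1 / 2) ^ n - (1 / 2) ^ m)) := by
    intro m hm
    induction m, hm using Nat.le_induction with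
    | base => simp
    | succ m hm ih =>
      have a : 0 ≤ δ * ((1 / 2) ^ n - (1 / 2) ^ m) := mul_nonneg δ0 (sub_nonneg.2
        (pow_le_pow_of_le_one (by norm_num) (by norm_num) hm))
      have b := add_le_add (h m hm) (le_mul_of_one_le_left a
        (Real.one_le_exp (x := 2 * (1 / 2) ^ (m + 1)) (by positivity)))
      refine ih.trans ((mul_le_mul_of_nonneg_left b (Real.exp_pos _).le).trans_eq ?_)
      rw [← mul_add, ← mul_assoc, ← Real.exp_add]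
      congr 1
      · congr 1; ring
      · ring
  have t := tendsto_pow_atTop_nhds_zero_of_lt_one (r := (1 / 2 : ℝ)) (by norm_num) (by norm_num)
  have := ge_of_tendsto ((((t.const_sub ((1 / 2) ^ n)).const_mul 2).rexp).mul
    (hc.add ((t.const_sub ((1 / 2) ^ n)).const_mul δ))) ((eventually_ge_atTop n).mono key)
  simp only [sub_zero, zero_add] at this
  refine this.trans (mul_le_mul_of_nonneg_right (Real.exp_le_exp.2 ?_) (by positivity))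
  linarith [pow_le_one₀ (n := n) (show (0 : ℝ) ≤ 1 / 2 by norm_num) (by norm_num)]

lemma ev_small {C c : ℝ} (L : ℝ) (hC : 0 ≤ C) (hc : 0 < c) : ∀ᶠ l : ℕ in atTop,
    C * ((l + 1 : ℝ) ^ 12 * Real.exp (-(c * (l + 1) ^ 4))) ≤
      (1 / 2) ^ l * (Real.exp (-(L * (l + 1) ^ 3)) * (1 / 2) ^ l) := by
  filter_upwards [tendsto_natCast_atTop_atTop.eventually_ge_atTop ((C + 14 + L) / c)] with l hl
  rw [div_le_iff₀ hc] at hl
  have l0 : (0 : ℝ) ≤ l := l.cast_nonneg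
  have a1 : (l + 1 : ℝ) ^ 12 ≤ Real.exp (12 * l) := by
    rw [show (12 : ℝ) = (12 : ℕ) by norm_num, Real.exp_nat_mul]
    exact pow_le_pow_left₀ (by positivity) (Real.add_one_le_exp _) _
  have a2 : Real.exp (-l) ≤ (1 / 2) ^ l := by
    rw [← mul_neg_one, Real.exp_nat_mul]
    exact pow_le_pow_left₀ (Real.exp_pos _).le (by
      rw [Real.exp_neg, inv_le_comm₀ (Real.exp_pos _) (by norm_num)]
      linarith [Real.add_one_le_exp 1]) _
  have a3 : C ≤ Real.exp C := by linarith [Real.add_one_le_exp C]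
  have a4 : (l + 1 : ℝ) ≤ (l + 1) ^ 3 := le_self_pow₀ (by linarith) (by norm_num)
  calc _ ≤ Real.exp C * (Real.exp (12 * l) * Real.exp (-(c * (l + 1) ^ 4))) := by gcongr
    _ ≤ Real.exp (-l) * (Real.exp (-(L * (l + 1) ^ 3)) * Real.exp (-l)) := by
      simp only [← Real.exp_add]
      refine Real.exp_le_exp.2 ?_
      nlinarith [mul_le_mul_of_nonneg_right hl (show 0 ≤ (l + 1 : ℝ) ^ 3 by positivity),
        mul_le_mul_of_nonneg_left (show (1 : ℝ) ≤ (l + 1) ^ 3 by linarith) hC,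
        mul_pos hc (show 0 < (l + 1 : ℝ) ^ 3 by positivity)]
    _ ≤ _ := by gcongr

lemma ev_poly (C : ℝ) : ∀ᶠ l : ℕ in atTop, C * ((l + 1 : ℝ) ^ 20 * (4 * (1 / 4) ^ l)) ≤ (1 / 2) ^ l := by
  have := ((tendsto_pow_const_mul_const_pow_of_abs_lt_one 20 (r := (1 / 2 : ℝ))
    (by rw [abs_of_pos] <;> norm_num)).comp (tendsto_add_atTop_nat 1)).const_mul (8 * C)
  rw [mul_zero] at this
  filter_upwards [this.eventually_le_const one_pos] with l hl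
  refine le_trans (le_of_eq ?_) (mul_le_of_le_one_left (by positivity) hl)
  rw [show (1 / 4 : ℝ) = 1 / 2 * (1 / 2) by norm_num, mul_pow]
  simp only [Function.comp]; push_cast; ring

lemma eta_aa (θ : ℝ) (k : ℤ) : eta θ (aa k ^ 2 / 24) = eta θ (1 / 24) * aa k := by
  rw [eta, eta, div_eq_mul_one_div (_ ^ 2), Real.sqrt_mul (sq_nonneg _), Real.sqrt_sq (aa_pos k).le]; ring

lemma aa_le_mul (k : ℤ) : aa k ≤ 16 * aa (k - 1) := by
  rw [aa, aa, mul_min_of_nonneg _ _ (by norm_num), zpow_sub₀ (by norm_num)]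
  exact min_le_min (by norm_num) (by simp; field_simp; rfl)

lemma aa_neg (l : ℕ) : aa (-l) = (1 / 16) ^ l := by
  rw [aa, zpow_neg, zpow_natCast, one_div, inv_pow]
  exact min_eq_right (inv_le_one_of_one_le₀ (one_le_pow₀ (by norm_num)))

lemma aa_mono : Monotone aa := fun _ _ h => min_le_min le_rfl (zpow_le_zpow_right₀ (by norm_num) h)

variable {V : Type*} {G : SimpleGraph V} [G.LocallyFinite] {θ : ℝ} {d : ℕ}
  {μ : Measure (V → Bool)} {o : V}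

lemma Cr.exists_j (C : Cr G θ d) : ∃ J, 0 ≤ J ∧ ∀ (n : ℕ) (k : ℤ), -n ≤ k → ∃ j,
    (n + 1 : ℝ) ^ 4 ≤ ll θ d (aa (k - 1) ^ 2 / 24) j ∧
      aa k * xx θ (aa (k - 1) ^ 2 / 24) j ≤ J * (n + 1) := by
  have c0 := C.eta_pos (p := 1 / 24) (by norm_num)
  obtain ⟨j0, hj⟩ := pow_unbounded_of_one_lt (24 / eta θ (1 / 24)) (one_lt_two (α := ℝ))
  refine ⟨18 + 2 * j0 + 768 / eta θ (1 / 24), by positivity, fun n k hk => ⟨8 * (n + 1) + j0, ?_, ?_⟩⟩
  · have a := aa_mono (show -((n + 1 : ℕ) : ℤ) ≤ k - 1 by omega)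
    have b : (2 : ℝ) ≤ d - 1 := by have : (3 : ℝ) ≤ d := by exact_mod_cast C.three
                                   linarith
    have := aa_pos (k - 1)
    rw [aa_neg] at a
    rw [ll, eta_aa]
    calc _ ≤ ((2 : ℝ) ^ (n + 1)) ^ 4 := by
          gcongr; exact_mod_cast Nat.lt_two_pow_self.le
      _ = eta θ (1 / 24) * (1 / 16) ^ (n + 1) / 24 * (2 ^ (8 * (n + 1)) * (24 / eta θ (1 / 24))) := by
          rw [pow_mul, ← pow_mul, mul_comm _ 4, pow_mul, one_div_pow,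
            show (2 : ℝ) ^ 8 = 16 * 2 ^ 4 by norm_num, mul_pow]
          field_simp
      _ ≤ eta θ (1 / 24) * aa (k - 1) / 24 * (2 ^ (8 * (n + 1)) * 2 ^ (j0 + 1)) := by
          gcongr; exact hj.le.trans (pow_le_pow_right₀ one_le_two j0.le_succ)
      _ ≤ _ := by
          rw [← pow_add, add_assoc]; gcongr
  · have a := aa_le_mul k
    have b := aa_pos (k - 1)
    have e : aa k * (48 / (eta θ (1 / 24) * aa (k - 1))) ≤ 768 / eta θ (1 / 24) :=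
      (mul_le_mul_of_nonneg_right a (by positivity)).trans_eq (by field_simp; norm_num)
    have f : aa k * (2 + 2 * (8 * (n + 1) + j0)) ≤ 2 + 2 * (8 * (n + 1) + j0) :=
      mul_le_of_le_one_left (by positivity) (aa_le k)
    have g : (2 * j0 + 768 / eta θ (1 / 24)) * 1 ≤ (2 * j0 + 768 / eta θ (1 / 24)) * (n + 1) := by
      gcongr; linarith
    rw [xx, eta_aa]
    push_cast
    have n0 : (0 : ℝ) ≤ n := n.cast_nonneg
    refine le_trans (le_of_eq ?_) ((add_le_add e f).trans (by linarith))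
    ring

lemma rho_mono {H H' : ℝ} (h : H ≤ H') : rho θ d H ≤ rho θ d H' := th_mono (by linarith)

variable (G θ) in
/-- total rate -/
noncomputable def rt (κ : Kernel (Zb V) (OO V)) (o : V) (k : ℤ) (t : II) (N : ℕ) : ℝ :=
  ∑ r ∈ Finset.range N, ∑ w ∈ desc G r o o, ∫ ω, Fr G θ (aa k) r o w
    (zB (Bt k t ω.1.1) ω.2.1, zB (Bt k t ω.1.1) ω.2.2) ∂JP κ

variable (G θ) in
/-- covariance discrepancy -/
noncomputable def da (κ : Kernel (Zb V) (OO V)) (o : V) (k : ℤ) (t : II) (N : ℕ) : ℝ :=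
  ∫ ω, DA G θ (XX G θ (hh (zB (Bt k t ω.1.1) ω.2.1))) (XX G θ (hh (zB (Bt k t ω.1.1) ω.2.2))) N o o
    ∂JP κ

namespace Jn

variable {κ : Kernel (Zb V) (OO V)} (J : Jn G θ d μ κ)
include J

lemma rt_le (k : ℤ) (t : II) (j N : ℕ) : rt G θ κ o k t N ≤ 4 * aa k ^ 2 * da G θ κ o k t N +
    24 * aa k ^ 2 * (xx θ (aa (k - 1) ^ 2 / 24) j * (cc G θ κ o k t +
      4 * Real.exp (-ll θ d (aa (k - 1) ^ 2 / 24) j))) := by
  simp only [rt, Fr, da, cc, ms]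
  exact (J.st k t).rate j N o (pow_le_one₀ (aa_pos k).le (aa_le k))

lemma phase2 (K : ℕ) : ∃ C, 0 ≤ C ∧ ∀ (n : ℕ) (k : ℤ), -n ≤ k → k ≤ K → ∀ t N, rt G θ κ o k t N ≤
    C * (n + 1) ^ 2 * (cc G θ κ o k t + 4 * Real.exp (-(n + 1) ^ 4)) := by
  obtain ⟨A, A0, hA⟩ := J.exists_j
  refine ⟨4 * (32768 * d / (θ ^ 2 * (1 - rho θ d (4 * 16 ^ (K : ℤ)) ^ 2) ^ 4)) * A ^ 2 + 24 * A,
    by positivity, fun n k h1 h2 t N => ?_⟩
  obtain ⟨j, a1, a2⟩ := hA n k h1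
  have S := J.st k t
  have a0 := aa_pos k
  have b2 : da G θ κ o k t N ≤ _ * (cc G θ κ o k t + _) :=
    S.DA2 (rho_mono (H' := 4 * 16 ^ (K : ℤ)) (by gcongr; norm_num)) (th_lt_one _) j N o
  have e0 := S.eta_pos S.p0
  have x0 : 0 ≤ xx θ (aa (k - 1) ^ 2 / 24) j := by unfold xx; positivity
  have c0 : 0 ≤ cc G θ κ o k t := integral_nonneg fun _ => sq_nonneg _
  have e := Real.exp_le_exp.2 (neg_le_neg a1)
  have e' := Real.exp_pos (-(n + 1 : ℝ) ^ 4)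
  refine ((J.rt_le k t j N).trans (add_le_add_left (mul_le_mul_of_nonneg_left b2
    (by positivity)) _)).trans ?_
  generalize cc G θ κ o k t = c at *
  have p1 : 0 ≤ 32768 * d / (θ ^ 2 * (1 - rho θ d (4 * 16 ^ (K : ℤ)) ^ 2) ^ 4) := by positivity
  generalize 32768 * d / (θ ^ 2 * (1 - rho θ d (4 * 16 ^ (K : ℤ)) ^ 2) ^ 4) = q at *
  calc _ = 4 * q * (aa k * xx θ (aa (k - 1) ^ 2 / 24) j) ^ 2 *
        (c + Real.exp (-ll θ d (aa (k - 1) ^ 2 / 24) j)) + 24 * (aa k * (aa k *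
        xx θ (aa (k - 1) ^ 2 / 24) j)) * (c + 4 * Real.exp (-ll θ d (aa (k - 1) ^ 2 / 24) j)) := by ring
    _ ≤ 4 * q * (A * (n + 1)) ^ 2 * (c + 4 * Real.exp (-(n + 1) ^ 4)) +
        24 * ((n + 1) * (A * (n + 1))) * (c + 4 * Real.exp (-(n + 1) ^ 4)) := by
      gcongr
      · linarith
      · linarith [aa_le k, (n.cast_nonneg : (0 : ℝ) ≤ n)]
    _ = _ := by ring

lemma phase1' : ∃ C, 4 ≤ C ∧ ∀ (n : ℕ) (k : ℤ) (ε : ℝ), -n ≤ k → 0 < ε → ε ≤ 1 → aa k ≤ ε ^ 2 →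
    4 * 16 ^ k ≤ ε ^ 4 → ∀ t N, rt G θ κ o k t N ≤ C * (((n + 1 : ℝ) ^ 4) ^ 5 * ε ^ 2 * cc G θ κ o k t +
      ((n + 1) ^ 4) ^ 3 * Real.exp (-(θ / 4 * (n + 1) ^ 4))) := by
  obtain ⟨A, A0, hA⟩ := J.exists_j
  have c0 := J.eta_pos (p := 1 / 24) (by norm_num)
  have θ0 := J.pos
  have θ1 := sub_pos.2 J.lt_one
  have hθ : θ ≤ 3 / 4 := by nlinarith [J.half]
  have ρ1 : rho θ d 1 < 1 := th_lt_one _
  have ρ0 : 0 ≤ rho θ d 1 := (abs_nonneg _).trans (J.abs_XX_le (h := 0) (by simp) o o)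
  obtain ⟨C, C4, hC⟩ := alg1 (γ := 1 - rho θ d 1 ^ 2) (B := 20 * (1 / (θ * (1 - rho θ d 1 ^ 2))) ^ 2 /
    (1 - θ)) (D := Dt θ d) (K := 16 / eta θ (1 / 24) + 1) (J := A) (by nlinarith) (by positivity)
    (by unfold Dt; positivity) (by positivity) A0
  refine ⟨C, C4, fun n k ε hk ε0 ε1 u1 u2 t N => ?_⟩
  obtain ⟨j, a1, a2⟩ := hA n k hk
  have S := J.st k t
  have a0 := aa_pos k
  have e0 := S.eta_pos S.p0
  have e1 := S.eta_le S.p1
  have x0 : 0 ≤ xx θ (aa (k - 1) ^ 2 / 24) j := by unfold xx; positivity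
  have u5 : aa k ≤ 16 / eta θ (1 / 24) * eta θ (aa (k - 1) ^ 2 / 24) :=
    (aa_le_mul _).trans_eq (by rw [eta_aa]; field_simp)
  have M2 : (n + 1 : ℝ) ≤ (n + 1) ^ 4 :=
    le_self_pow₀ (by linarith [(n.cast_nonneg : (0 : ℝ) ≤ n)]) (by norm_num)
  have M1 : (1 : ℝ) ≤ (n + 1) ^ 4 := by linarith [(n.cast_nonneg : (0 : ℝ) ≤ n)]
  have a3 := a2.trans (mul_le_mul_of_nonneg_left M2 A0)
  have b2 : da G θ κ o k t N ≤ _ * (_ * ((_ * (_ * cc G θ κ o k t) + _) / _) + _) + _ :=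
    S.DA1 (rho_mono (u2.trans (pow_le_one₀ ε0.le ε1))) ρ1 (ϑ := (n + 1) ^ 4 * ε) ε0 ε1 u2
    (by positivity) ⌈(n + 1) ^ 4 / eta θ (aa (k - 1) ^ 2 / 24)⌉₊ ((n + 1) ^ 4) N o
  refine ((J.rt_le k t j N).trans (add_le_add_left (mul_le_mul_of_nonneg_left b2
    (by positivity)) _)).trans ?_
  have f2 : θ ^ (n + 1) ^ 4 ≤ Real.exp (-(θ / 4 * (n + 1) ^ 4)) := by
    refine (pow_le_pow_left₀ θ0.le (show θ ≤ Real.exp (-(θ / 4)) by
      linarith [Real.add_one_le_exp (-(θ / 4))]) _).trans_eq ?_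
    rw [← Real.exp_nat_mul]; push_cast; ring_nf
  have c1 : 0 ≤ cc G θ κ o k t := integral_nonneg fun _ => sq_nonneg _
  push_cast
  clear b2 S a2 M2
  generalize (n + 1 : ℝ) ^ 4 = M, eta θ (aa (k - 1) ^ 2 / 24) = η at *
  have r1 := Nat.le_ceil (M / η)
  have r2 := (Nat.ceil_lt_add_one (show 0 ≤ M / η by positivity)).le
  have r3 : θ / 4 * M ≤ M := mul_le_of_le_one_left (by linarith) (by linarith)
  refine hC _ _ _ _ _ _ _ _ _ _ _ _ a0.le e0 M1 (Nat.cast_nonneg _) ?_ ?_ x0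
    ?_ (pow_le_one₀ ε0.le ε1) c1 (Real.exp_pos _).le ?_ ?_ ?_ ?_
  · refine (mul_le_mul_of_nonneg_left r2 a0.le).trans ?_
    rw [mul_add, add_mul, mul_div_assoc']
    refine add_le_add ?_ (by linarith [aa_le k])
    rw [div_le_iff₀ e0, mul_right_comm]; gcongr
  · rw [sq, add_mul]
    exact ((mul_le_of_le_one_left a0.le (aa_le k)).trans u5).trans (by linarith)
  · rw [sq, mul_assoc]
    exact mul_le_mul u1 a3 (mul_nonneg a0.le x0) (sq_nonneg _)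
  · refine Real.exp_le_exp.2 (neg_le_neg ?_)
    rw [mul_div_assoc, mul_div_cancel_right₀ _ ε0.ne']; gcongr; linarith
  · rw [mul_div_assoc', div_mul_eq_mul_div]
    gcongr
  · refine (pow_le_pow_left₀ (sub_nonneg.2 e1) (Real.one_sub_le_exp_neg _) _).trans ?_
    rw [← Real.exp_nat_mul, mul_neg]
    rw [div_le_iff₀ e0] at r1
    exact Real.exp_le_exp.2 (neg_le_neg (r3.trans r1))
  · exact Real.exp_le_exp.2 (neg_le_neg (r3.trans a1))

lemma phase1 : ∃ C, 4 ≤ C ∧ ∀ l : ℕ, 1 ≤ l → ∀ t N, rt G θ κ o (-l) t N ≤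
    C * ((l + 1 : ℝ) ^ 20 * (4 * (1 / 4) ^ l) * cc G θ κ o (-l) t +
      (l + 1) ^ 12 * Real.exp (-(θ / 4 * (l + 1) ^ 4))) := by
  obtain ⟨C, C4, hC⟩ := J.phase1' (o := o)
  refine ⟨C, C4, fun l hl t N => ?_⟩
  have u0 : (0 : ℝ) < (1 / 2) ^ l := by positivity
  have u1 : (1 / 2 : ℝ) ^ l ≤ 1 / 2 := pow_le_of_le_one (by norm_num) (by norm_num) (by omega)
  have u2 : aa (-l) = ((1 / 2) ^ l) ^ 4 := by
    rw [aa_neg, ← pow_mul, mul_comm, pow_mul]; norm_num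
  have u3 : (16 : ℝ) ^ (-l : ℤ) = ((1 / 2) ^ l) ^ 4 := by
    rw [← u2, aa_neg, zpow_neg, zpow_natCast, one_div, inv_pow]
  have u4 : (4 * (1 / 4) ^ l : ℝ) = (2 * (1 / 2) ^ l) ^ 2 := by
    rw [mul_pow, ← pow_mul, mul_comm l, pow_mul]; norm_num
  rw [u4, show (l + 1 : ℝ) ^ 20 = ((l + 1) ^ 4) ^ 5 by ring,
    show (l + 1 : ℝ) ^ 12 = ((l + 1) ^ 4) ^ 3 by ring]
  exact hC l _ _ le_rfl (by positivity) (by linarith)
    (by rw [u2]; nlinarith [pow_le_pow_left₀ u0.le u1 2, pow_pos u0 2])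
    (by rw [u3]; nlinarith [pow_pos u0 4]) t N

lemma cc_start : Tendsto (fun m : ℕ => cc G θ κ o (-m) 0) atTop (𝓝 0) := by
  have : Fact (|θ| < 1) := ⟨J.abs_lt⟩
  have := J.prob
  have t := (((tendsto_pow_atTop_nhds_zero_of_lt_one (r := (1 / 16 : ℝ)) (by norm_num)
    (by norm_num)).const_mul 4).sqrt.const_mul 6).const_mul 4
  simp only [mul_zero, Real.sqrt_zero] at t
  refine squeeze_zero' (Eventually.of_forall fun m => integral_nonneg fun _ => sq_nonneg _) ?_ t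
  filter_upwards [eventually_ge_atTop 1] with m hm
  have S := J.st (-m) 0
  have e : (16 : ℝ) ^ (-m : ℤ) = (1 / 16) ^ m := by rw [zpow_neg, zpow_natCast, one_div, inv_pow]
  have a := S.q_upper (u := o) (v := o) (by
    rw [e]; linarith [pow_le_of_le_one (a := (1 / 16 : ℝ)) (by norm_num) (by norm_num)
      (show m ≠ 0 by omega)]) (Or.inl rfl)
  have b := S.tr (f := fun x => XX G θ x o o ^ 2) (by fun_prop)
  have c := S.symm.tr (f := fun x => XX G θ x o o ^ 2) (by fun_prop)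
  rw [e] at a
  refine (BM.imono (g := fun ω => 2 * (XX G θ (hh (zB (Bt (-m) 0 ω.1.1) ω.2.1)) o o ^ 2 +
    XX G θ (hh (zB (Bt (-m) 0 ω.1.1) ω.2.2)) o o ^ 2)) (by fun_prop) (by fun_prop) fun ω => ?_).trans ?_
  · unfold ms
    nlinarith [sq_nonneg (XX G θ (hh (zB (Bt (-m) 0 ω.1.1) ω.2.1)) o o +
      XX G θ (hh (zB (Bt (-m) 0 ω.1.1) ω.2.2)) o o)]
  · rw [integral_const_mul, BM.iadd (by fun_prop) (by fun_prop), b, c]; linarith

lemma cc_zero (K : ℕ) : cc G θ κ o K 0 ≤ 0 := by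
  obtain ⟨C1, a1, h1⟩ := J.phase1 (o := o)
  obtain ⟨C2, a2, h2⟩ := J.phase2 (o := o) K
  have c0 : ∀ k t, 0 ≤ cc G θ κ o k t := fun _ _ => integral_nonneg fun _ => sq_nonneg _
  obtain ⟨n0, hn⟩ := eventually_atTop.1 (((ev_small (2 * C2 * (K + 1))
    (show 0 ≤ C1 by linarith) (show 0 < θ / 4 by linarith [J.pos])).and (ev_poly C1)).and
    (eventually_ge_atTop 1))
  have t := (tendsto_pow_atTop_nhds_zero_of_lt_one (r := (1 / 2 : ℝ)) (by norm_num)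
    (by norm_num)).const_mul (Real.exp 2 + 1)
  rw [mul_zero] at t
  refine ge_of_tendsto t ((eventually_ge_atTop n0).mono fun n hn0 => ?_)
  set δ := Real.exp (-(2 * C2 * (K + 1) * (n + 1) ^ 3)) with hδ
  have δ0 : 0 < δ := Real.exp_pos _
  have b1 := chain1 (c := fun m => cc G θ κ o (-m) 0) δ0.le n (fun m hm => by
    obtain ⟨⟨e1, e2⟩, e3⟩ := hn (m + 1) (by omega)
    have := J.scale (o := o) (k := -(m + 1 : ℕ)) (A := (1 / 2) ^ (m + 1))
      (ε := δ * (1 / 2) ^ (m + 1)) (by positivity) (by positivity) fun t N => by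
        refine (h1 _ e3 t N).trans ?_
        rw [mul_add, mul_add, ← mul_assoc]
        refine add_le_add (mul_le_mul_of_nonneg_right e2 (c0 _ _)) (e1.trans ?_)
        have : (n : ℝ) ≤ (m + 1 : ℕ) := by exact_mod_cast by omega
        rw [hδ]; gcongr
    rw [show (-(m + 1 : ℕ) + 1 : ℤ) = -m by omega] at this
    exact (le_add_of_nonneg_right (by positivity)).trans this) J.cc_start
  have b2 : ∀ i : ℕ, i ≤ n + K → cc G θ κ o (-n + i) 0 + 4 * Real.exp (-(n + 1) ^ 4) ≤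
      Real.exp (2 * (C2 * (n + 1) ^ 2)) ^ i * (cc G θ κ o (-n) 0 + 4 * Real.exp (-(n + 1) ^ 4)) := by
    intro i hi
    induction i with
    | zero => simp
    | succ i ih =>
      rw [pow_succ' (Real.exp _), mul_assoc (Real.exp _), Nat.cast_succ, ← add_assoc]
      exact (J.scale (by positivity) (by positivity) (h2 n _ (by omega) (by omega))).trans
        (mul_le_mul_of_nonneg_left (ih (by omega)) (Real.exp_pos _).le)
  have b3 := b2 _ le_rfl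
  have b4 : 4 * Real.exp (-(n + 1 : ℝ) ^ 4) ≤ δ * (1 / 2) ^ n := by
    refine le_trans ?_ ((hn n hn0).1.1.trans (mul_le_of_le_one_left (by positivity)
      (pow_le_one₀ (by norm_num) (by norm_num))))
    refine mul_le_mul a1 (le_trans ?_ (le_mul_of_one_le_left (Real.exp_pos _).le (one_le_pow₀
      (by linarith [(n.cast_nonneg : (0 : ℝ) ≤ n)])))) (Real.exp_pos _).le (by linarith)
    exact Real.exp_le_exp.2 (neg_le_neg (mul_le_of_le_one_left (by positivity)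
      (by linarith [J.lt_one])))
  have b5 : Real.exp (2 * (C2 * (n + 1) ^ 2)) ^ (n + K) * δ ≤ 1 := by
    rw [← Real.exp_nat_mul, hδ, ← Real.exp_add, Real.exp_le_one_iff]
    have : ((n + K : ℕ) : ℝ) ≤ (K + 1) * (n + 1) := by
      push_cast; nlinarith [(n.cast_nonneg : (0 : ℝ) ≤ n), (K.cast_nonneg : (0 : ℝ) ≤ K)]
    nlinarith [mul_le_mul_of_nonneg_right this (show 0 ≤ 2 * (C2 * (n + 1) ^ 2) by positivity)]
  rw [show (-n + (n + K : ℕ) : ℤ) = K by omega] at b3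
  refine (le_add_of_nonneg_right (by positivity)).trans (b3.trans ((mul_le_mul_of_nonneg_left
    (add_le_add b1 b4) (by positivity)).trans ?_))
  nlinarith [mul_le_mul_of_nonneg_right b5
    (show 0 ≤ (Real.exp 2 + 1) * (1 / 2 : ℝ) ^ n by positivity)]

end Jn

end Vale.Agent.P161
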