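import Vale.Agent.P161.Tail

/-! Comparison of the covariances of two coupled states: deterministic part. -/

namespace Vale.Agent.P161

open Vale.Agent.P151 MeasureTheory Measure Filter Topology Function
open scoped Classical ENNReal

section alg

variable {θ x x' : ℝ}

lemma gg_sub (hθ : θ ^ 2 ≤ 1 / 2) (hx : |x| < 1) (hx' : |x'| < 1) :
    ∃ k, 0 ≤ k ∧ k ≤ 4 ∧ gg θ x - gg θ x' = θ * k * (x' ^ 2 - x ^ 2) := by
  have b : x ^ 2 < 1 := by rwa [sq_lt_one_iff_abs_lt_one]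
  have b' : x' ^ 2 < 1 := by rwa [sq_lt_one_iff_abs_lt_one]
  have p : 1 / 2 ≤ 1 - θ ^ 2 * x ^ 2 := by nlinarith [sq_nonneg x, sq_nonneg θ]
  have p' : 1 / 2 ≤ 1 - θ ^ 2 * x' ^ 2 := by nlinarith [sq_nonneg x', sq_nonneg θ]
  have c : 1 / 4 ≤ (1 - θ ^ 2 * x ^ 2) * (1 - θ ^ 2 * x' ^ 2) := by nlinarith
  refine ⟨(1 - θ ^ 2) / ((1 - θ ^ 2 * x ^ 2) * (1 - θ ^ 2 * x' ^ 2)),
    div_nonneg (by linarith) (by linarith), ?_, ?_⟩
  · rw [div_le_iff₀ (by linarith)]; nlinarith [sq_nonneg θ]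
  · have : 1 - θ ^ 2 * x ^ 2 ≠ 0 := by linarith
    have : 1 - θ ^ 2 * x' ^ 2 ≠ 0 := by linarith
    have : 1 - x ^ 2 * θ ^ 2 ≠ 0 := by linarith
    have : 1 - x' ^ 2 * θ ^ 2 ≠ 0 := by linarith
    unfold gg; field_simp; ring

lemma wcs {g D β Q s : ℝ} (hg : 0 ≤ g) (hs : 0 ≤ s) (hs1 : s < 1) (h1 : g ≤ θ * (1 - s))
    (h2 : β ^ 2 ≤ s * Q) (hQ : 0 ≤ Q) : (g * D + β) ^ 2 ≤ θ * g * D ^ 2 + Q := by
  have h3 := mul_le_mul_of_nonneg_right h1 (mul_nonneg hg (sq_nonneg D))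
  rcases hs.eq_or_lt with rfl | hs
  · obtain rfl : β = 0 := by nlinarith [sq_nonneg β]
    nlinarith
  · refine le_of_mul_le_mul_left ?_ (mul_pos hs (sub_pos.2 hs1))
    nlinarith [sq_nonneg (s * (g * D) - (1 - s) * β), mul_le_mul_of_nonneg_left h3 hs.le,
      mul_le_mul_of_nonneg_left h2 (sub_pos.2 hs1).le]

lemma gain_half (h0 : 0 ≤ θ) (hθ : θ ^ 2 ≤ 1 / 2) (hx : |x| < 1) (hx' : |x'| < 1)
    (h : x' ^ 2 ≤ x ^ 2) (D A : ℝ) : (gg θ x * D + (gg θ x - gg θ x') * A) ^ 2 ≤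
      θ * gg θ x * D ^ 2 + 128 * ((x - x') ^ 2 * A ^ 2) := by
  have b : x ^ 2 < 1 := by rwa [sq_lt_one_iff_abs_lt_one]
  refine wcs (s := x ^ 2 / 2) (gg_nonneg h0 (by nlinarith) hx) (by positivity) (by linarith)
    (gg_le h0 hθ hx) ?_ (by positivity)
  obtain ⟨k, k0, k1, e⟩ := gg_sub hθ hx hx'
  have a1 : (θ * k) ^ 2 ≤ 16 := by nlinarith [mul_pow θ k 2, sq_nonneg k]
  have a2 : (x + x') ^ 2 ≤ 4 * x ^ 2 := by nlinarith [sq_nonneg (x - x')]
  have := mul_le_mul_of_nonneg_right (mul_le_mul a1 a2 (sq_nonneg _) (by norm_num))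
    (show 0 ≤ (x - x') ^ 2 * A ^ 2 by positivity)
  rw [e]; nlinarith

lemma gain_step (h0 : 0 ≤ θ) (hθ : θ ^ 2 ≤ 1 / 2) (hx : |x| < 1) (hx' : |x'| < 1) (A A' : ℝ) :
    (gg θ x * A - gg θ x' * A') ^ 2 ≤
      θ * gg θ x * (A - A') ^ 2 + 128 * ((x - x') ^ 2 * (A ^ 2 + A' ^ 2)) := by
  rcases le_total (x' ^ 2) (x ^ 2) with h | h
  · have := gain_half h0 hθ hx hx' h (A - A') A'
    nlinarith [mul_nonneg (sq_nonneg (x - x')) (sq_nonneg A)]
  · have := gain_half h0 hθ hx' hx h (A - A') (-A)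
    obtain ⟨k, k0, -, e⟩ := gg_sub hθ hx hx'
    have a : gg θ x' ≤ gg θ x := by
      nlinarith [mul_nonneg (mul_nonneg h0 k0) (sub_nonneg.2 h)]
    nlinarith [mul_nonneg (sq_nonneg (x - x')) (sq_nonneg A'),
      mul_le_mul_of_nonneg_left a (mul_nonneg h0 (sq_nonneg (A - A')))]

lemma abs_sub_le_log {a b M : ℝ} (ha : 0 < a) (hb : 0 < b) (h1 : a ≤ M) (h2 : b ≤ M) :
    (a - b) ^ 2 ≤ M ^ 2 * (Real.log a - Real.log b) ^ 2 := by
  wlog h : b ≤ a generalizing a b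
  · nlinarith [this hb ha h2 h1 (not_le.1 h).le]
  have e := Real.log_le_sub_one_of_pos (div_pos hb ha)
  rw [Real.log_div hb.ne' ha.ne', le_sub_iff_add_le, le_div_iff₀ ha] at e
  rw [← mul_pow]
  have := Real.log_le_log hb h
  exact pow_le_pow_left₀ (by linarith) (by nlinarith) 2

lemma log_sub_le {a b m : ℝ} (hm : 0 < m) (h1 : m ≤ a) (h2 : m ≤ b) :
    m ^ 2 * (Real.log a - Real.log b) ^ 2 ≤ (a - b) ^ 2 := by
  wlog h : b ≤ a generalizing a b
  · nlinarith [this h2 h1 (not_le.1 h).le]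
  have hb : 0 < b := by linarith
  have e := Real.log_le_sub_one_of_pos (div_pos (hb.trans_le h) hb)
  rw [Real.log_div (by linarith) hb.ne', le_sub_iff_add_le, le_div_iff₀ hb] at e
  rw [← mul_pow]
  have := Real.log_le_log hb h
  exact pow_le_pow_left₀ (mul_nonneg hm.le (by linarith)) (by nlinarith) 2

lemma trunc {L x l : ℝ} (hL : 0 ≤ L) (hx : 0 < x) (h : 2 ≤ l * x) :
    L ≤ x * (1 + Real.exp (l * (L - x))) ∧ L ^ 2 ≤ x ^ 2 * (1 + Real.exp (l * (L - x))) := by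
  have e := Real.exp_pos (l * (L - x))
  rcases le_total L x with h1 | h1
  · exact ⟨by nlinarith, by nlinarith [pow_le_pow_left₀ hL h1 2, sq_nonneg x]⟩
  have a1 : L ≤ x * Real.exp ((L - x) / x) := by
    have := mul_le_mul_of_nonneg_left (Real.add_one_le_exp ((L - x) / x)) hx.le
    rwa [mul_add, mul_div_cancel₀ _ hx.ne', mul_one, sub_add_cancel] at this
  have a2 : Real.exp ((L - x) / x) ^ 2 ≤ Real.exp (l * (L - x)) := by
    rw [← Real.exp_nat_mul]
    refine Real.exp_le_exp.2 ?_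
    rw [mul_div_assoc', div_le_iff₀ hx]; push_cast; nlinarith
  have a3 := Real.one_le_exp (div_nonneg (sub_nonneg.2 h1) hx.le)
  refine ⟨by nlinarith, ?_⟩
  nlinarith [pow_le_pow_left₀ hL a1 2, mul_le_mul_of_nonneg_left a2 (sq_nonneg x), sq_nonneg x]

end alg

variable {V : Type*} {G : SimpleGraph V} [G.LocallyFinite] {θ : ℝ} {d : ℕ} {a b c o u v w : V}
  {r N M : ℕ} {x x' : V → V → ℝ} {h h' : V → ℝ} {H ρ : ℝ}

lemma lev_succ (hG : G.IsTree) (S : V → ℝ) (N : ℕ) (u v : V) :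
    ∑ r ∈ Finset.range (N + 1), θ ^ r * ∑ y ∈ desc G r u v, ap G θ x r u y * S y =
      S u + ∑ c ∈ ch G u v, θ * gg θ (x c u) *
        ∑ r ∈ Finset.range N, θ ^ r * ∑ y ∈ desc G r c u, ap G θ x r c y * S y := by
  rw [Finset.sum_range_succ', add_comm]
  congr 1
  · simp [desc, ap]
  · simp only [sum_desc_succ hG, Finset.mul_sum]
    rw [Finset.sum_comm]
    refine Finset.sum_congr rfl fun c hc => Finset.sum_congr rfl fun r _ =>
      Finset.sum_congr rfl fun w hw => ?_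
    rw [ap_succ hG (mem_ch.1 hc).1 (desc_subset_Br hG hw)]; ring

lemma Lam_map (g : G ≃g G) (N : ℕ) (u v : V) :
    Lam G θ (fun a b => x (g a) (g b)) N u v = Lam G θ x N (g u) (g v) := by
  induction N generalizing u v with
  | zero => rw [Lam, Lam]
  | succ N ih => simp only [Lam, ih, sum_ch_map]

@[fun_prop] lemma measurable_Lam (N : ℕ) (u v : V) : Measurable fun x => Lam G θ x N u v := by
  induction N generalizing u v with
  | zero => exact measurable_const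
  | succ N ih =>
    exact measurable_const.add (Finset.measurable_sum _ fun c _ => Measurable.mul (by fun_prop) (ih _ _))

attribute [fun_prop] measurable_ap measurable_XX'

lemma Ak_sub (F F' : V → V → ℝ) (k : ℕ) (u v : V) :
    Ak G θ (fun a b => F a b - F' a b) k u v = Ak G θ F k u v - Ak G θ F' k u v := by
  induction k generalizing u v with
  | zero => simp only [Ak]
  | succ k ih => simp only [Ak, ih, Finset.sum_sub_distrib, mul_sub]

variable (G θ) in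
/-- total squared difference of the path gains -/
noncomputable def DA (x x' : V → V → ℝ) (N : ℕ) (u v : V) : ℝ :=
  ∑ r ∈ Finset.range N, ∑ w ∈ desc G r u v, (ap G θ x r u w - ap G θ x' r u w) ^ 2

variable (G θ) in
/-- source term -/
noncomputable def SS (x x' : V → V → ℝ) (M : ℕ) (y : V) : ℝ :=
  ∑ c ∈ ch G y y, (x c y - x' c y) ^ 2 * (Lam G θ x M c y + Lam G θ x' M c y)

variable (G θ) in
/-- logarithmic difference of the path gains -/
noncomputable def lg (x x' : V → V → ℝ) (r : ℕ) (u w : V) : ℝ :=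
  Real.log (ap G θ x r u w) - Real.log (ap G θ x' r u w)

/-- logarithmic difference of the edge gains -/
noncomputable def FF (θ : ℝ) (x x' : V → V → ℝ) (u v : V) : ℝ :=
  Real.log (gg θ (x u v)) - Real.log (gg θ (x' u v))

namespace Cr

variable (C : Cr G θ d)
include C

lemma dx_le (hc : Conv G θ h) (hc' : Conv G θ h') (hH : ∀ v, |h v| ≤ H) (hH' : ∀ v, |h' v| ≤ H)
    (hρ : rho θ d H ≤ ρ) (ρ1 : ρ < 1) (huv : G.Adj u v) : (XX G θ h u v - XX G θ h' u v) ^ 2 ≤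
      32 / (1 - ρ ^ 2) ^ 2 * ((XX G θ h u u - XX G θ h' u u) ^ 2 +
        (XX G θ h v v - XX G θ h' v v) ^ 2) := by
  have key : ∀ {h}, Conv G θ h → (∀ v, |h v| ≤ H) → ∀ {u v}, G.Adj u v →
      lr (XX G θ h u u) = lr (XX G θ h u v) + lr (θ * XX G θ h v u) := by
    intro h hc hH u v huv
    rw [C.bp hc hH (Or.inl rfl), C.bp hc hH (Or.inr huv), add_assoc,
      ← Finset.sum_erase_add _ _ (mem_ch.2 ⟨huv, huv.ne'⟩)]
    congr 3; ext c; simp only [Finset.mem_erase, mem_ch]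
    exact ⟨fun h => ⟨h.2.1, h.1⟩, fun h => ⟨h.2, h.1, h.1.ne'⟩⟩
  have l := fun u v => C.abs_XX_lt hH u v
  have l' := fun u v => C.abs_XX_lt hH' u v
  have k := fun u => lr_le ρ1 ((C.abs_XX_le hH u u).trans hρ) ((C.abs_XX_le hH' u u).trans hρ)
  have a1 := k u
  have a2 := k v
  have a3 := lr_contr C.pos.le C.lt_one.le (l u v) (l' u v)
  have a4 := lr_contr C.pos.le C.lt_one.le (l v u) (l' v u)
  have a5 := le_lr (l u v) (l' u v)
  rw [key hc hH huv, key hc' hH' huv] at a1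
  rw [key hc hH huv.symm, key hc' hH' huv.symm] at a2
  rw [← sq_abs, ← sq_abs (XX G θ h u u - _), ← sq_abs (XX G θ h v v - _),
    show 32 / (1 - ρ ^ 2) ^ 2 = 8 * (2 / (1 - ρ ^ 2)) ^ 2 by rw [div_pow]; ring]
  generalize 2 / (1 - ρ ^ 2) = κ at *
  have b1 := abs_sub (lr (XX G θ h u v) + lr (θ * XX G θ h v u) -
    (lr (XX G θ h' u v) + lr (θ * XX G θ h' v u))) (lr (θ * XX G θ h v u) - lr (θ * XX G θ h' v u))
  have b2 := abs_sub (lr (XX G θ h v u) + lr (θ * XX G θ h u v) -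
    (lr (XX G θ h' v u) + lr (θ * XX G θ h' u v))) (lr (θ * XX G θ h u v) - lr (θ * XX G θ h' u v))
  rw [show ∀ a b c d : ℝ, a + b - (c + d) - (b - d) = a - c from fun _ _ _ _ => by ring] at b1 b2
  have p1 := abs_nonneg (lr (XX G θ h u v) - lr (XX G θ h' u v))
  have p2 := (abs_nonneg _).trans a2
  have p3 := C.pos
  have b3 : |XX G θ h u v - XX G θ h' u v| ≤ 2 * (κ * |XX G θ h u u - XX G θ h' u u| +
      κ * |XX G θ h v v - XX G θ h' v v|) := by
    nlinarith [mul_le_mul_of_nonneg_left (b2.trans (add_le_add a2 a3)) p3.le,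
      mul_le_mul_of_nonneg_right C.half p1, mul_le_mul_of_nonneg_right C.lt_one.le p2]
  nlinarith [pow_le_pow_left₀ (abs_nonneg _) b3 2, sq_nonneg (κ * |XX G θ h u u - XX G θ h' u u| -
      κ * |XX G θ h v v - XX G θ h' v v|)]

variable (hx : ∀ u v, |x u v| < 1)
include hx

lemma lev_le (hN : N ≤ M + 1) (u v : V) :
    ∑ r ∈ Finset.range N, θ ^ r * ∑ w ∈ desc G r u v, ap G θ x r u w ≤ Lam G θ x M u v := by
  rw [Lam_eq C.tree]
  exact Finset.sum_le_sum_of_subset_of_nonneg (Finset.range_mono hN) fun r _ _ =>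
    mul_nonneg (pow_pos C.pos r).le (Finset.sum_nonneg fun w hw => (C.ap_bound hx hw).1.le)

lemma sq_lev_le (hN : N ≤ M + 1) (u v : V) :
    ∑ r ∈ Finset.range N, ∑ w ∈ desc G r u v, ap G θ x r u w ^ 2 ≤ Lam G θ x M u v := by
  refine le_trans (Finset.sum_le_sum fun r _ => ?_) (C.lev_le hx hN u v)
  rw [Finset.mul_sum]
  exact Finset.sum_le_sum fun w hw => by
    nlinarith [(C.ap_bound hx hw).1, (C.ap_bound hx hw).2]

variable (hx' : ∀ u v, |x' u v| < 1)
include hx'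

lemma DA_le (hN : N ≤ M + 1) (u v : V) : DA G θ x x' N u v ≤
    128 * ∑ r ∈ Finset.range N, θ ^ r * ∑ y ∈ desc G r u v, ap G θ x r u y * SS G θ x x' M y := by
  induction N generalizing u v with
  | zero => simp [DA]
  | succ N ih =>
    have t : ∀ c, 0 ≤ (x c u - x' c u) ^ 2 * (Lam G θ x M c u + Lam G θ x' M c u) := fun c =>
      mul_nonneg (sq_nonneg _) (by linarith [C.one_le_Lam hx M c u, C.one_le_Lam hx' M c u])
    have s : ∑ c ∈ ch G u v, (x c u - x' c u) ^ 2 * (Lam G θ x M c u + Lam G θ x' M c u) ≤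
        SS G θ x x' M u := Finset.sum_le_sum_of_subset_of_nonneg
      (fun c hc => mem_ch.2 ⟨(mem_ch.1 hc).1, (mem_ch.1 hc).1.ne'⟩) fun c _ _ => t c
    rw [lev_succ C.tree, DA, Finset.sum_range_succ', mul_add, add_comm]
    refine le_trans (le_of_eq (a := _) (b := ∑ c ∈ ch G u v, ∑ r ∈ Finset.range N,
      ∑ w ∈ desc G r c u, (gg θ (x c u) * ap G θ x r c w - gg θ (x' c u) * ap G θ x' r c w) ^ 2) ?_)
      (le_trans ?_ (add_le_add_left (mul_le_mul_of_nonneg_left s (by norm_num)) _))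
    · simp only [ap, sub_self, sum_desc_succ C.tree]
      rw [Finset.sum_comm, zero_pow two_ne_zero, Finset.sum_const_zero, zero_add]
      refine Finset.sum_congr rfl fun c hc => Finset.sum_congr rfl fun r _ =>
        Finset.sum_congr rfl fun w hw => ?_
      rw [← ap_succ C.tree (mem_ch.1 hc).1 (desc_subset_Br C.tree hw),
        ← ap_succ C.tree (mem_ch.1 hc).1 (desc_subset_Br C.tree hw), ap, ap]
    · rw [Finset.mul_sum, Finset.mul_sum, ← Finset.sum_add_distrib]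
      refine Finset.sum_le_sum fun c _ => (Finset.sum_le_sum fun r _ => Finset.sum_le_sum
        fun w _ => gain_step C.pos.le C.half (hx c u) (hx' c u) _ _).trans ?_
      simp only [Finset.sum_add_distrib, ← Finset.mul_sum]
      have a1 := mul_le_mul_of_nonneg_left (ih (by omega) c u)
        (mul_nonneg C.pos.le (gg_nonneg C.pos.le C.lt_one.le (hx c u)))
      have a2 := mul_le_mul_of_nonneg_left (add_le_add (C.sq_lev_le hx (N := N) (M := M) (by omega) c u)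
        (C.sq_lev_le hx' (N := N) (M := M) (by omega) c u)) (sq_nonneg (x c u - x' c u))
      unfold DA at a1
      linarith

lemma lg_succ (hc : G.Adj u c) (hw : w ∈ desc G r c u) :
    lg G θ x x' (r + 1) u w = FF θ x x' c u + lg G θ x x' r c w := by
  have g : ∀ {y : ℝ}, |y| < 1 → gg θ y ≠ 0 := fun {y} hy => by
    have a := gg_ge C.pos.le C.half hy le_rfl
    have e : |y| ^ 2 < 1 := by nlinarith [abs_nonneg y]
    exact (lt_of_lt_of_le (mul_pos C.pos (by linarith)) a).ne'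
  rw [lg, lg, FF, ap_succ C.tree hc (desc_subset_Br C.tree hw),
    ap_succ C.tree hc (desc_subset_Br C.tree hw), Real.log_mul (g (hx _ _)) (C.ap_bound hx hw).1.ne',
    Real.log_mul (g (hx' _ _)) (C.ap_bound hx' hw).1.ne']
  ring

lemma lg_sum (r : ℕ) (u v : V) : (θ ^ 2) ^ r * ∑ w ∈ desc G r u v, lg G θ x x' r u w =
    ∑ k ∈ Finset.range r, Ak G θ (FF θ x x') (k + 1) u v := by
  induction r generalizing u v with
  | zero => simp [lg, ap]
  | succ r ih =>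
    rw [Finset.sum_range_succ', sum_desc_succ C.tree, pow_succ', mul_assoc, Finset.mul_sum]
    have e : ∀ k, Ak G θ (FF θ x x') (k + 1) u v =
        θ ^ 2 * ∑ c ∈ ch G u v, Ak G θ (FF θ x x') k c u := fun k => by rw [Ak]
    simp only [e, Ak.eq_1]
    rw [← Finset.mul_sum (Finset.range r), ← mul_add, Finset.sum_comm, ← Finset.sum_add_distrib]
    congr 1
    refine Finset.sum_congr rfl fun c hc => ?_
    have := sum_desc_one C.tree C.reg r (mem_ch.1 hc).1.symm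
    rw [Finset.sum_congr rfl fun w hw => C.lg_succ hx hx' (mem_ch.1 hc).1 hw,
      Finset.sum_add_distrib, mul_add, ih, Finset.sum_const, nsmul_eq_mul, ← mul_assoc,
      show ((desc G r c u).card : ℝ) = (d - 1) ^ r by simpa using this, ← mul_pow,
      mul_comm (θ ^ 2), C.crit]
    simp [add_comm]

lemma lg_sq (r : ℕ) (u v : V) :
    (θ ^ 2) ^ (r + 1) * ∑ w ∈ desc G (r + 1) u v, lg G θ x x' (r + 1) u w ^ 2 =
    θ ^ 2 * ∑ c ∈ ch G u v, (FF θ x x' c u ^ 2 + ∑ k ∈ Finset.range r, 2 * FF θ x x' c u *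
      Ak G θ (FF θ x x') (k + 1) c u + (θ ^ 2) ^ r * ∑ w ∈ desc G r c u, lg G θ x x' r c w ^ 2) := by
  rw [sum_desc_succ C.tree, pow_succ', mul_assoc, Finset.mul_sum]
  congr 1
  refine Finset.sum_congr rfl fun c hc => ?_
  have := sum_desc_one C.tree C.reg r (mem_ch.1 hc).1.symm
  rw [Finset.sum_congr rfl fun w hw => by rw [C.lg_succ hx hx' (mem_ch.1 hc).1 hw, add_sq],
    Finset.sum_add_distrib, Finset.sum_add_distrib, ← Finset.mul_sum, ← Finset.mul_sum,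
    ← C.lg_sum hx hx', Finset.sum_const, nsmul_eq_mul,
    show ((desc G r c u).card : ℝ) = (d - 1) ^ r by simpa using this]
  have : (θ ^ 2) ^ r * (d - 1) ^ r = 1 := by rw [← mul_pow, mul_comm, C.crit, one_pow]
  linear_combination FF θ x x' c u ^ 2 * this

omit hx hx' in
lemma FF_le {y y' : ℝ} (ρ1 : ρ < 1) (hx : |y| ≤ ρ) (hx' : |y'| ≤ ρ) (ϑ : ℝ) :
    (Real.log (gg θ y) - Real.log (gg θ y')) ^ 2 ≤ (64 * ϑ ^ 2 * (y - y') ^ 2 +
      256 * (ind (ϑ < |y|) + ind (ϑ < |y'|))) / (1 - ρ ^ 2) ^ 2 := by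
  have ρ0 : 0 ≤ ρ := (abs_nonneg _).trans hx
  have γ : 0 < 1 - ρ ^ 2 := by nlinarith
  have a := log_sub_le (mul_pos C.pos γ) (gg_ge C.pos.le C.half ρ1 hx) (gg_ge C.pos.le C.half ρ1 hx')
  obtain ⟨k, k0, k1, e⟩ := gg_sub C.half (hx.trans_lt ρ1) (hx'.trans_lt ρ1)
  rw [e, mul_pow, mul_assoc, mul_assoc, mul_pow] at a
  have a1 := le_of_mul_le_mul_left a (pow_pos C.pos 2)
  rw [le_div_iff₀ (by positivity), mul_comm]
  refine a1.trans ?_
  have i1 := ind_nonneg (ϑ < |y|)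
  have i2 := ind_nonneg (ϑ < |y'|)
  have a2 : (k * (y' ^ 2 - y ^ 2)) ^ 2 ≤ 16 * ((y + y') ^ 2 * (y - y') ^ 2) := by
    rw [mul_pow, ← mul_pow (y + _), show (y' ^ 2 - y ^ 2) ^ 2 = ((y + y') * (y - y')) ^ 2 by ring]
    exact mul_le_mul_of_nonneg_right (by nlinarith only [k0, k1]) (sq_nonneg _)
  refine a2.trans ?_
  obtain ⟨b1, b1'⟩ := _root_.abs_lt.1 (hx.trans_lt ρ1)
  obtain ⟨b2, b2'⟩ := _root_.abs_lt.1 (hx'.trans_lt ρ1)
  have a3 : (y + y') ^ 2 * (y - y') ^ 2 ≤ 2 ^ 2 * 2 ^ 2 :=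
    mul_le_mul (sq_le_sq' (by linarith) (by linarith)) (sq_le_sq' (by linarith) (by linarith))
      (sq_nonneg _) (by norm_num)
  have a4 : 0 ≤ ϑ ^ 2 * (y - y') ^ 2 := by positivity
  by_cases h1 : ϑ < |y|
  · rw [ind_pos h1]; linarith
  by_cases h2 : ϑ < |y'|
  · rw [ind_pos h2]; linarith
  have c1 := abs_le.1 (not_lt.1 h1)
  have c2 := abs_le.1 (not_lt.1 h2)
  have a5 : (y + y') ^ 2 ≤ (2 * ϑ) ^ 2 := sq_le_sq' (by linarith) (by linarith)
  linarith [mul_le_mul_of_nonneg_right a5 (sq_nonneg (y - y'))]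

end Cr

end Vale.Agent.P161
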