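import Vale.Agent.P161.Join

/-! The posterior mean moves only by jumps. -/

namespace Vale.Agent.P161

open Vale.Agent.P151 MeasureTheory Measure Filter Topology Function ProbabilityTheory
open scoped Classical ENNReal

lemma sq_orth {α ι : Type*} [MeasurableSpace α] {ν : Measure α} [IsFiniteMeasure ν] (W : Finset ι)
    {D : α → ℝ} {J : ι → α → ℝ} (hD : BM D) (hJ : ∀ w, BM (J w))
    (h : ∀ w ∈ W, ∀ w' ∈ W, w ≠ w' → ∫ x, J w x * J w' x ∂ν = 0) :
    ∫ x, (D x + ∑ w ∈ W, J w x) ^ 2 ∂ν =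
      ∫ x, D x ^ 2 ∂ν + ∑ w ∈ W, (2 * ∫ x, D x * J w x ∂ν + ∫ x, J w x ^ 2 ∂ν) := by
  induction W using Finset.induction_on generalizing D with
  | empty => simp
  | insert a W ha ih =>
    simp only [Finset.sum_insert ha, ← add_assoc]
    rw [ih (hD.add (hJ a)) fun w hw w' hw' => h w (Finset.mem_insert_of_mem hw) w'
      (Finset.mem_insert_of_mem hw')]
    congr 1
    · rw [← integral_const_mul, ← BM.iadd (by fun_prop) (by fun_prop),
        ← BM.iadd (by fun_prop) (by fun_prop)]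
      congr 1; funext x; ring
    · refine Finset.sum_congr rfl fun w hw => ?_
      simp only [add_mul]
      rw [BM.iadd (by fun_prop) (by fun_prop), h a (Finset.mem_insert_self _ _) w
        (Finset.mem_insert_of_mem hw) fun e => ha (e ▸ hw), add_zero]

lemma tendsto_int {α : Type*} [MeasurableSpace α] {ν : Measure α} [IsFiniteMeasure ν]
    {F : ℕ → α → ℝ} {f : α → ℝ} (m : ∀ n, BM (F n)) (C : ℝ) (hC : ∀ n x, |F n x| ≤ C)
    (h : ∀ᵐ x ∂ν, Tendsto (fun n => F n x) atTop (𝓝 (f x))) :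
    Tendsto (fun n => ∫ x, F n x ∂ν) atTop (𝓝 (∫ x, f x ∂ν)) :=
  tendsto_integral_filter_of_norm_le_const
    (Eventually.of_forall fun n => (m n).meas.aestronglyMeasurable)
    ⟨C, Eventually.of_forall fun n => ae_of_all _ (hC n)⟩ h

variable {V : Type*} {G : SimpleGraph V} [G.LocallyFinite] {θ : ℝ} {d : ℕ}
  {μ : Measure (V → Bool)} {K k : ℤ} {τ : JJ V → II} {i j : JJ V} {s t s1 s2 : II}
  {A B : Set (JJ V)} {S : Set V} {o w : V} {r N : ℕ}

@[fun_prop] lemma measurable_zB_insert {α : Type*} [MeasurableSpace α] {B : α → Set (JJ V)}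
    {O : α → OO V} (h : Measurable fun x => zB (B x) (O x)) (hO : Measurable O) (i : JJ V) :
    Measurable fun x => zB (insert i (B x)) (O x) :=
  measurable_pi_lambda _ fun j => by
    by_cases e : j = i
    · simp only [zB, e, Set.mem_insert, if_true]; fun_prop
    · have : ∀ x, zB (insert i (B x)) (O x) j = zB (B x) (O x) j := fun x => by simp [zB, e]
      simp only [this]; fun_prop

/-- observations before `s`, and those in `S` before `t` -/
def Mk (k : ℤ) (s : II) (S : Set V) (t : II) (τ : JJ V → II) : Set (JJ V) :=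
  Bt k s τ ∪ Bt k t τ ∩ Prod.fst ⁻¹' S

lemma mem_Mk : j ∈ Mk k s S t τ ↔ j ∈ Bt k s τ ∨ (j ∈ Bt k t τ ∧ j.1 ∈ S) := Iff.rfl

@[fun_prop] lemma measurable_Mk {α : Type*} [MeasurableSpace α] {t : α → II} {τ : α → JJ V → II}
    {O : α → OO V} (ht : Measurable t) (hτ : Measurable τ) (hO : Measurable O) (k : ℤ) (s : II)
    (S : Set V) : Measurable fun x => zB (Mk k s S (t x) (τ x)) (O x) :=
  measurable_zB' (fun j => by simp only [mem_Mk, mem_Bt]; fun_prop) hO

lemma sc_Mk : Sc k (Mk k s S t τ) := fun j hj => hj.elim (sc_Bt j) fun h => sc_Bt j h.1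

lemma Sc.insert (h : Sc k B) (w : V) : Sc k (insert (w, k) B) := fun j hj =>
  hj.elim (fun e => by rw [e]) (h j)

lemma Bt_mono (h : s ≤ t) : Bt k s τ ⊆ Bt k t τ := fun _ hj =>
  hj.imp id fun e => ⟨e.1, e.2.trans_le h⟩

lemma Mk_univ (h : s ≤ t) : Mk k s (Set.univ : Set V) t τ = Bt k t τ := by
  simp [Mk, Bt_mono h]

lemma ins_Mk (hw : w ∈ S) (h : τ (w, k) < t) :
    insert (w, k) (Mk k s S (τ (w, k)) τ) ⊆ Mk k s S t τ :=
  Set.insert_subset (Or.inr ⟨Or.inr ⟨rfl, h⟩, hw⟩)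
    fun _ hj => hj.imp id fun e => ⟨Bt_mono h.le e.1, e.2⟩

lemma tele (hτ : Injective τ) (Q : Set (JJ V) → ℝ) (S : Finset V) :
    Q (Mk k s1 S s2 τ) - Q (Bt k s1 τ) = ∑ w ∈ S, ind (s1 ≤ τ (w, k) ∧ τ (w, k) < s2) *
      (Q (insert (w, k) (Mk k s1 S (τ (w, k)) τ)) - Q (Mk k s1 S (τ (w, k)) τ)) := by
  induction S using Finset.induction_on_max_value (fun w => τ (w, k)) with
  | empty => simp [Mk]
  | insert a S ha hm ih =>
    have e1 : ∀ t, (t ≤ τ (a, k) ∨ τ (a, k) < s1) →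
        Mk k s1 (insert a S : Finset V) t τ = Mk k s1 S t τ := by
      intro t ht
      ext ⟨v, l⟩
      simp only [mem_Mk, mem_Bt, Finset.coe_insert, Set.mem_insert_iff]
      constructor
      · rintro (h | ⟨h, rfl | h'⟩)
        · exact Or.inl h
        · rcases h with h | ⟨rfl, h⟩
          · exact Or.inl (Or.inl h)
          · exact Or.inl (Or.inr ⟨rfl, ht.resolve_left h.not_ge⟩)
        · exact Or.inr ⟨h, h'⟩
      · exact Or.imp id fun h => ⟨h.1, Or.inr h.2⟩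
    rw [Finset.sum_insert ha, Finset.sum_congr rfl fun w hw => by rw [e1 _ (Or.inl (hm w hw))],
      ← ih, e1 _ (Or.inl le_rfl)]
    by_cases h : s1 ≤ τ (a, k) ∧ τ (a, k) < s2
    · have e2 : Mk k s1 S (τ (a, k)) τ = Mk k s1 S s2 τ := by
        ext ⟨v, l⟩
        simp only [mem_Mk, mem_Bt]
        refine or_congr_right (and_congr_left fun hv => or_congr_right (and_congr_right ?_))
        rintro rfl
        have := lt_of_le_of_ne (hm v hv) (hτ.ne fun e => ha ((Prod.mk.inj e).1 ▸ hv))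
        simp [this, this.trans h.2]
      have e3 : Mk k s1 (insert a S : Finset V) s2 τ = insert (a, k) (Mk k s1 S s2 τ) := by
        ext ⟨v, l⟩
        simp only [mem_Mk, mem_Bt, Finset.coe_insert, Set.mem_insert_iff, Prod.mk.injEq]
        constructor
        · rintro (h1 | ⟨h1, rfl | h'⟩)
          · exact Or.inr (Or.inl h1)
          · exact h1.elim (fun h => Or.inr (Or.inl (Or.inl h))) fun h => Or.inl ⟨rfl, h.1⟩
          · exact Or.inr (Or.inr ⟨h1, h'⟩)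
        · rintro (⟨rfl, rfl⟩ | h1)
          · exact Or.inr ⟨Or.inr ⟨rfl, h.2⟩, Or.inl rfl⟩
          · exact h1.imp id fun h => ⟨h.1, Or.inr h.2⟩
      rw [ind_pos h, e2, e3]; ring
    · rw [ind_neg h, e1 s2 (by simpa [or_comm, ← not_lt, imp_iff_not_or] using h)]; ring

variable (G θ) in
/-- jump of the posterior mean -/
noncomputable def Jp (o : V) (B : Set (JJ V)) (i : JJ V) (O : OO V) : ℝ :=
  ms G θ (zB (insert i B) O) o - ms G θ (zB B O) o

variable (G θ μ) in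
/-- second moment of the posterior mean -/
noncomputable def qq (o : V) (B : Set (JJ V)) : ℝ := ∫ O, ms G θ (zB B O) o ^ 2 ∂PO μ

variable (G θ) in
/-- increment minus the jumps inside `W` -/
noncomputable def RR (o : V) (k : ℤ) (s1 s2 : II) (S : Set V) (W : Finset V) (ω : Om V) : ℝ :=
  ms G θ (zB (Mk k s1 S s2 ω.1) ω.2) o - ms G θ (zB (Bt k s1 ω.1) ω.2) o +
    ∑ w ∈ W, -ind (s1 ≤ ω.1 (w, k) ∧ ω.1 (w, k) < s2) *
      Jp G θ o (Mk k s1 S (ω.1 (w, k)) ω.1) (w, k) ω.2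

@[fun_prop] lemma BM.RR [Fact (|θ| < 1)] (o : V) (k : ℤ) (s1 s2 : II) (S : Set V) (W : Finset V) :
    BM (RR G θ o k s1 s2 S W) := by unfold P161.RR Jp; fun_prop

variable (G) in
/-- ball as a union of levels -/
noncomputable def dB (N : ℕ) (o : V) : Finset V := (Finset.range N).biUnion fun r => desc G r o o

lemma sum_dB (hG : G.IsTree) (f : V → ℝ) :
    ∑ w ∈ dB G N o, f w = ∑ r ∈ Finset.range N, ∑ w ∈ desc G r o o, f w :=
  Finset.sum_biUnion fun _ _ _ _ hne => Finset.disjoint_left.2 fun _ h h' =>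
    hne (desc_unique hG h h')

lemma dB_mono : Monotone fun N => dB G N o := fun _ _ h =>
  Finset.biUnion_subset_biUnion_of_subset_left _ (Finset.range_mono h)

lemma exists_desc (hG : G.IsTree) (o w : V) : ∃ r, w ∈ desc G r o o := by
  obtain ⟨n, hn⟩ := exists_ball_of_reachable (hG.connected o w)
  obtain ⟨r, -, h⟩ := exists_desc_of_ball hn
  exact ⟨r, h⟩

namespace Cr

variable (C : Cr G θ d) (hμ : IsFreeIsing G θ μ)
include C hμ

lemma ip (hB : Sc K B) (h : A ⊆ B) :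
    ∫ O, ms G θ (zB A O) o * ms G θ (zB B O) o ∂PO μ = qq G θ μ o A := by
  have := hμ.1
  have : Fact (|θ| < 1) := ⟨C.abs_lt⟩
  have a := C.post hμ hB (f := fun z => ms G θ (msk A z) o) (BM.meas (by fun_prop)) (by fun_prop) o
  have b := C.post hμ (hB.mono h) (f := fun z => ms G θ z o) (BM.meas (by fun_prop)) (by fun_prop) o
  simp only [mk_zB h] at a
  rw [← a, b, qq]; simp only [sq]

lemma ip1 (hB : Sc K (insert i B)) (h : A ⊆ B) :
    ∫ O, ms G θ (zB A O) o * Jp G θ o B i O ∂PO μ = 0 := by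
  have := hμ.1
  have : Fact (|θ| < 1) := ⟨C.abs_lt⟩
  simp only [Jp, mul_sub]
  rw [BM.isub (by fun_prop) (by fun_prop), C.ip hμ hB (h.trans (Set.subset_insert _ _)),
    C.ip hμ (hB.mono (Set.subset_insert _ _)) h, sub_self]

lemma ip2 (hA : Sc K A) (h : insert i B ⊆ A) :
    ∫ O, ms G θ (zB A O) o * Jp G θ o B i O ∂PO μ = qq G θ μ o (insert i B) - qq G θ μ o B := by
  have := hμ.1
  have : Fact (|θ| < 1) := ⟨C.abs_lt⟩
  simp only [Jp, sub_mul, mul_comm (ms G θ (zB A _) o)]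
  rw [BM.isub (by fun_prop) (by fun_prop), C.ip hμ hA h,
    C.ip hμ hA ((Set.subset_insert _ _).trans h)]

lemma ip3 (hB : Sc K (insert i B)) :
    ∫ O, Jp G θ o B i O ^ 2 ∂PO μ = qq G θ μ o (insert i B) - qq G θ μ o B := by
  have := hμ.1
  have : Fact (|θ| < 1) := ⟨C.abs_lt⟩
  rw [← C.ip2 hμ hB subset_rfl, ← sub_zero (∫ O, _ * _ ∂_), ← C.ip1 (o := o) hμ hB subset_rfl,
    ← BM.isub (by unfold Jp; fun_prop) (by unfold Jp; fun_prop)]
  congr 1; funext O; rw [← sub_mul, sq]; rfl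

lemma ip4 (hB : Sc K (insert i B)) (h : insert j A ⊆ B) :
    ∫ O, Jp G θ o A j O * Jp G θ o B i O ∂PO μ = 0 := by
  have := hμ.1
  have : Fact (|θ| < 1) := ⟨C.abs_lt⟩
  simp only [Jp.eq_1 G θ o A, sub_mul]
  rw [BM.isub (by unfold Jp; fun_prop) (by unfold Jp; fun_prop), C.ip1 hμ hB h,
    C.ip1 hμ hB ((Set.subset_insert _ _).trans h), sub_self]

lemma RR_sq (hτ : Injective τ) {W : Finset V} (hW : ∀ w ∈ W, w ∈ S) :
    ∫ O, RR G θ o k s1 s2 S W (τ, O) ^ 2 ∂PO μ =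
      qq G θ μ o (Mk k s1 S s2 τ) - qq G θ μ o (Bt k s1 τ) -
      ∑ w ∈ W, ind (s1 ≤ τ (w, k) ∧ τ (w, k) < s2) * (qq G θ μ o
        (insert (w, k) (Mk k s1 S (τ (w, k)) τ)) - qq G θ μ o (Mk k s1 S (τ (w, k)) τ)) := by
  have := hμ.1
  have : Fact (|θ| < 1) := ⟨C.abs_lt⟩
  have key : ∀ w ∈ W, ∀ w' ∈ W, τ (w, k) < τ (w', k) → ∫ O, Jp G θ o (Mk k s1 S (τ (w, k)) τ) (w, k) O
      * Jp G θ o (Mk k s1 S (τ (w', k)) τ) (w', k) O ∂PO μ = 0 := fun w hw w' _ h =>
    C.ip4 hμ (sc_Mk.insert _) (ins_Mk (hW w hw) h)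
  simp only [RR]
  rw [sq_orth W (by fun_prop) (fun w => by unfold Jp; fun_prop) fun w hw w' hw' hne => ?_,
    sub_eq_add_neg _ (∑ _ ∈ _, _), ← Finset.sum_neg_distrib]
  · congr 1
    · have := C.ip (o := o) hμ sc_Mk (Set.subset_union_left : _ ⊆ Mk k s1 S s2 τ)
      simp only [sub_sq, mul_assoc, mul_comm (ms G θ (zB (Mk k s1 S s2 τ) _) o)]
      rw [BM.iadd (by fun_prop) (by fun_prop), BM.isub (by fun_prop) (by fun_prop),
        integral_const_mul, this, qq, qq]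
      ring
    refine Finset.sum_congr rfl fun w hw => ?_
    by_cases h : s1 ≤ τ (w, k) ∧ τ (w, k) < s2
    · simp only [ind_pos h, neg_mul, one_mul, mul_neg, neg_sq, integral_neg, sub_mul]
      rw [BM.isub (by unfold Jp; fun_prop) (by unfold Jp; fun_prop),
        C.ip2 hμ sc_Mk (ins_Mk (hW w hw) h.2), C.ip1 hμ (sc_Mk.insert _) Set.subset_union_left,
        C.ip3 hμ (sc_Mk.insert _)]
      ring
    · simp [ind_neg h]
  · simp only [mul_mul_mul_comm (-ind _), integral_const_mul]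
    refine mul_eq_zero_of_right _ ?_
    rcases lt_or_gt_of_ne (hτ.ne fun e : (w, k) = (w', k) => hne (Prod.mk.inj e).1) with h | h
    · exact key w hw w' hw' h
    · simpa only [mul_comm] using key w' hw' w hw h

omit hμ in
lemma Jp_eq (hB : Sc K B) (hi : i ∉ B) (hw : i.1 ∈ desc G r o o) {O : OO V}
    (hc : Conv G θ (hh (zB B O))) : Jp G θ o B i O =
      ph (aa i.2 * yy O i) (ms G θ (zB B O) i.1) * Cw G θ (XX G θ (hh (zB B O))) r o i.1 := by
  rw [Jp, zB_insert hi, ms, hh_update hB hi, C.jump hc (abs_hh_le hB O) hw (by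
    rw [abs_mul]; exact mul_le_one₀ (abs_aa _) (abs_nonneg _) (abs_yy _ _)), ms, ms, Cw]
  ring

lemma delta_le (hB : Sc K (insert i B)) (hi : i ∉ B) (hw : i.1 ∈ desc G r o o) :
    qq G θ μ o (insert i B) - qq G θ μ o B ≤
      θ ^ r * ∫ O, ap G θ (XX G θ (hh (zB B O))) r o i.1 ∂PO μ := by
  have := hμ.1
  have : Fact (|θ| < 1) := ⟨C.abs_lt⟩
  have hB' := hB.mono (Set.subset_insert _ _)
  rw [← C.ip3 hμ hB, ← integral_const_mul]
  refine BM.imono' (by unfold Jp; fun_prop) (by fun_prop) ?_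
  filter_upwards [C.ae_conv hμ hB'] with O hc
  have hx := C.abs_XX_lt (abs_hh_le hB' O)
  obtain ⟨a, b⟩ := C.ap_bound hx hw
  have c := (sq_le_one_iff_abs_le_one _).2 (abs_ph_le (y := aa i.2 * yy O i)
    (m := ms G θ (zB B O) i.1) (by
      rw [abs_mul]; exact mul_le_one₀ (abs_aa _) (abs_nonneg _) (abs_yy _ _)) (hx _ _).le)
  have e := (sq_lt_one_iff_abs_lt_one _).2 (hx o o)
  have f : (1 - XX G θ (hh (zB B O)) o o ^ 2) ^ 2 ≤ 1 := by
    nlinarith [sq_nonneg (XX G θ (hh (zB B O)) o o)]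
  rw [C.Jp_eq hB' hi hw hc, Cw, mul_pow, mul_pow]
  refine (mul_le_of_le_one_left (by positivity) c).trans
    ((mul_le_of_le_one_right (sq_nonneg _) f).trans ?_)
  rw [sq]; exact mul_le_mul_of_nonneg_right b a.le

lemma ann (hw : w ∈ desc G r o o) : ∫ τ, ind (s1 ≤ τ (w, k) ∧ τ (w, k) < s2) * (qq G θ μ o
    (insert (w, k) (Mk k s1 S (τ (w, k)) τ)) - qq G θ μ o (Mk k s1 S (τ (w, k)) τ)) ∂iid (JJ V) ≤
    (θ ^ 2) ^ r * (1 - eta θ (aa (k - 1) ^ 2 / 24)) ^ r := by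
  have := hμ.1
  have : Fact (|θ| < 1) := ⟨C.abs_lt⟩
  have p1 : aa (k - 1) ^ 2 / 24 ≤ 1 := by nlinarith [aa_pos (k - 1), aa_le (k - 1)]
  have e0 := sub_nonneg.2 (C.eta_le p1)
  have θ0 := C.pos
  refine (BM.imono (g := fun τ => ind (s1 ≤ τ (w, k)) * (θ ^ r * ∫ O, ap G θ (XX G θ (hh (zB
    (Mk k s1 S (τ (w, k)) τ) O))) r o w ∂PO μ)) (by unfold qq; fun_prop) (by fun_prop)
    fun τ => ?_).trans ?_
  · by_cases h : s1 ≤ τ (w, k) ∧ τ (w, k) < s2
    · rw [ind_pos h, ind_pos h.1, one_mul, one_mul]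
      exact C.delta_le hμ (sc_Mk.insert _) (by simp [mem_Mk, mem_Bt, h.1]) hw
    · rw [ind_neg h, zero_mul]
      exact mul_nonneg (ind_nonneg _) (mul_nonneg (by positivity) (integral_nonneg fun O =>
        (C.ap_bound (C.abs_XX_lt (abs_hh_le sc_Mk O)) hw).1.le))
  rw [iid, BM.upd (w, k) (by fun_prop), BM.swap (by fun_prop)]
  refine (BM.imono (by fun_prop) (BM.const _) fun t => ?_).trans_eq (by simp; rfl)
  simp only [update_self, integral_const_mul]
  by_cases h : s1 ≤ t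
  swap
  · rw [ind_neg h, zero_mul]; positivity
  let b : JJ V → Set II := fun j => {x | j ≠ (w, k) ∧ (x ∈ bt k s1 j ∨ x ∈ bt k t j ∧ j.1 ∈ S)}
  have e : ∀ τ, Mk k s1 S t (update τ (w, k) t) = Bm b τ := fun τ => by
    ext j
    by_cases e : j = (w, k)
    · simp [e, mem_Mk, mem_Bt, Bm, b, h]
    · simp [e, mem_Mk, mem_Bt, Bm, b, bt]
  have hb : ∀ j, MeasurableSet (b j) := fun j =>
    measurableSet_setOfPred.2 (by simp only [bt, Set.mem_ofPred_eq]; fun_prop)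
  have L := C.pl hμ hb (K := k) (fun j hj => by ext x; simp [b, bt, hj.not_gt, hj.ne'])
    (k := k - 1) fun v x hx => ⟨by simp, Or.inl (Or.inl ⟨by simp, hx⟩)⟩
  have := L.ap_exp (by positivity) p1 hw
  have mz := measurable_zb hb
  rw [BM.fub (by fun_prop)] at this
  simp only [e, ind_pos h, one_mul]
  refine (mul_le_mul_of_nonneg_left this (by positivity)).trans_eq ?_
  rw [mul_pow, ← mul_assoc, ← mul_pow, ← sq, eta]

lemma rem_fin (N N' : ℕ) (h : N ≤ N') : ∫ ω, RR G θ o k s1 s2 (dB G N' o) (dB G N o) ω ^ 2 ∂PP μ ≤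
    2 * ((1 - eta θ (aa (k - 1) ^ 2 / 24)) ^ N / eta θ (aa (k - 1) ^ 2 / 24)) := by
  have := hμ.1
  have : Fact (|θ| < 1) := ⟨C.abs_lt⟩
  have := countable_of_tree C.tree
  have p0 : 0 < aa (k - 1) ^ 2 / 24 := by have := aa_pos (k - 1); positivity
  have p1 : aa (k - 1) ^ 2 / 24 ≤ 1 := by nlinarith [aa_pos (k - 1), aa_le (k - 1)]
  rw [BM.fub (by fun_prop), integral_congr_ae (by
    filter_upwards [ae_injective] with τ hτ
    rw [C.RR_sq hμ hτ fun w hw => dB_mono h hw, tele hτ]),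
    BM.isub (by unfold qq; fun_prop) (by unfold qq; fun_prop),
    BM.isum _ fun _ _ => by unfold qq; fun_prop, BM.isum _ fun _ _ => by unfold qq; fun_prop,
    sum_dB C.tree, sum_dB C.tree, ← Finset.sum_Ico_eq_sub _ h]
  refine le_trans (Finset.sum_le_sum fun r _ => (Finset.sum_le_sum fun w hw => C.ann hμ hw).trans
    ?_) ((Finset.mul_sum ..).ge.trans (mul_le_mul_of_nonneg_left
      (geom_le (C.eta_pos p0) (C.eta_le p1) N N') two_pos.le))
  rw [← Finset.mul_sum]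
  exact C.level (fun _ _ => le_rfl) (pow_nonneg (sub_nonneg.2 (C.eta_le p1)) r)

lemma rem (N : ℕ) : ∫ ω, RR G θ o k s1 s2 Set.univ (dB G N o) ω ^ 2 ∂PP μ ≤
    2 * ((1 - eta θ (aa (k - 1) ^ 2 / 24)) ^ N / eta θ (aa (k - 1) ^ 2 / 24)) := by
  have := hμ.1
  have : Fact (|θ| < 1) := ⟨C.abs_lt⟩
  have bd : ∀ (S : Set V) ω, |RR G θ o k s1 s2 S (dB G N o) ω ^ 2| ≤
      (2 + (dB G N o).card * 2) ^ 2 := fun S ω => by
    have a : ∀ z z', |ms G θ z o - ms G θ z' o| ≤ 2 := fun z z' => (abs_sub _ _).trans (by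
      unfold ms
      linarith [abs_XX_le_one (G := G) C.abs_lt (hh z) o o,
        abs_XX_le_one (G := G) C.abs_lt (hh z') o o])
    rw [abs_pow]
    refine pow_le_pow_left₀ (abs_nonneg _) ((abs_add_le _ _).trans (add_le_add (a _ _)
      ((Finset.abs_sum_le_sum_abs _ _).trans ((Finset.sum_le_card_nsmul _ _ 2 fun w _ => ?_).trans_eq
        (nsmul_eq_mul _ _))))) 2
    rw [abs_mul, abs_neg, abs_of_nonneg (ind_nonneg _)]
    exact (mul_le_of_le_one_left (abs_nonneg _) (ind_le_one _)).trans (a _ _)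
  refine le_of_tendsto (f := fun N' => ∫ ω, RR G θ o k s1 s2 (dB G N' o) (dB G N o) ω ^ 2 ∂PP μ)
    (x := atTop) ?_ ((eventually_ge_atTop N).mono fun N' h => C.rem_fin hμ N N' h)
  rw [BM.fub (by fun_prop)]
  refine Tendsto.congr (fun N' => (BM.fub (by fun_prop)).symm) (tendsto_int (fun _ => by fun_prop)
    ((2 + (dB G N o).card * 2) ^ 2) (fun n τ => ?_) (ae_of_all _ fun τ => tendsto_int
      (fun _ => by fun_prop) _ (fun n O => bd _ _) ?_))
  · simpa using norm_integral_le_of_norm_le_const (μ := PO μ) (ae_of_all _ fun O =>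
      (Real.norm_eq_abs _).trans_le (bd _ (τ, O)))
  have hm : ∀ t, Monotone fun n => Mk k s1 (dB G n o) t τ := fun t a b hab j hj =>
    hj.imp id fun e => ⟨e.1, dB_mono hab e.2⟩
  have hU : ∀ t j, j ∈ Mk k s1 Set.univ t τ ↔ ∃ n, j ∈ Mk k s1 (dB G n o) t τ := fun t j => by
    obtain ⟨r, hr⟩ := exists_desc C.tree o j.1
    exact ⟨fun h => ⟨r + 1, h.imp id fun e => ⟨e.1, Finset.mem_biUnion.2 ⟨r, by simp, hr⟩⟩⟩,
      fun ⟨_, h⟩ => h.imp id fun e => ⟨e.1, trivial⟩⟩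
  have t1 := fun t => C.tendsto_ms hμ sc_Mk (hm t) (hU t) o
  have t2 := fun t w => C.tendsto_ms hμ ((sc_Mk (k := k) (s := s1) (S := Set.univ) (t := t)
    (τ := τ)).insert w) (S := fun n => insert (w, k) (Mk k s1 (dB G n o) t τ))
    (fun a b hab => Set.insert_subset_insert (hm t hab)) (fun j => by
      simp only [Set.mem_insert_iff, hU, exists_or, exists_const]) o
  filter_upwards [t1 s2, (Finset.eventually_all (dB G N o)).2 fun w _ => t1 (τ (w, k)),
    (Finset.eventually_all (dB G N o)).2 fun w _ => t2 (τ (w, k)) w] with O a b c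
  exact ((a.sub_const _).add (tendsto_finsetSum _ fun w hw =>
    ((c w hw).sub (b w hw)).const_mul _)).pow 2

end Cr

end Vale.Agent.P161
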