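import Vale.Agent.P161.Lam

/-! Size of the messages and decay of averaged variances. -/

namespace Vale.Agent.P161

open Vale.Agent.P151 MeasureTheory Measure Filter Topology Function
open scoped Classical ENNReal

/-- posterior exponential moment -/
noncomputable def Ps (l t : ℝ) : ℝ :=
  ((1 + t) * Real.exp (l * lr t) + (1 - t) * Real.exp (-(l * lr t))) / 2

lemma exp_spin (s : Bool) (y : ℝ) : Real.exp (spin s * y) =
    (Real.exp y + Real.exp (-y)) / 2 + (Real.exp y - Real.exp (-y)) / 2 * spin s := by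
  cases s <;> simp [spin] <;> ring

variable {t l : ℝ}

lemma exp_half_sq (ht : |t| < 1) : Real.exp (lr t / 2) ^ 2 = (1 + t) / (1 - t) := by
  rw [← Real.exp_nat_mul, ← exp_lr ht]; congr 1; push_cast; ring

lemma Ps_half (ht : |t| < 1) : Ps (-(1 / 2)) t = √(1 - t ^ 2) := by
  obtain ⟨a, b⟩ := abs_lt.1 ht
  have h := exp_half_sq ht
  have p := Real.exp_pos (lr t / 2)
  rw [eq_div_iff (by linarith)] at h
  have e : (1 + t) * (Real.exp (lr t / 2))⁻¹ = (1 - t) * Real.exp (lr t / 2) := by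
    rw [← h]; field_simp
  rw [Ps, show -(1 / 2) * lr t = -(lr t / 2) by ring, neg_neg, Real.exp_neg, e,
    show 1 - t ^ 2 = ((1 - t) * Real.exp (lr t / 2)) ^ 2 by linear_combination (t - 1) * h,
    Real.sqrt_sq (mul_nonneg (by linarith) p.le)]
  ring

lemma one_add_le_exp (ht : |t| < 1) : 1 + t ≤ Real.exp (lr t / 2) := by
  obtain ⟨a, b⟩ := abs_lt.1 ht
  refine le_of_sq_le_sq ?_ (Real.exp_pos _).le
  rw [exp_half_sq ht, le_div_iff₀ (by linarith)]
  nlinarith [mul_nonneg (show 0 ≤ 1 + t by linarith) (sq_nonneg t)]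

lemma Ps_le (ht : |t| < 1) : Ps l t ≤ Real.cosh ((l + 1 / 2) * lr t) := by
  have a := one_add_le_exp ht
  have b := one_add_le_exp (t := -t) (by rwa [abs_neg])
  rw [lr_neg] at b
  rw [Real.cosh_eq, Ps, show (l + 1 / 2) * lr t = lr t / 2 + l * lr t by ring,
    show -(lr t / 2 + l * lr t) = -lr t / 2 + -(l * lr t) by ring, Real.exp_add, Real.exp_add]
  gcongr
  linarith

lemma lr_sign (ht : |t| < 1) (hl : 0 ≤ l) :
    0 ≤ t * (Real.exp (l * lr t) - Real.exp (-(l * lr t))) := by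
  rcases le_total 0 t with h | h
  · have : 0 ≤ l * lr t := mul_nonneg hl (by simpa using lr_mono (x := 0) (by simp) ht h)
    exact mul_nonneg h (sub_nonneg.2 (Real.exp_le_exp.2 (by linarith)))
  · have : l * lr t ≤ 0 := mul_nonpos_of_nonneg_of_nonpos hl
      (by simpa using lr_mono (y := 0) ht (by simp) h)
    exact mul_nonneg_of_nonpos_of_nonpos h (sub_nonpos.2 (Real.exp_le_exp.2 (by linarith)))

lemma le_Ps (ht : |t| < 1) (hl : 0 ≤ l) : Real.cosh (l * lr t) ≤ Ps l t := by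
  rw [Real.cosh_eq, Ps]; linarith [lr_sign ht hl]

lemma Ps_contr {θ : ℝ} (h0 : 0 ≤ θ) (h1 : θ ≤ 1) (ht : |t| < 1) (hl : 0 ≤ l) :
    Ps l (θ * t) ≤ Ps ((l + 1 / 2) * θ) t := by
  refine (Ps_le (abs_mul_lt h0 h1 ht)).trans (le_trans (Real.cosh_le_cosh.2 ?_)
    (le_Ps ht (by positivity)))
  have := lr_contr (y := 0) h0 h1 ht (by simp)
  simp only [mul_zero, lr_zero, sub_zero] at this
  rw [mul_assoc, abs_mul, abs_mul, abs_mul, abs_of_nonneg h0]
  gcongr

lemma sqrt_aux {θ x y : ℝ} (hθ : θ ^ 2 ≤ 1 / 2) (hx : |x| < 1) :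
    1 - θ ^ 2 * y ^ 2 / 4 - θ ^ 2 * (1 - y / 2) * (1 - √(1 - x ^ 2)) ≤ √(1 - (θ * x) ^ 2) := by
  have a : x ^ 2 < 1 := (sq_lt_one_iff_abs_lt_one x).2 hx
  have b := Real.sq_sqrt (show 0 ≤ 1 - x ^ 2 by linarith)
  have c := Real.sqrt_nonneg (1 - x ^ 2)
  have e : √(1 - x ^ 2) ≤ 1 := Real.sqrt_le_one.2 (by linarith [sq_nonneg x])
  generalize √(1 - x ^ 2) = w at *
  refine le_trans (b := 1 - θ ^ 2 * (1 - w) + θ ^ 2 * (1 - w) ^ 2 / 4)
    (by nlinarith [mul_nonneg (sq_nonneg θ) (sq_nonneg (1 - w - y))]) (Real.le_sqrt_of_sq_le ?_)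
  rw [mul_pow, show x ^ 2 = 1 - w ^ 2 by linarith]
  have f : 0 ≤ θ ^ 2 * (1 - w) ^ 2 := by positivity
  have g : (1 - (1 - w) / 4) ^ 2 ≤ 1 := by nlinarith
  have := mul_le_mul_of_nonneg_left (mul_le_mul hθ g (sq_nonneg _) (by norm_num)) f
  nlinarith

/-- constant in the tail bound -/
noncomputable def Dt (θ : ℝ) (d : ℕ) : ℝ := 2 * Real.exp (6 * Real.exp (((θ / (2 * (1 - θ)) + 3 / 2) *
  (2 / (1 - rho θ d 1 ^ 2))) ^ 2 / 2) + (θ / (2 * (1 - θ)) + 1) * θ / (1 - θ))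

variable {V : Type*} {G : SimpleGraph V} [G.LocallyFinite] {θ : ℝ} {d : ℕ} {a b c u v w : V}
  {r N : ℕ}

variable (G θ) in
/-- average over the descendants -/
noncomputable def Ak (F : V → V → ℝ) : ℕ → V → V → ℝ
  | 0, u, v => F u v
  | k + 1, u, v => θ ^ 2 * ∑ c ∈ ch G u v, Ak F k c u

namespace Pt

variable {Ω : Type*} [MeasurableSpace Ω] {P : Measure Ω} {σ : Ω → V → Bool} {h : Ω → V → ℝ}
  {H p : ℝ} (L : Pt G θ d P σ h H p)
include L

lemma bm_Ps (l : ℝ) (u v : V) : BM fun ω => Ps l (XX G θ (h ω) u v) := by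
  have := L.fact; have := L.mh
  have := L.bm_lr u v
  unfold Ps; fun_prop

lemma bm_Psθ (l : ℝ) (u v : V) : BM fun ω => Ps l (θ * XX G θ (h ω) u v) := by
  have := L.fact; have := L.mh
  have := L.bm_lrθ u v
  unfold Ps; fun_prop

lemma int_Ps (huv : Ok G u v) (l : ℝ) : ∫ ω, Real.exp (spin (σ ω u) * (l * lr (XX G θ (h ω) u v))) ∂P =
    ∫ ω, Ps l (XX G θ (h ω) u v) ∂P := by
  have := L.prob; have := L.fact; have := L.mh; have := L.mσ
  have := L.bm_lr u v
  simp only [exp_spin]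
  rw [BM.iadd (by fun_prop) (by fun_prop), L.post u v huv (fun x => (Real.exp (l * lr (XX G θ x u v))
    - Real.exp (-(l * lr (XX G θ x u v)))) / 2) (by fun_prop)
    (fun x y e => by simp only [dep_XX subset_rfl e]) (by fun_prop),
    ← BM.iadd (by fun_prop) (by fun_prop)]
  congr 1; funext ω; unfold Ps; ring

lemma prod_al (A : Finset V) (hA : ∀ c ∈ A, G.Adj u c) (l : ℝ) :
    ∫ ω, ∏ c ∈ A, Real.exp (spin (σ ω u) * (l * lr (θ * XX G θ (h ω) c u))) ∂P =
      ∏ c ∈ A, ∫ ω, Ps l (θ * XX G θ (h ω) c u) ∂P := by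
  have := L.prob; have := L.fact; have := L.mh; have := L.mσ
  induction A using Finset.induction_on with
  | empty => simp
  | insert c A hc ih =>
    have hc' := hA c (Finset.mem_insert_self _ _)
    have b0 := L.bm_lrθ c u
    have b1 := b0.comp (measurable_fst (α := Ω) (β := Ω))
    have b2 := fun c => L.bm_lrθ c u
    simp only [Finset.prod_insert hc]
    rw [L.al hc'.symm (f := fun s x => Real.exp (spin s * (l * lr (θ * XX G θ x c u))))
      (g := fun s x => ∏ c ∈ A, Real.exp (spin s * (l * lr (θ * XX G θ x c u))))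
      (fun _ => by fun_prop) (fun _ x y e => by simp only [dep_XX subset_rfl e])
      (fun _ x y e => Finset.prod_congr rfl fun c' hc'' => by rw [dep_XX (Br_disj L.tree hc'
        (hA c' (Finset.mem_insert_of_mem hc'')) fun e => hc (e ▸ hc'')) e])
      (BM.exp (BM.mul (by fun_prop) ((BM.const _).mul b1))) (fun _ => by fun_prop) (by fun_prop)
      (fun x => by simp [XX_neg L.abs_lt, lr_neg, spin]),
      ih fun x hx => hA x (Finset.mem_insert_of_mem hx)]
    congr 1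
    have := L.flipf u (f := fun _ x => (1 + θ * XX G θ x c u) *
      Real.exp (l * lr (θ * XX G θ x c u))) (by fun_prop)
    simp only [XX_neg L.abs_lt, mul_neg, lr_neg, ← sub_eq_add_neg] at this
    simp only [Ps, spin, if_true, one_mul]
    rw [integral_div, BM.iadd (by fun_prop) (by fun_prop), ← this]; ring

lemma mg (huv : Ok G u v) (l : ℝ) :
    Real.exp (-(|l| * H)) * ∏ c ∈ ch G u v, ∫ ω, Ps l (θ * XX G θ (h ω) c u) ∂P ≤
      ∫ ω, Ps l (XX G θ (h ω) u v) ∂P ∧ ∫ ω, Ps l (XX G θ (h ω) u v) ∂P ≤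
      Real.exp (|l| * H) * ∏ c ∈ ch G u v, ∫ ω, Ps l (θ * XX G θ (h ω) c u) ∂P := by
  have := L.prob; have := L.fact; have := L.mh; have := L.mσ
  have b2 := fun c => L.bm_lrθ c u
  have b3 := L.bm_h u
  have e : ∫ ω, Ps l (XX G θ (h ω) u v) ∂P = ∫ ω, Real.exp (spin (σ ω u) * (l * h ω u)) *
      ∏ c ∈ ch G u v, Real.exp (spin (σ ω u) * (l * lr (θ * XX G θ (h ω) c u))) ∂P := by
    rw [← L.int_Ps huv]
    refine integral_congr_ae ?_
    filter_upwards [L.conv] with ω hω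
    simp only [L.bp hω (L.bd ω) huv, mul_add, Real.exp_add, Finset.mul_sum, Real.exp_sum]
  have k : ∀ ω, |spin (σ ω u) * (l * h ω u)| ≤ |l| * H := fun ω => by
    rw [abs_mul, abs_spin, one_mul, abs_mul]; gcongr; exact L.bd ω u
  rw [e, ← L.prod_al _ fun c hc => (mem_ch.1 hc).1, ← integral_const_mul, ← integral_const_mul]
  exact ⟨BM.imono (by fun_prop) (by fun_prop) fun ω => mul_le_mul_of_nonneg_right
      (Real.exp_le_exp.2 (abs_le.1 (k ω)).1) (Finset.prod_nonneg fun _ _ => (Real.exp_pos _).le),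
    BM.imono (by fun_prop) (by fun_prop) fun ω => mul_le_mul_of_nonneg_right
      (Real.exp_le_exp.2 (abs_le.1 (k ω)).2) (Finset.prod_nonneg fun _ _ => (Real.exp_pos _).le)⟩

lemma H_nonneg : 0 ≤ H := by
  have := L.prob
  obtain ⟨ω⟩ := nonempty_of_isProbabilityMeasure P
  obtain ⟨o⟩ := L.tree.connected.nonempty
  exact (abs_nonneg _).trans (L.bd ω o)

lemma q_upper (hH : H ≤ 1) (huv : Ok G u v) : ∫ ω, XX G θ (h ω) u v ^ 2 ∂P ≤ 6 * √H := by
  have := L.prob; have := L.fact; have := L.mh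
  have H0 := L.H_nonneg
  let y : V → V → ℝ := fun u v => ∫ ω, (1 - √(1 - XX G θ (h ω) u v ^ 2)) ∂P
  have y1 : ∀ u v, y u v ≤ 1 := fun u v => by
    simpa using BM.imono (ν := P) (f := fun ω => 1 - √(1 - XX G θ (h ω) u v ^ 2)) (by fun_prop)
      (BM.const 1) fun ω => by linarith [Real.sqrt_nonneg (1 - XX G θ (h ω) u v ^ 2)]
  have y0 : ∀ u v, 0 ≤ y u v := fun u v => integral_nonneg fun ω =>
    sub_nonneg.2 (Real.sqrt_le_one.2 (by linarith [sq_nonneg (XX G θ (h ω) u v)]))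
  obtain ⟨s, h1, h2⟩ := L.exists_sup y 1 fun u v _ => y1 u v
  have s1 : s ≤ 1 := h2 1 fun u v _ => y1 u v
  have s0 : 0 ≤ s := by
    obtain ⟨o', ho⟩ := (G.degree_pos_iff_exists_adj u).1 (by rw [L.reg]; linarith [L.three])
    exact (y0 _ _).trans (h1 _ _ ho)
  have t0 : 0 ≤ s - s ^ 2 / 4 := by nlinarith
  have key : ∀ u v, Ok G u v → y u v ≤ H / 2 + θ ^ 2 * (ch G u v).card * (s - s ^ 2 / 4) := by
    intro u v huv
    have a1 := (L.mg huv (-(1 / 2))).1
    simp only [Ps_half (L.X_lt _ _ _), Ps_half (abs_mul_lt L.pos.le L.lt_one.le (L.X_lt _ _ _))] at a1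
    have a0 : θ ^ 2 * (s - s ^ 2 / 4) ≤ 1 := by nlinarith [L.half, sq_nonneg s]
    have a2 : (1 + -(θ ^ 2 * (s - s ^ 2 / 4))) ^ (ch G u v).card ≤
        ∏ c ∈ ch G u v, ∫ ω, √(1 - (θ * XX G θ (h ω) c u) ^ 2) ∂P := by
      rw [← Finset.prod_const]
      refine Finset.prod_le_prod (fun _ _ => by linarith) fun c hc => le_trans ?_
        (BM.imono (by fun_prop) (by fun_prop) fun ω => sqrt_aux (y := s) L.half (L.X_lt ω c u))
      rw [BM.isub (by fun_prop) (by fun_prop), integral_const_mul]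
      have := mul_le_mul_of_nonneg_left (h1 c u (mem_ch.1 hc).1.symm)
        (show 0 ≤ θ ^ 2 * (1 - s / 2) from mul_nonneg (sq_nonneg _) (by linarith))
      simp only [integral_const, probReal_univ, smul_eq_mul, one_mul]
      change _ ≤ _ - _ * y c u
      linarith
    have a3 := (one_add_mul_le_pow (show -2 ≤ -(θ ^ 2 * (s - s ^ 2 / 4)) by linarith) _).trans a2
    have a4 : 1 - H / 2 ≤ Real.exp (-(|-(1 / 2)| * H)) := by
      rw [abs_neg, abs_of_pos (by norm_num)]; linarith [Real.add_one_le_exp (-(1 / 2 * H))]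
    have a5 := mul_le_mul_of_nonneg_right a4 ((pow_nonneg (by linarith) _).trans a2)
    have a6 := mul_le_mul_of_nonneg_left a3 (show 0 ≤ 1 - H / 2 by linarith)
    have a7 : y u v = 1 - ∫ ω, √(1 - XX G θ (h ω) u v ^ 2) ∂P := by
      simp only [y]; rw [BM.isub (by fun_prop) (by fun_prop)]; simp
    have a8 : 0 ≤ H / 2 * (θ ^ 2 * (ch G u v).card * (s - s ^ 2 / 4)) := by positivity
    nlinarith
  have k2 : s ≤ H / 2 + (s - s ^ 2 / 4) := h2 _ fun u v huv => by
    have := key u v (Or.inr huv)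
    rwa [card_ch_eq L.reg huv, mul_comm (θ ^ 2), L.crit, one_mul] at this
  have k3 := (key u v huv).trans (add_le_add_right (mul_le_mul_of_nonneg_right (L.card_le u v) t0) _)
  have k4 : ∫ ω, XX G θ (h ω) u v ^ 2 ∂P ≤ 2 * y u v := by
    rw [← integral_const_mul]
    refine BM.imono (by fun_prop) (by fun_prop) fun ω => ?_
    have a : XX G θ (h ω) u v ^ 2 < 1 := (sq_lt_one_iff_abs_lt_one _).2 (L.X_lt ω u v)
    nlinarith [Real.sq_sqrt (show 0 ≤ 1 - XX G θ (h ω) u v ^ 2 by linarith),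
      sq_nonneg (1 - √(1 - XX G θ (h ω) u v ^ 2))]
  have k5 := Real.sq_sqrt H0
  have k6 := Real.sqrt_nonneg H
  have k7 : √H ≤ 1 := Real.sqrt_le_one.2 hH
  have k8 : s ≤ 3 / 2 * √H := le_of_sq_le_sq (by nlinarith) (by positivity)
  nlinarith [sq_nonneg s]

lemma tail {ε : ℝ} (e0 : 0 < ε) (e1 : ε ≤ 1) (hH : H ≤ ε ^ 4) (ϑ : ℝ) (hϑ : 0 ≤ ϑ) (huv : G.Adj u v) :
    ∫ ω, ind (ϑ < |XX G θ (h ω) u v|) ∂P ≤ Dt θ d * Real.exp (-(θ * ϑ / ε)) := by
  have := L.prob; have := L.fact; have := L.mh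
  have θ0 := L.pos
  have θ1 := sub_pos.2 L.lt_one
  have H0 := L.H_nonneg
  have H1 : H ≤ 1 := hH.trans (pow_le_one₀ e0.le e1)
  set l0 := θ / (2 * (1 - θ)) with hl0
  have l00 : 0 ≤ l0 := by positivity
  set κ := ((l0 + 3 / 2) * (2 / (1 - rho θ d 1 ^ 2))) ^ 2 / 2 with hκ
  set κ' := (l0 + 1) * θ / (1 - θ) with hκ'
  have T1 : 1 < θ⁻¹ := one_lt_inv_iff₀.2 ⟨θ0, L.lt_one⟩
  have hq : √H ≤ ε ^ 2 := Real.sqrt_le_iff.2 ⟨by positivity, by linarith⟩
  have key : ∀ j : ℕ, ∀ u v, G.Adj u v → ∫ ω, Ps (l0 + θ⁻¹ ^ j) (XX G θ (h ω) u v) ∂P ≤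
      Real.exp ((θ⁻¹ ^ j) ^ 2 * (6 * Real.exp κ * ε ^ 2 + H * κ' * (1 - θ ^ j))) := by
    intro j
    induction j with
    | zero =>
      intro u v huv
      refine (BM.imono (g := fun ω => 1 + Real.exp κ * XX G θ (h ω) u v ^ 2) (L.bm_Ps _ _ _)
        (by fun_prop) fun ω => (Ps_le (L.X_lt ω u v)).trans
          ((Real.cosh_le_exp_half_sq _).trans ?_)).trans ?_
      · have a := lr_le (y := 0) (ρ := rho θ d 1) (th_lt_one _)
          (L.abs_XX_le (fun v => (L.bd ω v).trans H1) u v) (abs_zero.trans_le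
            ((abs_nonneg _).trans (L.abs_XX_le (fun v => (L.bd ω v).trans H1) u v)))
        simp only [lr_zero, sub_zero] at a
        have a1 : XX G θ (h ω) u v ^ 2 ≤ 1 := ((sq_lt_one_iff_abs_lt_one _).2 (L.X_lt ω u v)).le
        have a2 := convexOn_exp.2 (Set.mem_univ κ) (Set.mem_univ 0) (sq_nonneg (XX G θ (h ω) u v))
          (sub_nonneg.2 a1) (by ring)
        simp only [smul_eq_mul, mul_zero, add_zero, Real.exp_zero, mul_one] at a2
        refine (Real.exp_le_exp.2 ?_).trans (a2.trans (by nlinarith [sq_nonneg (XX G θ (h ω) u v)]))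
        have a3 := pow_le_pow_left₀ (abs_nonneg _) a 2
        rw [sq_abs, mul_pow, sq_abs] at a3
        rw [hκ, pow_zero, mul_pow, mul_pow, show l0 + 1 + 1 / 2 = l0 + 3 / 2 by ring]
        nlinarith [mul_le_mul_of_nonneg_left a3 (sq_nonneg (l0 + 3 / 2))]
      · rw [BM.iadd (by fun_prop) (by fun_prop), integral_const_mul]
        have a := mul_le_mul_of_nonneg_left ((L.q_upper H1 (Or.inr huv)).trans
          (mul_le_mul_of_nonneg_left hq (by norm_num))) (Real.exp_pos κ).le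
        simp only [integral_const, probReal_univ, smul_eq_mul, mul_one, pow_zero, sub_self,
          mul_zero, add_zero, one_pow, one_mul]
        linarith [Real.add_one_le_exp (6 * Real.exp κ * ε ^ 2)]
    | succ j ih =>
      intro u v huv
      have lp : 0 ≤ l0 + θ⁻¹ ^ (j + 1) := by positivity
      have e : (l0 + θ⁻¹ ^ (j + 1) + 1 / 2) * θ = l0 + θ⁻¹ ^ j := by
        rw [hl0, pow_succ]; field_simp; ring
      refine (L.mg (Or.inr huv) _).2.trans ((mul_le_mul_of_nonneg_left (Finset.prod_le_prod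
        (fun c _ => integral_nonneg fun ω => (Real.cosh_pos _).le.trans
          (le_Ps (abs_mul_lt θ0.le L.lt_one.le (L.X_lt ω c u)) lp))
        fun c hc => (BM.imono (L.bm_Psθ _ _ _) (L.bm_Ps _ _ _) fun ω =>
          (Ps_contr θ0.le L.lt_one.le (L.X_lt ω c u) lp).trans_eq (by rw [e])).trans
          (ih c u (mem_ch.1 hc).1.symm)) (Real.exp_pos _).le).trans ?_)
      rw [Finset.prod_const, ← Real.exp_nat_mul, ← Real.exp_add, card_ch_eq L.reg huv,
        abs_of_nonneg lp, show (d : ℝ) - 1 = θ⁻¹ ^ 2 by field_simp; exact L.crit]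
      refine Real.exp_le_exp.2 ?_
      have a1 : 1 ≤ θ⁻¹ ^ (j + 1) := one_le_pow₀ T1.le
      have a2 : (θ⁻¹ ^ (j + 1)) ^ 2 * (κ' * (θ ^ j - θ ^ (j + 1))) = (l0 + 1) * θ⁻¹ ^ (j + 1) := by
        rw [hκ', inv_pow, pow_succ θ]; field_simp
      have a3 := mul_le_mul_of_nonneg_right (mul_le_mul_of_nonneg_left a1 l00) H0
      rw [← mul_assoc, ← mul_pow, ← pow_succ']
      nlinarith [congrArg (H * ·) a2]
  obtain ⟨j, j1, j2⟩ := exists_nat_pow_near (one_le_inv_iff₀.2 ⟨e0, e1⟩) T1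
  have lp : 0 ≤ l0 + θ⁻¹ ^ j := by positivity
  have a1 : θ / ε ≤ l0 + θ⁻¹ ^ j := by
    have := mul_le_mul_of_nonneg_left j2.le θ0.le
    rw [pow_succ', ← mul_assoc, mul_inv_cancel₀ θ0.ne', one_mul] at this
    rw [div_eq_mul_inv]; linarith
  have a2 : (θ⁻¹ ^ j) ^ 2 * ε ^ 2 ≤ 1 := by
    rw [← mul_pow]
    exact pow_le_one₀ (by positivity) (by rwa [← le_div_iff₀ e0, one_div])
  refine (BM.imono (g := fun ω => 2 * Real.exp (-(θ * ϑ / ε)) * Ps (l0 + θ⁻¹ ^ j)
    (XX G θ (h ω) u v)) (by fun_prop) ((BM.const _).mul (L.bm_Ps _ _ _)) fun ω => ?_).trans ?_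
  · have b1 := le_Ps (L.X_lt ω u v) lp
    by_cases e : ϑ < |XX G θ (h ω) u v|
    · have b2 := le_lr (y := 0) (L.X_lt ω u v) (by simp)
      simp only [lr_zero, sub_zero] at b2
      have b3 : Real.exp (θ * ϑ / ε) ≤ 2 * Real.cosh ((l0 + θ⁻¹ ^ j) * lr (XX G θ (h ω) u v)) := by
        rw [← Real.cosh_abs, Real.cosh_eq, mul_div_cancel₀ _ two_ne_zero]
        refine le_add_of_le_of_nonneg (Real.exp_le_exp.2 ?_) (Real.exp_pos _).le
        rw [abs_mul, abs_of_nonneg lp, mul_div_right_comm]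
        exact mul_le_mul a1 (e.le.trans b2) hϑ lp
      rw [ind_pos e, Real.exp_neg, mul_right_comm, ← div_eq_mul_inv, le_div_iff₀ (Real.exp_pos _)]
      linarith
    · rw [ind_neg e]
      exact mul_nonneg (by positivity) ((Real.cosh_pos _).le.trans b1)
  · rw [integral_const_mul, Dt, mul_right_comm]
    refine mul_le_mul_of_nonneg_right (mul_le_mul_of_nonneg_left ((key j u v huv).trans
      (Real.exp_le_exp.2 ?_)) (by norm_num)) (Real.exp_pos _).le
    have b1 : H * κ' * (1 - θ ^ j) ≤ κ' * ε ^ 2 := by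
      have : 0 ≤ κ' := by positivity
      have : 0 ≤ θ ^ j := by positivity
      have : ε ^ 4 ≤ ε ^ 2 := pow_le_pow_of_le_one e0.le e1 (by norm_num)
      nlinarith [mul_nonneg H0 (mul_nonneg ‹0 ≤ κ'› ‹0 ≤ θ ^ j›)]
    have b2 : 0 ≤ 6 * Real.exp κ + κ' := by positivity
    nlinarith [mul_le_mul_of_nonneg_left a2 b2, mul_le_mul_of_nonneg_left b1 (sq_nonneg (θ⁻¹ ^ j))]

lemma sq_sum (A : Finset V) (hA : ∀ c ∈ A, G.Adj u c) {f : V → (V → ℝ) → ℝ}
    (m : ∀ c, Measurable (f c)) (dp : ∀ c, DependsOn (f c) (Br G c u))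
    (bf : ∀ c, BM fun ω => f c (h ω)) (e : ∀ c x, f c (-x) = f c x)
    (z : ∀ c, ∫ ω, f c (h ω) ∂P = 0) :
    ∫ ω, (∑ c ∈ A, f c (h ω)) ^ 2 ∂P = ∑ c ∈ A, ∫ ω, f c (h ω) ^ 2 ∂P := by
  have := L.prob
  induction A using Finset.induction_on with
  | empty => simp
  | insert c A hc ih =>
    have hc' := hA c (Finset.mem_insert_self _ _)
    have b1 := BM.sum A fun c _ => bf c
    have := L.pf_even hc'.symm (g := fun x => ∑ c ∈ A, f c x) (m c) (dp c) (fun x y e' =>
      Finset.sum_congr rfl fun c' hc'' => (dp c').mono (Br_disj L.tree hc'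
        (hA c' (Finset.mem_insert_of_mem hc'')) fun e => hc (e ▸ hc'')) e') (bf c) b1 (e c)
    simp only [Finset.sum_insert hc, add_sq, mul_assoc]
    rw [BM.iadd (((bf c).pow 2).add ((BM.const _).mul ((bf c).mul b1))) (b1.pow 2),
      BM.iadd ((bf c).pow 2) ((BM.const _).mul ((bf c).mul b1)), integral_const_mul, this, z,
      ih fun x hx => hA x (Finset.mem_insert_of_mem hx)]
    simp

lemma var_decay {φ : ℝ → ℝ} (m : Measurable φ) (e : ∀ x, φ (-x) = φ x) {B : ℝ}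
    (hB : ∀ ω u v, |φ (XX G θ (h ω) u v)| ≤ B) (k : ℕ) (huv : G.Adj u v) :
    ∫ ω, (Ak G θ (fun a b => φ (XX G θ (h ω) a b)) k u v -
      ∫ ω, Ak G θ (fun a b => φ (XX G θ (h ω) a b)) k u v ∂P) ^ 2 ∂P ≤ (2 * B) ^ 2 * (θ ^ 2) ^ k := by
  have := L.prob; have := L.mh
  have a : ∀ k u v, (Measurable fun x => Ak G θ (fun a b => φ (XX G θ x a b)) k u v) ∧
      (BM fun ω => Ak G θ (fun a b => φ (XX G θ (h ω) a b)) k u v) ∧
      (∀ x, Ak G θ (fun a b => φ (XX G θ (-x) a b)) k u v =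
        Ak G θ (fun a b => φ (XX G θ x a b)) k u v) ∧
      ∀ x y, (∀ i ∈ Br G u v, x i = y i) → Ak G θ (fun a b => φ (XX G θ x a b)) k u v =
        Ak G θ (fun a b => φ (XX G θ y a b)) k u v := by
    intro k
    induction k with
    | zero => exact fun u v => ⟨by simp only [Ak]; fun_prop, ⟨by simp only [Ak]; fun_prop, B,
        fun ω => hB ω u v⟩, fun x => by simp only [XX_neg L.abs_lt, e],
        fun x y e => by simp only [Ak, dep_XX subset_rfl e]⟩
    | succ k ih =>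
      refine fun u v => ⟨(Finset.measurable_sum _ fun c _ => (ih c u).1).const_mul _,
        (BM.const _).mul (BM.sum _ fun c _ => (ih c u).2.1),
        fun x => by simp only [XX_neg L.abs_lt, e], fun x y e => ?_⟩
      rw [Ak, Ak, Finset.sum_congr rfl fun c hc => (ih c u).2.2.2 x y fun i hi =>
        e i (Br_child_subset L.tree (mem_ch.1 hc).1 (mem_ch.1 hc).2 hi)]
  induction k generalizing u v with
  | zero =>
    have b : |∫ ω, φ (XX G θ (h ω) u v) ∂P| ≤ B := by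
      simpa using norm_integral_le_of_norm_le_const (μ := P) (f := fun ω => φ (XX G θ (h ω) u v))
        (C := B) (ae_of_all _ fun ω => hB ω u v)
    simpa using BM.imono (ν := P) (((a 0 u v).2.1.sub (BM.const _)).pow 2) (BM.const ((2 * B) ^ 2))
      fun ω => sq_le_sq' (by simp only [Ak]; linarith [abs_le.1 b, abs_le.1 (hB ω u v)])
        (by simp only [Ak]; linarith [abs_le.1 b, abs_le.1 (hB ω u v)])
  | succ k ih =>
    simp only [Ak]
    rw [integral_const_mul, BM.isum _ fun c _ => (a k c u).2.1]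
    simp only [← mul_sub, ← Finset.sum_sub_distrib, mul_pow]
    rw [integral_const_mul, L.sq_sum _ (fun c hc => (mem_ch.1 hc).1)
      (f := fun c x => Ak G θ (fun a b => φ (XX G θ x a b)) k c u -
        ∫ ω, Ak G θ (fun a b => φ (XX G θ (h ω) a b)) k c u ∂P)
      (fun c => (a k c u).1.sub_const _) (fun c x y e => by simp only [(a k c u).2.2.2 x y e])
      (fun c => (a k c u).2.1.sub (BM.const _)) (fun c x => by rw [(a k c u).2.2.1])
      fun c => by rw [BM.isub (a k c u).2.1 (BM.const _)]; simp]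
    have := mul_le_mul_of_nonneg_left (L.sum_ch_le huv fun c hc => ih hc) (sq_nonneg θ)
    calc _ = _ := by ring
      _ ≤ _ := this
      _ = _ := by ring

end Pt

end Vale.Agent.P161
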