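import Vale.Agent.P161.Rem

/-! Evolution of the discrepancy between the two copies. -/

namespace Vale.Agent.P161

open Vale.Agent.P151 MeasureTheory Measure Filter Topology Function ProbabilityTheory
open scoped Classical ENNReal

lemma gron {c : II → ℝ} {A ε : ℝ} (hA : 0 ≤ A) (hε : 0 ≤ ε) (c0 : ∀ t, 0 ≤ c t) (c4 : ∀ t, c t ≤ 4)
    (h : ∀ s1 s2 : II, s1 ≤ s2 → s2 ≤ hf → ∀ Γ, (∀ t, s1 ≤ t → t < s2 → c t ≤ Γ) →
      c s2 ≤ c s1 + 2 * (s2 - s1) * (A * (Γ + ε))) :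
    c hf + ε ≤ Real.exp (2 * A) * (c 0 + ε) := by
  have one : ∀ s1 s2 : II, s1 ≤ s2 → s2 ≤ hf → 4 * A * (s2 - s1) ≤ 1 →
      c s2 + ε ≤ Real.exp (4 * A * (s2 - s1)) * (c s1 + ε) := by
    intro s1 s2 h1 h2 h3
    have bd : BddAbove (c '' Set.Icc s1 s2) := ⟨4, by rintro _ ⟨t, -, rfl⟩; exact c4 t⟩
    set M := sSup (c '' Set.Icc s1 s2)
    have hM : ∀ t, s1 ≤ t → t ≤ s2 → c t ≤ M := fun t a b => le_csSup bd ⟨t, ⟨a, b⟩, rfl⟩
    have M0 : 0 ≤ M + ε := by linarith [hM s1 le_rfl h1, c0 s1]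
    have k : M ≤ c s1 + 2 * (s2 - s1) * (A * (M + ε)) := by
      refine csSup_le ⟨_, s1, ⟨le_rfl, h1⟩, rfl⟩ ?_
      rintro _ ⟨t, ⟨a, b⟩, rfl⟩
      refine (h s1 t a (b.trans h2) M fun u e e' => hM u e (e'.le.trans b)).trans ?_
      have : (t : ℝ) ≤ s2 := b
      gcongr
    have x0 : 0 ≤ 4 * A * (s2 - s1 : ℝ) := mul_nonneg (by linarith) (sub_nonneg.2 h1)
    generalize hx : 4 * A * (s2 - s1 : ℝ) = x at *
    have k2 : (1 - x / 2) * (M + ε) ≤ c s1 + ε := by rw [← hx]; linarith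
    have k3 : 1 ≤ Real.exp x * (1 - x / 2) := by nlinarith [Real.add_one_le_exp x]
    nlinarith [hM s2 h1 le_rfl, mul_le_mul_of_nonneg_left k2 (Real.exp_pos x).le,
      mul_le_mul_of_nonneg_right k3 M0]
  have key : ∀ n : ℕ, ∀ s : II, s ≤ hf → 4 * A * s ≤ n →
      c s + ε ≤ Real.exp (4 * A * s) * (c 0 + ε) := by
    intro n
    induction n with
    | zero => intro s hs h0; simpa using one 0 s s.2.1 hs (by simp at h0 ⊢; linarith)
    | succ n ih =>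
      intro s hs h0
      have n0 : (0 : ℝ) < n + 1 := by positivity
      let s' : II := ⟨s * (n / (n + 1)), mul_nonneg s.2.1 (by positivity),
        mul_le_one₀ s.2.2 (by positivity) (by rw [div_le_one n0]; linarith)⟩
      have a : s' ≤ s := mul_le_of_le_one_right s.2.1 (by rw [div_le_one n0]; linarith)
      have b := one s' s a hs (by
        have : 4 * A * (s - s' : ℝ) = 4 * A * s / (n + 1) := by simp only [s']; field_simp; ring
        rw [this, div_le_one n0]; exact_mod_cast h0)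
      have e := ih s' (a.trans hs) (by
        simp only [s']; push_cast at h0
        rw [← mul_assoc, mul_div_assoc', div_le_iff₀ n0]; nlinarith)
      refine b.trans ((mul_le_mul_of_nonneg_left e (Real.exp_pos _).le).trans_eq ?_)
      rw [← mul_assoc, ← Real.exp_add]; congr 2; ring
  obtain ⟨n, hn⟩ := exists_nat_ge (4 * A * hf)
  convert key n hf le_rfl hn using 3
  simp only [hf]; ring

lemma alg_rem {x D : ℝ} (x0 : 0 < x) (f : D ^ 2 ≤ 4) (R R' : ℝ) :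
    D ^ 2 ≤ (D - (R - R')) ^ 2 + (4 * x + 2 / x * (R ^ 2 + R' ^ 2)) := by
  have : 2 * D * (R - R') ≤ x * D ^ 2 + 2 / x * (R ^ 2 + R' ^ 2) := by
    rw [div_mul_eq_mul_div, ← sub_le_iff_le_add', le_div_iff₀ x0]
    nlinarith [sq_nonneg (x * D - (R - R')), sq_nonneg (R + R')]
  nlinarith [sq_nonneg (R - R')]

variable {V : Type*} {G : SimpleGraph V} [G.LocallyFinite] {θ : ℝ} {d : ℕ}
  {μ : Measure (V → Bool)} {K k : ℤ} {τ : JJ V → II} {i j : JJ V} {s t s1 s2 : II}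
  {A B : Set (JJ V)} {S : Set V} {o w : V} {r N : ℕ}

variable (G θ) in
/-- jump as a function of the innovation and the data -/
noncomputable def jf (r : ℕ) (o : V) (i : JJ V) (t : II) (z : JJ V → ℝ) : ℝ :=
  aa i.2 * ph (qf (aa i.2 * ms G θ z i.1) t) (aa i.2 * ms G θ z i.1) * Cw G θ (XX G θ (hh z)) r o i.1

variable (G θ) in
/-- rate of the discrepancy -/
noncomputable def Fr (a : ℝ) (r : ℕ) (o w : V) (p : (JJ V → ℝ) × (JJ V → ℝ)) : ℝ :=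
  2 * a ^ 2 * (Cw G θ (XX G θ (hh p.1)) r o w - Cw G θ (XX G θ (hh p.2)) r o w) ^ 2 + 8 * a ^ 4 *
    (Cw G θ (XX G θ (hh p.2)) r o w ^ 2 * (XX G θ (hh p.1) w w - XX G θ (hh p.2) w w) ^ 2)

variable (G θ) in
/-- difference of the jumps -/
noncomputable def DJ (r : ℕ) (o : V) (i : JJ V) (ω : Zb V × OO V × OO V) : ℝ :=
  jf G θ r o i (ω.1.2 i) (zB (Bt i.2 (min (ω.1.1 i) hf) ω.1.1) ω.2.1) -
    jf G θ r o i (ω.1.2 i) (zB (Bt i.2 (min (ω.1.1 i) hf) ω.1.1) ω.2.2)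

variable (G θ) in
/-- discrepancy -/
noncomputable def cc (κ : Kernel (Zb V) (OO V)) (o : V) (k : ℤ) (s : II) : ℝ :=
  ∫ ω, (ms G θ (zB (Bt k s ω.1.1) ω.2.1) o - ms G θ (zB (Bt k s ω.1.1) ω.2.2) o) ^ 2 ∂JP κ

section

variable [Fact (|θ| < 1)]

@[fun_prop] lemma BM.jf {α : Type*} [MeasurableSpace α] {t : α → II} {z : α → JJ V → ℝ}
    (ht : Measurable t) (hz : Measurable z) (r : ℕ) (o : V) (i : JJ V) :
    BM fun x => jf G θ r o i (t x) (z x) :=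
  ((BM.const _).mul ⟨by unfold ph; fun_prop, 1, fun _ =>
    abs_ph_le (abs_qf_le (abs_am _ _ _) _) (abs_am _ _ _)⟩).mul (by unfold Cw; fun_prop)

@[fun_prop] lemma BM.Fr (a : ℝ) (r : ℕ) (o w : V) : BM (Fr G θ a r o w) := by
  unfold P161.Fr Cw; fun_prop

@[fun_prop] lemma BM.DJ (r : ℕ) (o : V) (i : JJ V) : BM (DJ G θ r o i) := by
  unfold P161.DJ; fun_prop

lemma int_jf (z : JJ V → ℝ) : ∫ t, jf G θ r o i t z = 0 := by
  simp only [jf, integral_mul_const, integral_const_mul,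
    integral_ph (abs_am i.2 z i.1) (abs_am i.2 z i.1), sub_self, zero_mul, mul_zero]

lemma jf_sq (t : II) (z z' : JJ V → ℝ) :
    (jf G θ r o i t z - jf G θ r o i t z') ^ 2 ≤ Fr G θ (aa i.2) r o i.1 (z, z') := by
  have m := abs_am (G := G) (θ := θ) i.2 z i.1
  have m' := abs_am (G := G) (θ := θ) i.2 z' i.1
  have h1 := (sq_le_one_iff_abs_le_one _).2 (abs_ph_le (abs_qf_le m t) m)
  have h2 := ph_lip (abs_qf_le m t) m (abs_qf_le m' t) m'
  have h3 := pow_le_pow_left₀ (abs_nonneg _) (h2.trans (b := _)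
    (c := |2 * (aa i.2 * ms G θ z i.1 - aa i.2 * ms G θ z' i.1)|) (by
      rw [abs_mul, abs_two]; linarith [qf_lip m m' t])) 2
  rw [sq_abs, sq_abs] at h3
  simp only [jf, Fr, ms] at *
  generalize ph (qf (aa i.2 * XX G θ (hh z) i.1 i.1) t) _ = p at *
  generalize ph (qf (aa i.2 * XX G θ (hh z') i.1 i.1) t) _ = p' at *
  generalize Cw G θ (XX G θ (hh z)) r o i.1 = c, Cw G θ (XX G θ (hh z')) r o i.1 = c' at *
  nlinarith [mul_le_mul_of_nonneg_left h1 (show 0 ≤ aa i.2 ^ 2 * (c - c') ^ 2 by positivity),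
    mul_le_mul_of_nonneg_left h3 (show 0 ≤ aa i.2 ^ 2 * c' ^ 2 by positivity),
    mul_nonneg (sq_nonneg (aa i.2)) (sq_nonneg (p * (c - c') - (p - p') * c'))]

end

namespace Jn

variable {κ : Kernel (Zb V) (OO V)} (J : Jn G θ d μ κ)
include J

lemma st (k : ℤ) (t : II) : St G θ d (PP μ) (fun ω => ω.2.1) (fun ω => hh (zb (bt k t) ω)) (4 * 16 ^ k)
    (aa (k - 1) ^ 2 / 24) (JP κ) (fun ω => hh (zB (Bt k t ω.1.1) ω.2.1))
    fun ω => hh (zB (Bt k t ω.1.1) ω.2.2) := by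
  have hb : ∀ j : JJ V, MeasurableSet (bt k t j) := fun j =>
    measurableSet_setOfPred.2 (by fun_prop)
  have mz := measurable_zb hb
  refine ⟨J.pl J.free hb (K := k) (fun j hj => by ext x; simp [bt, hj.not_gt, hj.ne'])
    fun v x hx => Or.inl ⟨by simp, hx⟩, J.prob, by fun_prop, by fun_prop,
    fun ω => abs_hh_le sc_Bt _, fun ω => abs_hh_le sc_Bt _, ?_, ?_, fun g => ?_,
    by have := aa_pos (k - 1); positivity, by nlinarith [aa_pos (k - 1), aa_le (k - 1)]⟩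
  · rw [← J.mp2.map_eq, map_map (by fun_prop) J.mp2.measurable]; rfl
  · rw [← (J.mp2.comp J.mp_sw).map_eq, map_map (by fun_prop) (J.mp2.comp J.mp_sw).measurable]; rfl
  · conv_rhs => rw [← (J.mp_aut g).map_eq, map_map (by fun_prop) (J.mp_aut g).measurable]
    rfl

lemma ae_jump (hw : i.1 ∈ desc G r o o) : ∀ᵐ ω ∂JP κ, ω.1.1 i < hf →
    Jp G θ o (Bt i.2 (ω.1.1 i) ω.1.1) i ω.2.1 - Jp G θ o (Bt i.2 (ω.1.1 i) ω.1.1) i ω.2.2 =
      DJ G θ r o i ω := by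
  have := J.free.1
  have := countable_of_tree J.tree
  have : Fact (|θ| < 1) := ⟨J.abs_lt⟩
  have a : ∀ᵐ ω ∂PP μ, Conv G θ (hh (zB (Bt i.2 (ω.1 i) ω.1) ω.2)) := by
    have m : MeasurableSet {ω : Om V | Conv G θ (hh (zB (Bt i.2 (ω.1 i) ω.1) ω.2))} :=
      measurableSet_Conv.preimage (f := fun ω : Om V => hh (zB (Bt i.2 (ω.1 i) ω.1) ω.2))
        (by fun_prop)
    rw [ae_prod_iff_ae_ae m]
    dsimp only
    exact ae_of_all _ fun τ => J.ae_conv J.free (sc_Bt (k := i.2) (s := τ i) (τ := τ))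
  have b : ∀ᵐ ω ∂JP κ, ω.1.1 i < hf → Jp G θ o (Bt i.2 (ω.1.1 i) ω.1.1) i ω.2.1 =
      jf G θ r o i (ω.1.2 i) (zB (Bt i.2 (min (ω.1.1 i) hf) ω.1.1) ω.2.1) := by
    filter_upwards [J.mp2.quasiMeasurePreserving.ae a, J.ae_uu] with ω h1 h2 h
    rw [J.Jp_eq sc_Bt not_mem_Bt hw h1, min_eq_left h.le, jf, h2, uu, if_pos h,
      qf_pit (abs_am _ _ _) (abs_yy _ _), ph, ph]
    congr 1; ring
  filter_upwards [b, J.mp_sw.quasiMeasurePreserving.ae b] with ω h1 h2 h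
  rw [h1 h, h2 h, DJ]

lemma orth (i : JJ V) {Ψ : (JJ V → II) × (JJ V → ℝ) × (JJ V → ℝ) → ℝ} (hΨ : BM Ψ) :
    ∫ ω, Ψ (ω.1.1, zB (Bt i.2 (min (ω.1.1 i) hf) ω.1.1) ω.2.1,
      zB (Bt i.2 (min (ω.1.1 i) hf) ω.1.1) ω.2.2) * DJ G θ r o i ω ∂JP κ = 0 := by
  have : Fact (|θ| < 1) := ⟨J.abs_lt⟩
  refine (J.indep i (Φ := fun q => Ψ q.2 * (jf G θ r o i q.1 q.2.2.1 - jf G θ r o i q.1 q.2.2.2))
    (by fun_prop)).trans (integral_eq_zero_of_ae (ae_of_all _ fun ω => ?_))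
  simp only [integral_const_mul]
  rw [BM.isub (by fun_prop) (by fun_prop), int_jf, int_jf, sub_self, mul_zero]; rfl

lemma orth1 (hs : s2 ≤ hf) (w : V) : ∫ ω, (ms G θ (zB (Bt k s1 ω.1.1) ω.2.1) o -
    ms G θ (zB (Bt k s1 ω.1.1) ω.2.2) o) * (ind (s1 ≤ ω.1.1 (w, k) ∧ ω.1.1 (w, k) < s2) *
      DJ G θ r o (w, k) ω) ∂JP κ = 0 := by
  have : Fact (|θ| < 1) := ⟨J.abs_lt⟩
  refine Eq.trans ?_ (J.orth (r := r) (o := o) (w, k) (Ψ := fun q => (ms G θ (msk (Bt k s1 q.1)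
    q.2.1) o - ms G θ (msk (Bt k s1 q.1) q.2.2) o) * ind (s1 ≤ q.1 (w, k) ∧ q.1 (w, k) < s2))
    (by fun_prop))
  congr 1; funext ω
  by_cases h : s1 ≤ ω.1.1 (w, k) ∧ ω.1.1 (w, k) < s2
  · simp only [min_eq_left (h.2.le.trans hs), mk_zB (Bt_mono h.1), mul_assoc]
  · simp only [ind_neg h, mul_zero, zero_mul]

lemma orth2 (hs : s2 ≤ hf) {w' : V} {r' : ℕ} (hne : w ≠ w') :
    ∫ ω, ind (s1 ≤ ω.1.1 (w, k) ∧ ω.1.1 (w, k) < s2) * DJ G θ r o (w, k) ω *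
      (ind (s1 ≤ ω.1.1 (w', k) ∧ ω.1.1 (w', k) < s2) * DJ G θ r' o (w', k) ω) ∂JP κ = 0 := by
  have : Fact (|θ| < 1) := ⟨J.abs_lt⟩
  have := J.prob
  have := J.free.1
  have := countable_of_tree J.tree
  have key : ∀ w w' r r', ∫ ω, ind (ω.1.1 (w, k) < ω.1.1 (w', k)) *
      (ind (s1 ≤ ω.1.1 (w, k) ∧ ω.1.1 (w, k) < s2) * DJ G θ r o (w, k) ω *
      (ind (s1 ≤ ω.1.1 (w', k) ∧ ω.1.1 (w', k) < s2) * DJ G θ r' o (w', k) ω)) ∂JP κ = 0 := by
    intro w w' r r'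
    refine Eq.trans (integral_congr_ae ?_) (J.orth (r := r') (o := o) (w', k) (Ψ := fun q =>
      ind (q.1 (w, k) < q.1 (w', k)) * (ind (s1 ≤ q.1 (w, k) ∧ q.1 (w, k) < s2) *
      (jf G θ r o (w, k) (uz G θ q.1 q.2.1 (w, k)) (msk (Bt k (q.1 (w, k)) q.1) q.2.1) -
      jf G θ r o (w, k) (uz G θ q.1 q.2.1 (w, k)) (msk (Bt k (q.1 (w, k)) q.1) q.2.2)) *
      ind (s1 ≤ q.1 (w', k) ∧ q.1 (w', k) < s2))) (by fun_prop))
    filter_upwards [J.ae_uu] with ω hω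
    by_cases h : ω.1.1 (w, k) < ω.1.1 (w', k)
    swap
    · simp only [ind_neg h, zero_mul]
    by_cases h' : s1 ≤ ω.1.1 (w', k) ∧ ω.1.1 (w', k) < s2
    swap
    · simp only [ind_neg h', zero_mul, mul_zero]
    have a := h'.2.trans_le hs
    rw [DJ.eq_1 G θ r, hω, uu_eq (B := Bt k (ω.1.1 (w', k)) ω.1.1) (h.trans a) (Or.inr ⟨rfl, h⟩)
      (Bt_mono h.le)]
    simp only [min_eq_left a.le, min_eq_left (h.trans a).le, mk_zB (Bt_mono h.le), mul_assoc]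
  rw [← add_zero 0]
  nth_rw 1 [← key w w' r r', ← key w' w r' r]
  rw [← BM.iadd (by fun_prop) (by fun_prop)]
  refine integral_congr_ae ?_
  filter_upwards [(measurePreserving_fst.comp J.mp2).quasiMeasurePreserving.ae ae_injective]
    with ω (hτ : Injective ω.1.1)
  rcases lt_or_gt_of_ne (hτ.ne fun e : (w, k) = (w', k) => hne (Prod.mk.inj e).1) with h | h
  · rw [ind_pos h, ind_neg h.not_gt]; ring
  · rw [ind_pos h, ind_neg h.not_gt]; ring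

lemma haz (hs : s2 ≤ hf) (w : V) :
    ∫ ω, (ind (s1 ≤ ω.1.1 (w, k) ∧ ω.1.1 (w, k) < s2) * DJ G θ r o (w, k) ω) ^ 2 ∂JP κ ≤
      ∫ t, 2 * (ind (s1 ≤ t ∧ t < s2) * ∫ ω, Fr G θ (aa k) r o w
        (zB (Bt k t ω.1.1) ω.2.1, zB (Bt k t ω.1.1) ω.2.2) ∂JP κ) := by
  have : Fact (|θ| < 1) := ⟨J.abs_lt⟩
  have := J.prob
  rw [integral_const_mul]
  refine le_trans (BM.imono (by fun_prop) (by fun_prop) fun ω => ?_) (J.hazard (w, k) hs
    (F := Fr G θ (aa k) r o w) (by fun_prop) fun p => by unfold Fr; positivity)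
  by_cases h : s1 ≤ ω.1.1 (w, k) ∧ ω.1.1 (w, k) < s2
  · rw [ind_pos h, one_mul, one_mul, DJ, min_eq_left (h.2.le.trans hs)]
    exact jf_sq _ _ _
  · simp [ind_neg h]

lemma step (h1 : s1 ≤ s2) (hs : s2 ≤ hf) {Γ : ℝ} (h : ∀ t, s1 ≤ t → t < s2 → ∀ N,
    ∑ r ∈ Finset.range N, ∑ w ∈ desc G r o o, ∫ ω, Fr G θ (aa k) r o w
      (zB (Bt k t ω.1.1) ω.2.1, zB (Bt k t ω.1.1) ω.2.2) ∂JP κ ≤ Γ) :
    cc G θ κ o k s2 ≤ cc G θ κ o k s1 + 2 * (s2 - s1) * Γ := by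
  have : Fact (|θ| < 1) := ⟨J.abs_lt⟩
  have := J.prob
  choose rk hrk using exists_desc J.tree o
  have a : ∀ N, ∫ ω, (ms G θ (zB (Bt k s1 ω.1.1) ω.2.1) o - ms G θ (zB (Bt k s1 ω.1.1) ω.2.2) o +
      ∑ w ∈ dB G N o, ind (s1 ≤ ω.1.1 (w, k) ∧ ω.1.1 (w, k) < s2) * DJ G θ (rk w) o (w, k) ω) ^ 2
      ∂JP κ ≤ cc G θ κ o k s1 + 2 * (s2 - s1) * Γ := fun N => by
    rw [sq_orth _ (by fun_prop) (fun _ => by fun_prop) fun w _ w' _ hne => J.orth2 hs hne]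
    simp only [J.orth1 hs, mul_zero, zero_add]
    refine add_le_add_right ((Finset.sum_le_sum fun w _ => J.haz hs w).trans ?_) _
    rw [← BM.isum _ fun _ _ => by fun_prop]
    refine (BM.imono (g := fun t => ind (t ∈ Set.Ico s1 s2) * (2 * Γ)) (by fun_prop)
      (by simp only [Set.mem_Ico]; fun_prop) fun t => ?_).trans_eq ?_
    · rw [← Finset.mul_sum, ← Finset.mul_sum]
      by_cases e : s1 ≤ t ∧ t < s2
      · rw [ind_pos e, ind_pos (P := t ∈ _) e, one_mul, one_mul, sum_dB J.tree]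
        refine mul_le_mul_of_nonneg_left (le_trans (le_of_eq ?_) (h t e.1 e.2 N)) two_pos.le
        exact Finset.sum_congr rfl fun r _ => Finset.sum_congr rfl fun w hw => by
          rw [desc_unique J.tree (hrk w) hw]
      · simp [ind_neg e]
    · rw [integral_mul_const, ← real_eq _ measurableSet_Ico, measureReal_def,
        unitInterval.volume_Ico, ENNReal.toReal_ofReal (sub_nonneg.2 h1)]; ring
  have S := J.st k s2
  have e0 := S.eta_pos S.p0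
  have e1 := S.eta_le S.p1
  refine le_of_forall_pos_le_add fun e he => ?_
  obtain ⟨N, hN⟩ := exists_pow_lt_of_lt_one
    (show 0 < (e / 5) ^ 2 * eta θ (aa (k - 1) ^ 2 / 24) / 8 by positivity)
    (show 1 - eta θ (aa (k - 1) ^ 2 / 24) < 1 by linarith)
  have b := J.rem J.free (o := o) (k := k) (s1 := s1) (s2 := s2) N
  have b' := b
  rw [BM.mp J.mp2 (by fun_prop)] at b
  rw [BM.mp (J.mp2.comp J.mp_sw) (by fun_prop)] at b'
  refine (BM.imono' (g := fun ω => (ms G θ (zB (Bt k s1 ω.1.1) ω.2.1) o -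
    ms G θ (zB (Bt k s1 ω.1.1) ω.2.2) o + ∑ w ∈ dB G N o, ind (s1 ≤ ω.1.1 (w, k) ∧
    ω.1.1 (w, k) < s2) * DJ G θ (rk w) o (w, k) ω) ^ 2 + (4 * (e / 5) + 2 / (e / 5) *
    (RR G θ o k s1 s2 Set.univ (dB G N o) (ω.1.1, ω.2.1) ^ 2 +
    RR G θ o k s1 s2 Set.univ (dB G N o) (ω.1.1, ω.2.2) ^ 2))) (by fun_prop) (by fun_prop) ?_).trans
    ?_
  · filter_upwards [(Finset.eventually_all (dB G N o)).2 fun w _ =>
      J.ae_jump (i := (w, k)) (hrk w)] with ω hω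
    have c : ∑ w ∈ dB G N o, ind (s1 ≤ ω.1.1 (w, k) ∧ ω.1.1 (w, k) < s2) * DJ G θ (rk w) o (w, k) ω =
        ms G θ (zB (Bt k s2 ω.1.1) ω.2.1) o - ms G θ (zB (Bt k s2 ω.1.1) ω.2.2) o -
        (ms G θ (zB (Bt k s1 ω.1.1) ω.2.1) o - ms G θ (zB (Bt k s1 ω.1.1) ω.2.2) o) -
        (RR G θ o k s1 s2 Set.univ (dB G N o) (ω.1.1, ω.2.1) -
        RR G θ o k s1 s2 Set.univ (dB G N o) (ω.1.1, ω.2.2)) := by
      simp only [RR, Mk_univ h1, neg_mul, Finset.sum_neg_distrib]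
      ring_nf
      rw [← Finset.sum_sub_distrib]
      refine Finset.sum_congr rfl fun w hw => ?_
      by_cases e : s1 ≤ ω.1.1 (w, k) ∧ ω.1.1 (w, k) < s2
      · rw [← mul_sub, Mk_univ e.1, hω w hw (e.2.trans_le hs)]
      · simp only [ind_neg e, zero_mul, sub_zero]
    rw [c, add_sub_assoc', add_sub_cancel]
    exact alg_rem (by positivity) (S.sq_le ω o o) _ _
  · rw [BM.iadd (by fun_prop) (by fun_prop), BM.iadd (by fun_prop) (by fun_prop),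
      integral_const_mul (2 / (e / 5)), BM.iadd (by fun_prop) (by fun_prop)]
    refine add_le_add (a N) ?_
    have c : 2 * ((1 - eta θ (aa (k - 1) ^ 2 / 24)) ^ N / eta θ (aa (k - 1) ^ 2 / 24)) ≤
        (e / 5) ^ 2 / 4 := by rw [mul_div_assoc', div_le_iff₀ e0]; linarith
    have := mul_le_mul_of_nonneg_left (add_le_add (b.trans c) (b'.trans c))
      (show 0 ≤ 2 / (e / 5) by positivity)
    rw [show 2 / (e / 5) * ((e / 5) ^ 2 / 4 + (e / 5) ^ 2 / 4) = e / 5 by field_simp; ring] at this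
    simp only [integral_const, probReal_univ, smul_eq_mul, one_mul, Function.comp] at this ⊢
    linarith

lemma scale {A ε : ℝ} (hA : 0 ≤ A) (hε : 0 ≤ ε) (h : ∀ t N,
    ∑ r ∈ Finset.range N, ∑ w ∈ desc G r o o, ∫ ω, Fr G θ (aa k) r o w
      (zB (Bt k t ω.1.1) ω.2.1, zB (Bt k t ω.1.1) ω.2.2) ∂JP κ ≤ A * (cc G θ κ o k t + ε)) :
    cc G θ κ o (k + 1) 0 + ε ≤ Real.exp (2 * A) * (cc G θ κ o k 0 + ε) := by
  have : Fact (|θ| < 1) := ⟨J.abs_lt⟩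
  have := J.prob
  have e : ∀ τ : JJ V → II, Bt (k + 1) 0 τ = Bt k hf τ := fun τ => by
    ext j; simp [mem_Bt, le_iff_lt_or_eq, or_and_right]
  have := gron (c := cc G θ κ o k) hA hε (fun t => integral_nonneg fun _ => sq_nonneg _)
    (fun t => (BM.imono (by fun_prop) (BM.const 4) fun ω => (J.st k t).sq_le ω o o).trans_eq
      (by simp)) fun s1 s2 h1 h2 Γ hΓ => J.step h1 h2 fun t a b N => (h t N).trans (by
        gcongr; exact hΓ t a b)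
  simpa only [cc, e] using this

end Jn

end Vale.Agent.P161
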