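import Vale.Agent.P151.Ball

/-! Branches of a tree. -/

namespace Vale.Agent.P161

open Vale.Agent.P151
open scoped Classical

variable {V : Type*} (G : SimpleGraph V)

/-- the branch at `u` seen from `v` -/
def Br (u v : V) : Set V := {w | (G.deleteEdges {s(u, v)}).Reachable u w}

/-- admissible pairs -/
def Ok (u v : V) : Prop := v = u ∨ G.Adj u v

variable {G} {u v w c x y : V}

lemma self_mem_Br (u v : V) : u ∈ Br G u v := SimpleGraph.Reachable.refl _

lemma Br_step (hx : x ∈ Br G u v) (h : G.Adj x y) (hne : s(x, y) ≠ s(u, v)) : y ∈ Br G u v :=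
  SimpleGraph.Reachable.trans hx (SimpleGraph.Adj.reachable (by simp [h]; simpa using hne))

lemma Br_ind {P : V → Prop} (h0 : P u)
    (h1 : ∀ x y, x ∈ Br G u v → P x → G.Adj x y → s(x, y) ≠ s(u, v) → P y)
    (hw : w ∈ Br G u v) : P w := by
  have hw' := (SimpleGraph.reachable_iff_reflTransGen _ _).1 hw
  clear hw
  induction hw' with
  | refl => exact h0
  | tail a b ih =>
    rw [SimpleGraph.deleteEdges_adj] at b
    exact h1 _ _ ((SimpleGraph.reachable_iff_reflTransGen _ _).2 a) ih b.1 (by simpa using b.2)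

lemma conn_ind (hG : G.IsTree) {P : V → Prop} (h0 : P u)
    (h1 : ∀ x y, P x → G.Adj x y → P y) (w : V) : P w := by
  have hw' := (SimpleGraph.reachable_iff_reflTransGen _ _).1 (hG.connected u w)
  induction hw' with
  | refl => exact h0
  | tail a b ih => exact h1 _ _ ih b

lemma not_mem_Br (hG : G.IsTree) (h : G.Adj u v) : v ∉ Br G u v :=
  SimpleGraph.isBridge_iff.1 (SimpleGraph.isAcyclic_iff_forall_adj_isBridge.1 hG.isAcyclic h)

lemma Br_self (hG : G.IsTree) (u w : V) : w ∈ Br G u u :=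
  conn_ind hG (P := fun w => w ∈ Br G u u) (self_mem_Br u u) (fun x y hx h => Br_step hx h (by
    intro e
    have := h.ne
    simp only [Sym2.eq_iff, or_self] at e
    exact this (e.1.trans e.2.symm))) w

lemma Br_compl (hG : G.IsTree) (h : G.Adj u v) : w ∉ Br G u v ↔ w ∈ Br G v u := by
  constructor
  · intro hw
    have : w ∈ Br G u v ∨ w ∈ Br G v u := by
      refine conn_ind hG (u := u) (P := fun w => w ∈ Br G u v ∨ w ∈ Br G v u)
        (Or.inl (self_mem_Br u v)) (fun x y hx hxy => ?_) w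
      by_cases e : s(x, y) = s(u, v)
      · rcases Sym2.eq_iff.1 e with ⟨_, rfl⟩ | ⟨_, rfl⟩
        · exact Or.inr (self_mem_Br _ _)
        · exact Or.inl (self_mem_Br _ _)
      · rcases hx with hx | hx
        · exact Or.inl (Br_step hx hxy e)
        · exact Or.inr (Br_step hx hxy (by rwa [Sym2.eq_swap (a := v)]))
    tauto
  · intro h1 h2
    apply not_mem_Br hG h
    have h1' : (G.deleteEdges {s(u, v)}).Reachable v w := by
      rw [Sym2.eq_swap]; exact h1
    exact SimpleGraph.Reachable.trans h2 h1'.symm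

lemma Br_child_subset (hG : G.IsTree) (hc : G.Adj u c) (hcv : c ≠ v) :
    Br G c u ⊆ Br G u v := by
  intro w hw
  refine Br_ind (P := fun w => w ∈ Br G u v) ?_ ?_ hw
  · refine Br_step (self_mem_Br u v) hc fun e => ?_
    rcases Sym2.eq_iff.1 e with ⟨_, h⟩ | ⟨h, h'⟩
    · exact hcv h
    · exact hc.ne h'.symm
  · intro x y hx hx' hxy hne
    refine Br_step hx' hxy fun e => ?_
    rcases Sym2.eq_iff.1 e with ⟨rfl, _⟩ | ⟨_, rfl⟩
    · exact not_mem_Br hG hc.symm hx
    · exact not_mem_Br hG hc.symm (Br_step hx hxy hne)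

lemma exists_child (hw : w ∈ Br G u v) (hwu : w ≠ u) :
    ∃ c, G.Adj u c ∧ c ≠ v ∧ w ∈ Br G c u := by
  have : w = u ∨ ∃ c, G.Adj u c ∧ c ≠ v ∧ w ∈ Br G c u := by
    refine Br_ind (P := fun w => w = u ∨ ∃ c, G.Adj u c ∧ c ≠ v ∧ w ∈ Br G c u) (Or.inl rfl)
      ?_ hw
    intro x y _ hx hxy hne
    by_cases hy : y = u
    · exact Or.inl hy
    by_cases hx' : x = u
    · subst hx'
      exact Or.inr ⟨y, hxy, fun e => hne (by rw [e]), self_mem_Br _ _⟩
    rcases hx with hx | ⟨c, h1, h2, h3⟩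
    · exact absurd hx hx'
    · refine Or.inr ⟨c, h1, h2, Br_step h3 hxy fun e => ?_⟩
      rcases Sym2.eq_iff.1 e with ⟨_, h⟩ | ⟨h, _⟩
      · exact hy h
      · exact hx' h
  tauto

lemma exists_cut (hG : G.IsTree) {D : Finset V} (hD : (G.induce (D : Set V)).Connected)
    {t : V} (ht : t ∉ D) :
    ∃ a b, G.Adj b a ∧ t ∈ Br G b a ∧ ∀ x ∈ D, x ∉ Br G b a := by
  obtain ⟨⟨d0, hd0⟩⟩ := hD.nonempty
  have key : t ∈ D ∨ ∃ a b, a ∈ D ∧ b ∉ D ∧ G.Adj b a ∧ t ∈ Br G b a := by
    refine conn_ind hG (u := d0)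
      (P := fun t => t ∈ D ∨ ∃ a b, a ∈ D ∧ b ∉ D ∧ G.Adj b a ∧ t ∈ Br G b a) (Or.inl hd0) ?_ t
    intro x y hx hxy
    by_cases hy : y ∈ D
    · exact Or.inl hy
    by_cases hx' : x ∈ D
    · exact Or.inr ⟨x, y, hx', hy, hxy.symm, self_mem_Br _ _⟩
    rcases hx with hx | ⟨a, b, h1, h2, h3, h4⟩
    · exact absurd hx hx'
    · refine Or.inr ⟨a, b, h1, h2, h3, Br_step h4 hxy fun e => ?_⟩
      rcases Sym2.eq_iff.1 e with ⟨_, h⟩ | ⟨h, _⟩
      · exact hy (h ▸ h1)
      · exact hx' (h ▸ h1)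
  rcases key with h | ⟨a, b, h1, h2, h3, h4⟩
  · exact absurd h ht
  refine ⟨a, b, h3, h4, fun x hx => (Br_compl hG h3).2 ?_⟩
  have hr := (SimpleGraph.reachable_iff_reflTransGen _ _).1 (hD ⟨a, h1⟩ ⟨x, hx⟩)
  have : ∀ z : (D : Set V), Relation.ReflTransGen (G.induce (D : Set V)).Adj ⟨a, h1⟩ z →
      (z : V) ∈ Br G a b := by
    intro z hz
    induction hz with
    | refl => exact self_mem_Br _ _
    | @tail p q _ hpq ih =>
      refine Br_step ih hpq fun e => ?_
      rcases Sym2.eq_iff.1 e with ⟨_, h⟩ | ⟨h, _⟩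
      · exact h2 (h ▸ q.2)
      · exact h2 (h ▸ p.2)
  exact this _ hr

lemma card_edgesIn (hG : G.IsTree) {D : Finset V} (hD : (G.induce (D : Set V)).Connected) :
    (edgesIn G D).card + 1 = D.card := by
  have hT : (G.induce (D : Set V)).IsTree := ⟨hD, hG.isAcyclic.induce _⟩
  have h := hT.card_edgeFinset
  have e1 : Fintype.card (D : Set V) = D.card := by simp
  rw [← e1, ← h]
  congr 1
  symm
  refine Finset.card_bij (fun e _ => Sym2.map Subtype.val e) ?_ ?_ ?_
  · intro e he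
    induction e using Sym2.ind with
    | h a b =>
      rw [SimpleGraph.mem_edgeFinset] at he
      exact mem_edgesIn.2 ⟨he, mem_ins_mk.2 ⟨a.2, b.2⟩⟩
  · intro e _ e' _ h
    exact Sym2.map.injective Subtype.val_injective h
  · intro e he
    induction e using Sym2.ind with
    | h a b =>
      obtain ⟨h1, h2⟩ := mem_edgesIn.1 he
      obtain ⟨ha, hb⟩ := mem_ins_mk.1 h2
      exact ⟨s(⟨a, ha⟩, ⟨b, hb⟩), by rw [SimpleGraph.mem_edgeFinset]; exact h1, rfl⟩

lemma Br_map (g : G ≃g G) (h : w ∈ Br G u v) : g w ∈ Br G (g u) (g v) := by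
  refine Br_ind (P := fun w => g w ∈ Br G (g u) (g v)) (self_mem_Br _ _) ?_ h
  intro x y _ hx hxy hne
  refine Br_step hx (g.map_adj_iff.2 hxy) fun e => hne ?_
  simp only [Sym2.eq_iff, EmbeddingLike.apply_eq_iff_eq] at e ⊢
  exact e

variable [G.LocallyFinite]

variable (G) in
/-- children of the pair `(u, v)` -/
noncomputable def ch (u v : V) : Finset V := (G.neighborFinset u).erase v

lemma mem_ch : c ∈ ch G u v ↔ G.Adj u c ∧ c ≠ v := by simp [ch, and_comm]

lemma card_ch_le {d : ℕ} (hd : ∀ v, G.degree v ≤ d) (u v : V) : (ch G u v).card ≤ d :=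
  (Finset.card_erase_le).trans (hd u)

lemma card_ch_adj {d : ℕ} (hd : ∀ v, G.degree v ≤ d) (h : G.Adj u v) :
    (ch G u v).card ≤ d - 1 := by
  unfold ch
  rw [Finset.card_erase_of_mem (by simpa using h)]
  exact Nat.sub_le_sub_right (hd u) 1

lemma ball_connected (k : ℕ) (o : V) : (G.induce (ball G k o : Set V)).Connected := by
  have key : ∀ j ≤ k, ∀ v (hv : v ∈ ball G j o) (hv' : v ∈ ball G k o),
      (G.induce (ball G k o : Set V)).Reachable ⟨o, self_mem_ball k o⟩ ⟨v, hv'⟩ := by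
    intro j
    induction j with
    | zero => intro _ v hv hv'; obtain rfl := mem_ball_zero.1 hv; rfl
    | succ j ih =>
      intro hj v hv hv'
      rcases mem_ball_succ.1 hv with h | ⟨x, hx, hxv⟩
      · exact ih (by omega) v h hv'
      · have hx' : x ∈ ball G k o := ball_mono (by omega) hx
        exact (ih (by omega) x hx hx').trans (SimpleGraph.Adj.reachable hxv)
  have : Nonempty (ball G k o : Set V) := ⟨⟨o, self_mem_ball k o⟩⟩
  exact ⟨fun a b => (key k le_rfl a a.2 a.2).symm.trans (key k le_rfl b b.2 b.2)⟩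

/-- maximum principle along the branches -/
lemma max_principle {d : ℕ} (hd : ∀ v, G.degree v ≤ d) (hd2 : 2 ≤ d) {lam κ r : ℝ}
    (hlam : 0 ≤ lam) (hκ : 0 ≤ κ) (hr : lam * κ * ((d : ℝ) - 1) ≤ r) (hr1 : r < 1)
    (wt : V → ℝ) (hw1 : ∀ u, 1 ≤ wt u) (hw : ∀ u c, G.Adj u c → wt c ≤ κ * wt u)
    (f : V → V → ℝ) {B c : ℝ} (hB : ∀ u v, f u v ≤ B) (hc : 0 ≤ c)
    (hf : ∀ u v, Ok G u v → f u v ≤ c * wt u + lam * ∑ x ∈ ch G u v, f x u) :
    ∀ u v, Ok G u v → f u v ≤ 3 / (1 - r) * c * wt u := by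
  have hd' : (2 : ℝ) ≤ d := by exact_mod_cast hd2
  have hr0 : 0 ≤ r := le_trans (mul_nonneg (mul_nonneg hlam hκ) (by linarith)) hr
  let S : Set ℝ := insert 0 {z | ∃ u v, G.Adj u v ∧ z = f u v / wt u}
  have hS : BddAbove S := by
    refine ⟨max B 0, ?_⟩
    rintro z (rfl | ⟨u, v, _, rfl⟩)
    · exact le_max_right _ _
    · rw [div_le_iff₀ (by linarith [hw1 u])]
      nlinarith [hB u v, le_max_left B 0, le_max_right B 0, hw1 u]
  set s := sSup S with hs
  have hs0 : 0 ≤ s := le_csSup hS (Set.mem_insert _ _)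
  have h1 : ∀ u v, G.Adj u v → f u v ≤ s * wt u := by
    intro u v h
    have : f u v / wt u ≤ s := le_csSup hS (Set.mem_insert_of_mem _ ⟨u, v, h, rfl⟩)
    rwa [div_le_iff₀ (by linarith [hw1 u])] at this
  have h2 : ∀ u v, ∑ x ∈ ch G u v, f x u ≤ (ch G u v).card * (s * (κ * wt u)) := by
    intro u v
    rw [← nsmul_eq_mul]
    refine Finset.sum_le_card_nsmul _ _ _ fun x hx => ?_
    have hx' := (mem_ch.1 hx).1
    exact (h1 x u hx'.symm).trans (mul_le_mul_of_nonneg_left (hw u x hx') hs0)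
  have h3 : s ≤ c + r * s := by
    refine csSup_le ⟨0, Set.mem_insert _ _⟩ ?_
    rintro z (rfl | ⟨u, v, h, rfl⟩)
    · positivity
    · have hwu := hw1 u
      rw [div_le_iff₀ (by linarith)]
      have a1 : ((ch G u v).card : ℝ) ≤ (d : ℝ) - 1 := by
        have := card_ch_adj hd h
        have e : ((d - 1 : ℕ) : ℝ) = (d : ℝ) - 1 := by rw [Nat.cast_sub (by omega)]; simp
        rw [← e]; exact_mod_cast this
      have a2 := h2 u v
      have a3 : ((ch G u v).card : ℝ) * (s * (κ * wt u)) ≤ ((d : ℝ) - 1) * (s * (κ * wt u)) :=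
        mul_le_mul_of_nonneg_right a1 (by positivity)
      have a4 := mul_le_mul_of_nonneg_left (a2.trans a3) hlam
      have a5 := mul_le_mul_of_nonneg_right hr (show 0 ≤ s * wt u by positivity)
      have := hf u v (Or.inr h)
      nlinarith
  have h4 : s ≤ c / (1 - r) := by rw [le_div_iff₀ (by linarith)]; nlinarith
  intro u v h
  have hwu := hw1 u
  have a1 : ((ch G u v).card : ℝ) ≤ 2 * ((d : ℝ) - 1) := by
    have : ((ch G u v).card : ℝ) ≤ d := by exact_mod_cast card_ch_le hd u v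
    linarith
  have a3 : ((ch G u v).card : ℝ) * (s * (κ * wt u)) ≤ 2 * ((d : ℝ) - 1) * (s * (κ * wt u)) :=
    mul_le_mul_of_nonneg_right a1 (by positivity)
  have a4 := mul_le_mul_of_nonneg_left ((h2 u v).trans a3) hlam
  have a5 := mul_le_mul_of_nonneg_right hr (show 0 ≤ s * wt u by positivity)
  have a6 : c ≤ c / (1 - r) := by rw [le_div_iff₀ (by linarith)]; nlinarith
  have a7 : r * s ≤ c / (1 - r) := by nlinarith
  have a8 : 3 / (1 - r) * c * wt u = 3 * (c / (1 - r)) * wt u := by ring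
  have := hf u v h
  have a9 := mul_le_mul_of_nonneg_right a6 (show 0 ≤ wt u by linarith)
  have a10 := mul_le_mul_of_nonneg_right a7 (show 0 ≤ wt u by linarith)
  nlinarith

end Vale.Agent.P161
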