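import Vale.Agent.P161.Msg

/-! Zero field marginals and one-step martingale facts. -/

namespace Vale.Agent.P161

open Vale.Agent.P151 MeasureTheory
open scoped Classical unitInterval

variable {V : Type*} {G : SimpleGraph V} {θ : ℝ} {T : Finset V} {h : V → ℝ} {u v w : V}

lemma wt_half (T s : Finset V) : wt (fun _ => (1 / 2 : ℝ)) T s = (1 / 2) ^ T.card := by
  unfold wt
  rw [← Finset.prod_const]
  exact Finset.prod_congr rfl fun _ _ => by split_ifs <;> norm_num

lemma Ex_half_compl (T : Finset V) (f : Set V → ℝ) :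
    Ex (fun _ => 1 / 2) T f = Ex (fun _ => 1 / 2) T (fun s => f ((T : Set V) \ s)) := by
  unfold Ex
  simp only [wt_half]
  refine Finset.sum_nbij' (fun s => T \ s) (fun s => T \ s) (by simp) (by simp) ?_ ?_ ?_
  · intro s hs; exact Finset.sdiff_sdiff_eq_self (Finset.mem_powerset.1 hs)
  · intro s hs; exact Finset.sdiff_sdiff_eq_self (Finset.mem_powerset.1 hs)
  · intro s hs
    rw [← Finset.coe_sdiff, Finset.sdiff_sdiff_eq_self (Finset.mem_powerset.1 hs)]

lemma Z_spT_zero (T : Finset V) (a : V) : Z G θ T 0 (spT T a) = 0 := by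
  have hs : ∀ x ∈ T, ∀ s : Set V, sp x ((T : Set V) \ s) = - sp x s := by
    intro x hx s
    by_cases h : x ∈ s <;> simp [sp, h, hx]
  have hW : ∀ s : Set V, W G θ T 0 ((T : Set V) \ s) = W G θ T 0 s := by
    intro s
    unfold W
    congr 1
    · refine Finset.prod_congr rfl fun e he => ?_
      induction e using Sym2.ind with
      | h x y =>
        simp only [mem_edgesIn, mem_ins_mk, Finset.mem_coe] at he
        simp only [es, Sym2.lift_mk, hs x he.2.1, hs y he.2.2, neg_mul_neg]
    · simp
  have : Z G θ T 0 (spT T a) = - Z G θ T 0 (spT T a) := by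
    unfold Z
    rw [← Ex_neg, Ex_half_compl]
    refine Ex_congr fun s _ => ?_
    rw [hW]
    unfold spT
    split_ifs with ha
    · rw [hs a ha]; ring
    · simp
  linarith

lemma mm_zero (T : Finset V) (a : V) : mm G θ T a 0 = 0 := by rw [mm, M, Z_spT_zero, zero_div]

lemma Z_one_zero (hG : G.IsTree) (T : Finset V) : Z G θ T 0 (fun _ => 1) = 1 := by
  induction T using Finset.strongInduction with
  | H T ih =>
    rcases (edgesIn G T).eq_empty_or_nonempty with h | ⟨e, he⟩
    · unfold Z W; simp [h, Ex_const]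
    induction e using Sym2.ind with
    | h a b =>
      simp only [mem_edgesIn, mem_ins_mk, Finset.mem_coe, SimpleGraph.mem_edgeSet] at he
      rw [Z_cut hG he.1 (F1 := fun _ => 1) (F2 := fun _ => 1) (by simp), ih, ih]
      · simp [Z_spT_zero]
      · exact Finset.filter_ssubset.2 ⟨a, he.2.1, fun h => h (self_mem_Br a b)⟩
      · exact Finset.filter_ssubset.2 ⟨b, he.2.2, not_mem_Br hG he.1⟩

/-- cylinder indicator -/
noncomputable def cyl (D : Finset V) (η : V → Bool) (s : Set V) : ℝ :=
  ind (∀ v ∈ D, (v ∈ s ↔ η v = true))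

lemma M_cyl_zero (hG : G.IsTree) (hθ : |θ| < 1) {D : Finset V}
    (hD : (G.induce (D : Set V)).Connected) (η : V → Bool) (T : Finset V) (hT : D ⊆ T) :
    M G θ T 0 (cyl D η) =
      (1 / 2) * ∏ e ∈ edgesIn G D, edgeFactor θ η e := by
  induction T using Finset.strongInduction with
  | H T ih =>
    by_cases hTD : T ⊆ D
    · obtain rfl : T = D := subset_antisymm hTD hT
      rw [M, Z_one_zero hG, div_one]
      unfold Z Ex
      rw [Finset.sum_eq_single (T.filter (η · = true))]
      · have e1 : cyl T η (T.filter (η · = true) : Finset V) = 1 :=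
          ind_pos fun v hv => by simp [hv]
        have e3 : ∏ e ∈ edgesIn G T, edgeFactor θ η e =
            (∏ e ∈ edgesIn G T, es θ (T.filter (η · = true) : Finset V) e) *
              (1 / 2) ^ (edgesIn G T).card := by
          rw [← Finset.prod_const, ← Finset.prod_mul_distrib]
          refine Finset.prod_congr rfl fun e he => ?_
          have hs : ∀ x ∈ T, sp x (T.filter (η · = true) : Finset V) = spin (η x) := by
            intro x hx; simp [sp, spin, hx]
          induction e using Sym2.ind with
          | h x y =>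
            simp only [mem_edgesIn, mem_ins_mk, Finset.mem_coe] at he
            simp only [es, edgeFactor, Sym2.lift_mk, hs x he.2.1, hs y he.2.2]
            ring
        beta_reduce
        rw [e1, wt_half, ← card_edgesIn hG hD, e3]
        unfold W
        simp
        ring
      · intro s hs hne
        have : cyl T η s = 0 := ind_neg fun h => hne (by
          ext x
          simp only [Finset.mem_filter]
          exact ⟨fun hx => ⟨Finset.mem_powerset.1 hs hx,
            (h x (Finset.mem_powerset.1 hs hx)).1 hx⟩, fun hx => (h x hx.1).2 hx.2⟩)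
        simp [this]
      · intro h; exact absurd (Finset.mem_powerset.2 (Finset.filter_subset _ _)) h
    · obtain ⟨t, ht, htD⟩ := Finset.not_subset.1 hTD
      obtain ⟨a, b, hab, htb, hDb⟩ := exists_cut hG hD htD
      rw [M_cut hG hθ hab (F1 := fun _ => 1) (F2 := cyl D η)]
      · have := mm_zero (G := G) (θ := θ) (T.filter (· ∈ Br G b a)) b
        unfold mm at this
        simp only [one_mul, M_one hθ, this, zero_mul, mul_zero, add_zero, div_one]
        exact ih _ (Finset.filter_ssubset.2 ⟨t, ht, fun h => h htb⟩)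
          fun x hx => Finset.mem_filter.2 ⟨hT hx, hDb x hx⟩
      · intro s t hs _
        rw [one_mul]
        refine ind_congr (forall₂_congr fun x hx => ?_)
        have : x ∉ s := fun h => hDb x hx (Finset.mem_filter.1 (hs h)).2
        simp [this]

lemma continuous_M_stp (hθ : |θ| < 1) (F : Set V → ℝ) :
    Continuous fun y : I => M G θ T (stp G θ T w y h) F := by
  simp only [M_stp hθ subset_rfl]
  exact continuous_comp_qf (abs_mm_lt hθ T w h).le
    (contOn_div (abs_mm_lt hθ T w h).le (g := fun y => 2 * M G θ T h F + y * _) (by fun_prop))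

lemma integral_M_stp (hθ : |θ| < 1) (F : Set V → ℝ) :
    ∫ y : I, M G θ T (stp G θ T w y h) F = M G θ T h F := by
  simp only [M_stp hθ subset_rfl]
  exact integral_mart (abs_mm_lt hθ T w h).le _ _

/-- the remaining uncertainty at a vertex -/
noncomputable def unc (G : SimpleGraph V) (θ : ℝ) (T : Finset V) (v : V) (h : V → ℝ) : ℝ :=
  √(1 - mm G θ T v h ^ 2)

lemma continuous_unc_stp (hθ : |θ| < 1) :
    Continuous fun y : I => unc G θ T v (stp G θ T w y h) := by
  have := continuous_M_stp (G := G) (T := T) (w := w) (h := h) hθ (spT T v)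
  unfold unc mm
  fun_prop

lemma one_sub_mm_pos (hθ : |θ| < 1) : 0 < 1 - mm G θ T v h ^ 2 := by
  have := abs_mm_lt (G := G) hθ T v h
  nlinarith [abs_nonneg (mm G θ T v h), sq_abs (mm G θ T v h)]

lemma integral_unc_stp (hθ : |θ| < 1) :
    ∫ y : I, unc G θ T v (stp G θ T w y h) ≤ unc G θ T v h := by
  have hp := one_sub_mm_pos (G := G) (T := T) (v := v) (h := h) hθ
  have hs : 0 < unc G θ T v h := Real.sqrt_pos.2 hp
  have hs2 : unc G θ T v h ^ 2 = 1 - mm G θ T v h ^ 2 := Real.sq_sqrt hp.le
  have c := continuous_M_stp (G := G) (T := T) (w := w) (h := h) hθ (spT T v)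
  have : ∫ y : I, unc G θ T v (stp G θ T w y h) ≤
      ∫ y : I, (1 - mm G θ T v h * M G θ T (stp G θ T w y h) (spT T v)) / unc G θ T v h := by
    refine integral_mono (integrable_I (continuous_unc_stp hθ)) (integrable_I (by fun_prop))
      fun y => ?_
    have h2 : unc G θ T v (stp G θ T w y h) ^ 2 = 1 - mm G θ T v (stp G θ T w y h) ^ 2 :=
      Real.sq_sqrt (one_sub_mm_pos hθ).le
    change _ ≤ (1 - mm G θ T v h * mm G θ T v (stp G θ T w y h)) / _
    rw [le_div_iff₀ hs]
    nlinarith [sq_nonneg (mm G θ T v h - mm G θ T v (stp G θ T w y h)),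
      sq_nonneg (unc G θ T v h - unc G θ T v (stp G θ T w y h))]
  refine this.trans (le_of_eq ?_)
  rw [integral_div, integral_sub (integrable_const _) (integrable_I (by fun_prop)),
    integral_const_mul, integral_M_stp hθ, div_eq_iff hs.ne']
  simp only [integral_const, probReal_univ, smul_eq_mul, mul_one]
  change 1 - mm G θ T v h * mm G θ T v h = _
  linarith

lemma integral_unc_stp_self (hθ : |θ| < 1) (hv : v ∈ T) :
    ∫ y : I, unc G θ T v (stp G θ T v y h) ≤ 23 / 24 * unc G θ T v h := by
  have hm := (abs_mm_lt (G := G) hθ T v h).le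
  have hp := one_sub_mm_pos (G := G) (T := T) (v := v) (h := h) hθ
  have hs2 : unc G θ T v h ^ 2 = 1 - mm G θ T v h ^ 2 := Real.sq_sqrt hp.le
  have hs : 0 ≤ unc G θ T v h := Real.sqrt_nonneg _
  rw [← integral_contr hm]
  refine integral_mono (integrable_I (continuous_unc_stp hθ)) (integrable_I
    (continuous_comp_qf hm (contOn_div hm (g := fun y => unc G θ T v h * (2 - y ^ 2 / 4))
      (by fun_prop)))) fun y => ?_
  have hy := abs_qf_le hm y
  have hd := one_le_den hm hy
  have hy2 : qf (mm G θ T v h) y ^ 2 ≤ 1 := by rwa [sq_le_one_iff_abs_le_one]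
  have e : mm G θ T v (stp G θ T v y h) = (2 * mm G θ T v h + qf (mm G θ T v h) y) /
      (2 + mm G θ T v h * qf (mm G θ T v h) y) := by
    rw [mm, M_stp hθ subset_rfl, spT_of_mem hv]
    simp only [sp_sq, M_one hθ, mul_one]
    rw [← spT_of_mem hv]; rfl
  refine Real.sqrt_le_iff.2 ⟨div_nonneg (mul_nonneg hs (by linarith)) (by linarith), ?_⟩
  rw [e, div_pow, div_pow, mul_pow, hs2, le_div_iff₀ (by positivity), sub_mul,
    div_mul_cancel₀ _ (by positivity)]
  generalize qf (mm G θ T v h) y = q at *
  generalize mm G θ T v h = m at *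
  nlinarith [mul_nonneg hp.le (sq_nonneg (q ^ 2))]

end Vale.Agent.P161
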